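import Crest.Agent.R086.Mb.LimA

/-! Row 86, part M-b: the symmetry modes converge. -/

set_option autoImplicit false

open MeasureTheory Set Filter Topology
open scoped ComplexConjugate

namespace Crest.Agent.R086.Mb

variable {b R : ℕ → ℝ} {q : ℕ → ℝ → ℂ} {ν : ℕ → ℕ} {b' R' : ℝ} {Φ : ℝ → ℂ}

/-- the limit profile -/
structure LimQ (q : ℕ → ℝ → ℂ) (ν : ℕ → ℕ) (b' R' : ℝ) (Φ : ℝ → ℂ) : Prop where
  sΦ : ContDiffOn ℝ 12 Φ (Ioi R')
  oΦ : ∀ r, R' < r → Complex.I * DD 0 Φ r = (-Complex.I * b') * Φ r + (r : ℂ) / 2 * deriv Φ r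
  tQ : ∀ r, R' < r → Tendsto (fun k => Qr (q (ν k)) r) atTop (𝓝 (Φ r))
  tQ' : ∀ r, R' < r → Tendsto (fun k => deriv (Qr (q (ν k))) r) atTop (𝓝 (deriv Φ r))

theorem LimB_DD_mul (m : ℕ) (a : ℂ) (u : ℝ → ℂ) :
    DD m (fun r => a * u r) = fun r => a * DD m u r := lv_const_mul m a u 1

theorem LimB_eqn_mul {R₀ : ℝ} {m : ℕ} {α : ℂ} {u v : ℝ → ℂ} (h : Eqn R₀ m α u fun _ => 0) (a : ℂ)
    (he : ∀ r, R₀ < r → v r = a * u r) : Eqn R₀ m α v fun _ => 0 := by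
  intro r hr
  rw [DD_congr he hr, deriv_congr_Ioi he hr, he r hr, LimB_DD_mul, deriv_const_mul_field]
  linear_combination a * h r hr

theorem LimB_deriv_ph1 {R₀ r : ℝ} {Q : ℝ → ℂ} (hQ : ContDiffOn ℝ (2 : ℕ) Q (Ioi R₀)) (hr : R₀ < r)
    (a b : ℝ) : deriv (ph1 a b Q) r = (-(a : ℂ) + Complex.I * b) * deriv Q r -
      (1 / 2 * deriv Q r + (r : ℂ) / 2 * deriv (deriv Q) r) := by
  have h1 : HasDerivAt (fun r : ℝ => (r : ℂ) / 2) (1 / 2) r := by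
    simpa using (Complex.ofRealCLM.hasDerivAt (x := r)).div_const 2
  exact (((hasDerivAt_of_contDiffOn hQ one_le_two hr).const_mul _).sub
    (h1.mul (hasDerivAt_deriv_of_contDiffOn hQ le_rfl hr))).deriv

/-- the free equations of the limit modes: `φ₀ = iΦ`; `φ₁ = -i𝒟₀Φ` (`Eqn.succ`); `φ₂ = Φ'` (`Eqn.deriv`,
`DD_deriv`: `𝒟₁Φ' = (𝒟₀Φ)'`) -/
theorem LimQ.eqn (h : LimQ q ν b' R' Φ) (hR : 0 ≤ R') :
    Eqn R' 0 (0 - Complex.I * b') (ph0 Φ) (fun _ => 0) ∧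
    Eqn R' 0 (1 - Complex.I * b') (ph1 0 b' Φ) (fun _ => 0) ∧
    Eqn R' 1 (1 / 2 - Complex.I * b') (ph2 Φ) (fun _ => 0) := by
  have h0 : Eqn R' 0 (-Complex.I * b') Φ fun _ => 0 := fun r hr => by
    rw [h.oΦ r hr, add_zero]
  have s3 : ContDiffOn ℝ 3 Φ (Ioi R') := h.sΦ.of_le (by norm_num)
  refine ⟨?_, ?_, fun r hr => ?_⟩
  · rw [zero_sub, ← neg_mul]
    exact LimB_eqn_mul h0 Complex.I fun _ _ => rfl
  · have h1 := h0.succ hR (h.sΦ.of_le (by norm_num))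
    rw [show DD 0 (fun _ => 0) = fun _ => 0 from lv_zero_fun 0 1,
      show -Complex.I * b' + 1 = 1 - Complex.I * b' by ring] at h1
    refine LimB_eqn_mul h1 (-Complex.I) fun r hr => ?_
    rw [neg_mul, h.oΦ r hr, ph1]
    push_cast
    ring
  · have h1 := h0.deriv hR s3 hr
    have h2 := DD_deriv (m := 0) hR s3 hr
    have h3 := deriv2_eq 0 Φ r
    have h4 : DD 1 (deriv Φ) r = DD 0 (deriv Φ) r - 11 / (r : ℂ) ^ 2 * deriv Φ r := by
      simp only [DD]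
      push_cast
      ring
    have h5 : MM 0 = 0 := by simp [MM]
    rw [← h3, deriv_const] at h1
    rw [h5] at h2
    change Complex.I * DD 1 (deriv Φ) r = (1 / 2 - Complex.I * b') * deriv Φ r +
      (r : ℂ) / 2 * deriv (deriv Φ) r + 0
    rw [h4, h2]
    push_cast
    linear_combination h1

theorem LimQ.smooth (h : LimQ q ν b' R' Φ) : ContDiffOn ℝ 10 (ph0 Φ) (Ioi R') ∧
    ContDiffOn ℝ 10 (ph1 0 b' Φ) (Ioi R') ∧ ContDiffOn ℝ 10 (ph2 Φ) (Ioi R') := by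
  have s0 : ContDiffOn ℝ 10 Φ (Ioi R') := h.sΦ.of_le (by norm_num)
  have s1 : ContDiffOn ℝ 10 (deriv Φ) (Ioi R') :=
    contDiffOn_deriv (N := 10) (h.sΦ.of_le (by norm_num))
  exact ⟨contDiffOn_const.mul s0, (contDiffOn_const.mul s0).sub
    ((Complex.ofRealCLM.contDiff.contDiffOn.div_const 2).mul s1), s1⟩

theorem LimB_step (h : Sub b R q ν b' R') {m : ℕ} {l : ℂ} (hl : conj l = l) {f : ℕ → ℝ → ℂ}
    {F₀ : ℝ → ℂ} (hE : ∀ᶠ k in atTop,
      Eig (ν k) (b (ν k)) (q (ν k)) m l 0 0 0 (f k) fun r => conj (f k r))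
    (sF : ContDiffOn ℝ 10 F₀ (Ioi R')) (qF : Eqn R' m (l - Complex.I * b') F₀ fun _ => 0)
    (cF : ∀ r, R' + 1 / 2 < r → Tendsto (fun k => f k r) atTop (𝓝 (F₀ r)) ∧
      Tendsto (fun k => deriv (f k) r) atTop (𝓝 (deriv F₀ r))) :
    Cv (R' + 1 / 2) m 4 f F₀ ∧ Ub (R' + 1) m f := by
  have hR : R' ≤ R' + 1 / 2 := by linarith
  have c0 : Cv (R' + 1 / 2) m 0 f F₀ := fun j hj => by
    obtain rfl := Nat.le_zero.1 hj
    exact cF
  have := h.step (lam := fun _ => l) (c₀ := fun _ => 0) (c₁ := fun _ => 0) (c₂ := fun _ => 0)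
    (g := fun k r => conj (f k r)) hE tendsto_const_nhds (sF.mono (Ioi_subset_Ioi hR))
    (sF.mono (Ioi_subset_Ioi hR)) (qF.mono hR) (e₀' := fun _ => 0) (by rw [hl]; exact qF.mono hR)
    c0 (by simpa only [Complex.conj_conj] using c0)
    (by simpa only [phc_zero] using cv_zero _ m 4)
    (by simpa only [map_zero, phc_zero] using cv_zero _ m 4)
    (by simpa only [phc_zero] using ub_zero _ m)
    (by simpa only [map_zero, phc_zero] using ub_zero _ m)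
  exact ⟨this.1, this.2.1⟩

/-- `Sub.step` for `Modes.e0` (`phc_zero`, `cv_zero`, `ub_zero`); then `Q_k'' → Φ''` from the level one of `φ₀`
(`deriv2_eq`), which gives the convergence at level zero of `φ₁`, `φ₂`; `Sub.step` for `Modes.e1`, `Modes.e2` -/
theorem Sub.modes_lim (h : Sub b R q ν b' R') (hΦ : LimQ q ν b' R' Φ) :
    (Cv (R' + 1 / 2) 0 4 (fun k => ph0 (Qr (q (ν k)))) (ph0 Φ) ∧
      Ub (R' + 1) 0 (fun k => ph0 (Qr (q (ν k))))) ∧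
    (Cv (R' + 1 / 2) 0 4 (fun k => ph1 (aa (ν k)) (b (ν k)) (Qr (q (ν k)))) (ph1 0 b' Φ) ∧
      Ub (R' + 1) 0 (fun k => ph1 (aa (ν k)) (b (ν k)) (Qr (q (ν k))))) ∧
    (Cv (R' + 1 / 2) 1 4 (fun k => ph2 (Qr (q (ν k)))) (ph2 Φ) ∧
      Ub (R' + 1) 1 (fun k => ph2 (Qr (q (ν k))))) := by
  have hR : 0 ≤ R' := by linarith [h.box.2.1]
  obtain ⟨q0, q1, q2⟩ := hΦ.eqn hR
  obtain ⟨s0, s1, s2⟩ := hΦ.smooth
  have hm := h.hν.eventually h.modes
  have hlt : ∀ r, R' + 1 / 2 < r → R' < r := fun r hr => by linarith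
  have A0 := LimB_step h (map_zero _) (hm.mono fun k hk => hk.e0) s0 q0 fun r hr =>
    ⟨(hΦ.tQ r (hlt r hr)).const_mul Complex.I, by
      unfold ph0
      simp only [deriv_const_mul_field]
      exact (hΦ.tQ' r (hlt r hr)).const_mul Complex.I⟩
  have t2 : ∀ r, R' + 1 / 2 < r → Tendsto (fun k => deriv (deriv (Qr (q (ν k)))) r) atTop
      (𝓝 (deriv (deriv Φ) r)) := by
    intro r hr
    have h1 : Tendsto (fun k => DD 0 (fun r => Complex.I * Qr (q (ν k)) r) r) atTop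
        (𝓝 (DD 0 (fun r => Complex.I * Φ r) r)) := (A0.1 1 (by norm_num) r hr).1
    simp only [LimB_DD_mul] at h1
    have h2 := h1.const_mul (-Complex.I)
    simp only [← mul_assoc, neg_mul, Complex.I_mul_I, neg_neg, one_mul] at h2
    simp only [deriv2_eq 0]
    exact (h2.sub ((hΦ.tQ' r (hlt r hr)).const_mul _)).add ((hΦ.tQ r (hlt r hr)).const_mul _)
  have ta : Tendsto (fun k => -(aa (ν k) : ℂ) + Complex.I * b (ν k)) atTop
      (𝓝 (-((0 : ℝ) : ℂ) + Complex.I * b')) :=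
    h.tendsto_aa.ofReal.neg.add (h.hb.ofReal.const_mul _)
  refine ⟨A0, LimB_step h (map_one _) (hm.mono fun k hk => hk.e1) s1 q1 fun r hr => ⟨?_, ?_⟩,
    LimB_step h (by simp [map_ofNat]) (hm.mono fun k hk => hk.e2) s2 q2 fun r hr =>
      ⟨hΦ.tQ' r (hlt r hr), t2 r hr⟩⟩
  · exact (ta.mul (hΦ.tQ r (hlt r hr))).sub ((hΦ.tQ' r (hlt r hr)).const_mul _)
  · rw [LimB_deriv_ph1 (hΦ.sΦ.of_le (by norm_num)) (hlt r hr)]
    refine ((ta.mul (hΦ.tQ' r (hlt r hr))).sub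
      (((hΦ.tQ' r (hlt r hr)).const_mul _).add ((t2 r hr).const_mul _))).congr' ?_
    filter_upwards [h.hν.eventually h.fam.prof] with k hk
    have hQ : ContDiff ℝ (2 : ℕ) (Qr (q (ν k))) :=
      (contDiff_infty.1 hk.smooth 2).comp (f := fun r : ℝ => r ^ 2 / 4) (by fun_prop)
    exact (LimB_deriv_ph1 hQ.contDiffOn hr _ _).symm

/-- cases `m = 0` (`c₂ = 0`), `m = 1` (`c₀ = c₁ = 0`), `m ≥ 2` (all zero); the limits `d` vanish where the `c k` do;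
`Cv.const_mul`, `Cv.add`, `Cv.congr` -/
theorem Sub.phc_lim (h : Sub b R q ν b' R') (hΦ : LimQ q ν b' R' Φ) {m : ℕ} {c₀ c₁ c₂ : ℕ → ℂ}
    {d₀ d₁ d₂ : ℂ} (ha : ∀ k, Allowed m (c₀ k) (c₁ k) (c₂ k)) (h₀ : Tendsto c₀ atTop (𝓝 d₀))
    (h₁ : Tendsto c₁ atTop (𝓝 d₁)) (h₂ : Tendsto c₂ atTop (𝓝 d₂)) :
    Cv (R' + 1 / 2) m 4 (fun k => phc (aa (ν k)) (b (ν k)) (Qr (q (ν k))) (c₀ k) (c₁ k) (c₂ k))
      (phc 0 b' Φ d₀ d₁ d₂) ∧
    Ub (R' + 1) m (fun k => phc (aa (ν k)) (b (ν k)) (Qr (q (ν k))) (c₀ k) (c₁ k) (c₂ k)) := by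
  have hR : 1 ≤ R' := by linarith [h.box.2.1]
  have hR0 : 0 ≤ R' + 1 / 2 := by linarith
  have hR1 : R' + 1 / 2 ≤ R' + 1 := by linarith
  have hsub : Ioi (R' + 1 / 2) ⊆ Ioi R' := Ioi_subset_Ioi (by linarith)
  obtain ⟨⟨C0, U0⟩, ⟨C1, U1⟩, C2, U2⟩ := h.modes_lim hΦ
  obtain ⟨s0, s1, -⟩ := hΦ.smooth
  have hz : ∀ {c : ℕ → ℂ} {d : ℂ}, Tendsto c atTop (𝓝 d) → (∀ k, c k = 0) → d = 0 := by
    intro c d hc h0
    exact tendsto_nhds_unique hc (by simpa only [funext h0] using tendsto_const_nhds)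
  by_cases hm0 : m = 0
  · subst hm0
    have e2 : ∀ k, c₂ k = 0 := fun k => (ha k).2 zero_ne_one
    have hA : ∀ᶠ k in atTop, Adm (R' + 1 / 2) (fun r => c₀ k * ph0 (Qr (q (ν k))) r) ∧
        Adm (R' + 1 / 2) (fun r => c₁ k * ph1 (aa (ν k)) (b (ν k)) (Qr (q (ν k))) r) :=
      (h.hν.eventually h.modes).mono fun k hk =>
        ⟨(adm_of_radAdm hk.e0.af hR0).const_mul _, (adm_of_radAdm hk.e1.af hR0).const_mul _⟩
    refine ⟨(Cv.add hR0 (C0.const_mul h₀) (C1.const_mul h₁) hA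
      (contDiffOn_const.mul (s0.mono hsub)) (contDiffOn_const.mul (s1.mono hsub))).congr
        (Eventually.of_forall fun k r _ => ?_) fun r _ => ?_,
      (Ub.add (by linarith) hR1 (U0.const_mul (by linarith) h₀) (U1.const_mul (by linarith) h₁)
        hA).congr hR1 (Eventually.of_forall fun k r _ => ?_)⟩
    · rw [phc, e2, zero_mul, add_zero]
    · rw [phc, hz h₂ e2, zero_mul, add_zero]
    · rw [phc, e2, zero_mul, add_zero]
  have e0 : ∀ k, c₀ k = 0 := fun k => ((ha k).1 hm0).1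
  have e1 : ∀ k, c₁ k = 0 := fun k => ((ha k).1 hm0).2
  by_cases hm1 : m = 1
  · subst hm1
    refine ⟨(C2.const_mul h₂).congr (Eventually.of_forall fun k r _ => ?_) fun r _ => ?_,
      (U2.const_mul (by linarith) h₂).congr hR1 (Eventually.of_forall fun k r _ => ?_)⟩
    · rw [phc, e0, e1, zero_mul, zero_mul, add_zero, zero_add]
    · rw [phc, hz h₀ e0, hz h₁ e1, zero_mul, zero_mul, add_zero, zero_add]
    · rw [phc, e0, e1, zero_mul, zero_mul, add_zero, zero_add]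
  · have e2 : ∀ k, c₂ k = 0 := fun k => (ha k).2 hm1
    simp only [e0, e1, e2, hz h₀ e0, hz h₁ e1, hz h₂ e2, phc_zero]
    exact ⟨cv_zero _ _ _, ub_zero _ _⟩

end Crest.Agent.R086.Mb
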