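import Crest.Agent.R086.Mb.High
import Crest.Agent.R086.Mb.LimB
import Crest.Agent.R086.M.Zero2

/-! Row 86, part M-b: the deliverables. -/

set_option autoImplicit false

open MeasureTheory Set Filter Topology
open scoped ComplexConjugate

namespace Crest.Agent.R086.Mb

theorem modes_of_prof {n : ℕ} {b : ℝ} {q : ℝ → ℂ} (h : Prof n b q) : Modes n b q :=
  ⟨⟨by simp, by norm_num, M.radAdm_ph0 h, M.radAdm_conj (M.radAdm_ph0 h),
      ⟨fun _ => ⟨rfl, rfl⟩, fun _ => rfl⟩, fun r hr => (M.eqn_ph0 h r hr).1,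
      fun r hr => (M.eqn_ph0 h r hr).2⟩,
    ⟨by simp, by norm_num, M.radAdm_ph1 h, M.radAdm_conj (M.radAdm_ph1 h),
      ⟨fun _ => ⟨rfl, rfl⟩, fun _ => rfl⟩, fun r hr => (M.eqn_ph1 h r hr).1,
      fun r hr => (M.eqn_ph1 h r hr).2⟩,
    ⟨by simp, by norm_num, M.radAdm_ph2 h, M.radAdm_conj (M.radAdm_ph2 h),
      ⟨fun _ => ⟨rfl, rfl⟩, fun _ => rfl⟩, fun r hr => (M.eqn_ph2 h r hr).1,
      fun r hr => (M.eqn_ph2 h r hr).2⟩⟩

theorem high : M.HighStmt := by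
  intro b R q hF ⟨η₀, C, hη₀, hC, hH⟩
  have hyd : Hyd b R q := by
    refine ⟨η₀, C, hη₀, hC.le, fun η hη => hH.mono fun n hn m lam f g hE r hr => ?_⟩
    obtain ⟨h1, h2⟩ := hn m lam f g hE.re0 hE.re1 hE.af hE.ag fun r hr => ⟨hE.eq1 r hr, hE.eq2 r hr⟩
    have hr0 : R n ≤ r := by linarith [hr.1]
    exact ⟨h1 r ⟨hr0, hr.2⟩, fun r' hr' => h2 r r' hr0 hr'.1 hr'.2⟩
  obtain ⟨β₀, h⟩ := high0 hF hyd
  refine ⟨β₀, h.mono fun n hn m lam f g h0 h1 hβ hf hg he => hn m lam f g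
    ⟨h0, h1, hf, hg, ⟨fun _ => ⟨rfl, rfl⟩, fun _ => rfl⟩, fun r hr => (he r hr).1,
      fun r hr => (he r hr).2⟩ hβ⟩

theorem allowed_conj {m : ℕ} {c₀ c₁ c₂ : ℂ} (h : Allowed m c₀ c₁ c₂) :
    Allowed m (conj c₀) (conj c₁) (conj c₂) :=
  ⟨fun hm => by simp [(h.1 hm).1, (h.1 hm).2], fun hm => by simp [h.2 hm]⟩

theorem adm : M.AdmStmt := by
  intro b R q hF ν m lam c₀ c₁ c₂ f g b' R' l d₀ d₁ d₂ Φ F G hS hL
  have h : Sub b R q ν b' R' := ⟨hF, hF.prof.mono fun n hn => modes_of_prof hn, hS.hν, hS.hb, hS.hR⟩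
  have hΦ : LimQ q ν b' R' Φ := ⟨hL.sΦ, hL.oΦ, hL.tQ, hL.tQ'⟩
  have hR := h.box.2.1
  have h1 : (1 : ℝ) ≤ R' + 1 / 2 := by linarith
  have h0 : (0 : ℝ) ≤ R' + 1 / 2 := by linarith
  have h2 : R' + 1 / 2 ≤ R' + 1 := by linarith
  have h3 : R' ≤ R' + 1 / 2 := by linarith
  have hsub : Ioi (R' + 1 / 2) ⊆ Ioi R' := Ioi_subset_Ioi h3
  have tc : ∀ {c : ℕ → ℂ} {d : ℂ}, Tendsto c atTop (𝓝 d) →
      Tendsto (fun k => conj (c k)) atTop (𝓝 (conj d)) :=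
    fun hc => (Complex.continuous_conj.tendsto _).comp hc
  obtain ⟨p1, p2⟩ := h.phc_lim hΦ hS.allowed hS.hc₀ hS.hc₁ hS.hc₂
  obtain ⟨p3, p4⟩ := h.phc_lim hΦ (fun k => allowed_conj (hS.allowed k)) (tc hS.hc₀) (tc hS.hc₁)
    (tc hS.hc₂)
  have sF : ContDiffOn ℝ 10 F (Ioi (R' + 1 / 2)) := (hL.sF.of_le (by norm_num)).mono hsub
  have sG : ContDiffOn ℝ 10 G (Ioi (R' + 1 / 2)) := (hL.sG.of_le (by norm_num)).mono hsub
  obtain ⟨q1, q2, q3, q4⟩ := h.step (lam := lam) (f := f) (g := g)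
    (Eventually.of_forall fun k => ⟨(hS.re0 k).1, (hS.re0 k).2, hS.admf k, hS.admg k, hS.allowed k,
      fun r hr => (hS.eqn k r hr).1, fun r hr => (hS.eqn k r hr).2⟩) hS.hlam sF sG
    (fun r hr => hL.oF r (hsub hr)) (fun r hr => hL.oG r (hsub hr))
    (fun j hj r hr => by
      obtain rfl := Nat.le_zero.1 hj
      exact ⟨hL.tf r (hsub hr), hL.tf' r (hsub hr)⟩)
    (fun j hj r hr => by
      obtain rfl := Nat.le_zero.1 hj
      refine ⟨hL.tg r (hsub hr), ?_⟩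
      simpa only [lv_zero, deriv_conj] using hL.tg' r (hsub hr)) p1 p3 p2 p4
  obtain ⟨⟨r1, r2⟩, -, -⟩ := h.modes_lim hΦ
  refine ⟨?_, fatou h1 h2 (Eventually.of_forall fun k => adm_of_radAdm (hS.admf k) h0) q1 q2 sF,
    fatou h1 h2 (Eventually.of_forall fun k => (adm_of_radAdm (hS.admg k) h0).conj) q3 q4 sG⟩
  have := fatou h1 h2 ((hS.hν.eventually h.modes).mono fun k hk => adm_of_radAdm hk.e0.af h0) r1 r2
    (hΦ.smooth.1.mono hsub)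
  have e : (DD 0)^[4] (ph0 Φ) = fun r => Complex.I * (DD 0)^[4] Φ r := lv_const_mul 0 Complex.I Φ 4
  simpa only [e, norm_mul, Complex.norm_I, one_mul] using this

end Crest.Agent.R086.Mb
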