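import Crest.Agent.R086.Mb.Lev

/-! Row 86, part M-b: the Caccioppoli inequality on the evanescent side. -/

set_option autoImplicit false

open MeasureTheory Set Filter Topology
open scoped ComplexConjugate

namespace Crest.Agent.R086.Mb

theorem Cacc_alg {x y Y D α : ℂ} {r M : ℝ} (h1 : 1 ≤ r) (h5 : r ≤ 5) (hM : 0 ≤ M)
    (h : Complex.I * D = α * x + (r : ℂ) / 2 * y + Y) :
    ‖y‖ ^ 2 + α.im * ‖x‖ ^ 2 - 14 * (‖x‖ * ‖y‖) - ‖x‖ * ‖Y‖ ≤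
      (conj y * y + conj x * (D - 11 / (r : ℂ) * y + (M : ℂ) / (r : ℂ) ^ 2 * x)).re := by
  have hD : D = -Complex.I * (α * x + (r : ℂ) / 2 * y + Y) := by
    rw [← h]
    linear_combination D * Complex.I_mul_I
  have e : conj y * y + conj x * (D - 11 / (r : ℂ) * y + (M : ℂ) / (r : ℂ) ^ 2 * x) =
      ((‖y‖ ^ 2 : ℝ) : ℂ) - Complex.I * α * ((‖x‖ ^ 2 : ℝ) : ℂ) -
        ((r / 2 : ℝ) : ℂ) * (Complex.I * (conj x * y)) - Complex.I * (conj x * Y) -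
        ((11 / r : ℝ) : ℂ) * (conj x * y) + ((M / r ^ 2 * ‖x‖ ^ 2 : ℝ) : ℂ) := by
    push_cast
    rw [← Complex.conj_mul', ← Complex.conj_mul', hD]
    ring
  have n1 : ‖conj x * y‖ = ‖x‖ * ‖y‖ := by simp
  have n2 : ‖conj x * Y‖ = ‖x‖ * ‖Y‖ := by simp
  have b1 := (abs_le.1 (Complex.abs_im_le_norm (conj x * y))).1
  have b2 := (abs_le.1 (Complex.abs_re_le_norm (conj x * y))).2
  have b3 := (abs_le.1 (Complex.abs_im_le_norm (conj x * Y))).1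
  rw [e]
  rw [n1] at b1 b2
  rw [n2] at b3
  generalize conj x * y = u at *
  generalize conj x * Y = w at *
  simp only [Complex.add_re, Complex.sub_re, Complex.mul_re, Complex.mul_im, Complex.ofReal_re,
    Complex.ofReal_im, Complex.I_re, Complex.I_im]
  have hr : 11 / r ≤ 11 := by rw [div_le_iff₀ (by linarith)]; linarith
  have hr0 : 0 ≤ 11 / r := by positivity
  have p0 : 0 ≤ ‖x‖ * ‖y‖ := by positivity
  have c1 := mul_le_mul_of_nonneg_left b1 (show 0 ≤ r / 2 by linarith)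
  have c2 := mul_le_mul_of_nonneg_left b2 hr0
  have c3 := mul_le_mul_of_nonneg_right hr p0
  have c4 := mul_le_mul_of_nonneg_right h5 p0
  have c5 : 0 ≤ M / r ^ 2 * ‖x‖ ^ 2 := by positivity
  linarith

theorem Cacc_real {a d g ψ ψ' p p' t : ℝ} (h0 : 0 ≤ ψ) (h4 : ψ ≤ 4)
    (h4' : |ψ'| ≤ 4) (hp : |p| ≤ a * d) (ht : 788 ≤ t)
    (hp' : d ^ 2 + t * a ^ 2 - 14 * (a * d) - a * (a + g) ≤ p') :
    ψ ^ 4 * (d ^ 2 / 2 + t / 4 * a ^ 2) - 65536 / t * (a ^ 2 + g ^ 2) ≤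
      4 * ψ ^ 3 * ψ' * p + ψ ^ 4 * p' := by
  have ht0 : 0 < t := by linarith
  obtain ⟨s, hs, hst⟩ : ∃ s : ℝ, 0 < s ∧ s * t = 1 := ⟨t⁻¹, by positivity, inv_mul_cancel₀ ht0.ne'⟩
  have e : 65536 / t = 65536 * s := by
    rw [div_eq_iff ht0.ne', mul_assoc, hst, mul_one]
  have h1 : -(4 * (a * d)) ≤ ψ' * p := by
    refine (abs_le.1 ?_).1
    rw [abs_mul]
    exact mul_le_mul h4' hp (abs_nonneg _) (by norm_num)
  have h2 := mul_le_mul_of_nonneg_left h1 (show 0 ≤ 4 * ψ ^ 3 by positivity)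
  have h3 := mul_le_mul_of_nonneg_left hp' (show 0 ≤ ψ ^ 4 by positivity)
  have h5 : 16 * ψ ^ 3 * (a * d) ≤ ψ ^ 4 * d ^ 2 / 4 + 256 * ψ ^ 2 * a ^ 2 := by
    nlinarith [sq_nonneg (ψ ^ 2 * d / 2 - 16 * ψ * a)]
  have h6 : 256 * ψ ^ 2 ≤ t * ψ ^ 4 / 4 + 65536 * s := by
    have := mul_nonneg hs.le (sq_nonneg (t * ψ ^ 2 / 2 - 256))
    have e2 : s * (t * ψ ^ 2 / 2 - 256) ^ 2 =
        (s * t) * (t * ψ ^ 4 / 4 - 256 * ψ ^ 2) + 65536 * s := by ring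
    rw [e2, hst] at this
    linarith
  have h7 := mul_le_mul_of_nonneg_right h6 (sq_nonneg a)
  have h8 : a * g ≤ t * a ^ 2 / 4 + s * g ^ 2 := by
    have := mul_nonneg hs.le (sq_nonneg (t * a / 2 - g))
    have e2 : s * (t * a / 2 - g) ^ 2 = (s * t) * (t * a ^ 2 / 4 - a * g) + s * g ^ 2 := by ring
    rw [e2, hst] at this
    linarith
  have h9 : 14 * (a * d) + a * a ≤ d ^ 2 / 4 + t / 4 * a ^ 2 := by
    nlinarith [sq_nonneg (d / 2 - 14 * a), mul_le_mul_of_nonneg_right ht (sq_nonneg a)]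
  have h10 := mul_le_mul_of_nonneg_left (add_le_add h8 h9) (show 0 ≤ ψ ^ 4 by positivity)
  have h11 : ψ ^ 4 ≤ 65536 := (pow_le_pow_left₀ h0 h4 4).trans (by norm_num)
  have h12 := mul_le_mul_of_nonneg_right h11 (show 0 ≤ s * g ^ 2 by positivity)
  rw [e]
  linarith

/-- `ψ = (r - R₁)(R₄ - r)`, `b = ψ⁴ r¹¹ Re(F̄ F')` vanishes at both ends;
`b' = 4ψ³ψ' r¹¹ Re(F̄F') + ψ⁴ r¹¹ (|F'|² + M|F|²/r² + Im α |F|² + (r/2) Im(F̄F') + Im(F̄ Y))`, `|Y| ≤ |F| + |G|`,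
`|ψ'| ≤ 4`, `4ψ³|ψ'||F||F'| ≤ ψ⁴|F'|²/4 + 256 ψ²|F|²`, `256 ψ² ≤ c₀κ²ψ⁴/4 + C/κ²`,
`|F||G| ≤ c₀κ²|F|²/4 + |G|²/(c₀κ²)`, `ψ ≤ 4`, `1 ≤ r¹¹ ≤ 5¹¹`;
`intervalIntegral.integral_le_sub_of_hasDeriv_right_of_le`. -/
theorem cacc {c₀ : ℝ} (hc : 0 < c₀) : ∃ κ₀ C : ℝ, 0 ≤ C ∧ ∀ {R₀ R₁ R₄ ε κ : ℝ} {m : ℕ} {α : ℂ}
    {F G : ℝ → ℂ}, 1 ≤ R₀ → Adm R₀ F → Adm R₀ G → Half R₀ ε m α F G (fun _ => 0) → ε ≤ 1 →
    κ₀ ≤ κ → c₀ * κ ^ 2 ≤ α.im → R₀ < R₁ → R₁ ≤ R₄ → R₄ ≤ 5 →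
      ∫ r in R₁..R₄, ((r - R₁) * (R₄ - r)) ^ 4 * en κ F r ≤
        C / κ ^ 2 * ∫ r in R₁..R₄, (‖F r‖ ^ 2 + ‖G r‖ ^ 2) := by
  obtain ⟨μ, hμ, hμ1, hμ2⟩ : ∃ μ : ℝ, 0 < μ ∧ μ ≤ 1 / 2 ∧ μ ≤ c₀ / 4 :=
    ⟨min (1 / 2) (c₀ / 4), by positivity, min_le_left _ _, min_le_right _ _⟩
  refine ⟨max 1 (788 / c₀), 65536 / c₀ / μ, by positivity, ?_⟩
  rintro R₀ R₁ R₄ ε κ m α F G hR aF aG ⟨V, W, hV, hW, hE⟩ hε hκ hα h01 h14 h45
  have hκ1 : 1 ≤ κ := (le_max_left _ _).trans hκ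
  have ht : 788 ≤ c₀ * κ ^ 2 := by
    have := (div_le_iff₀ hc).1 ((le_max_right _ _).trans hκ)
    nlinarith [mul_pos hc (show 0 < κ by linarith)]
  have hsub : Icc R₁ R₄ ⊆ Ioi R₀ := fun r hr => h01.trans_le hr.1
  have d1 : ∀ r ∈ Icc R₁ R₄, HasDerivAt F (deriv F r) r := fun r hr =>
    hasDerivAt_of_contDiffOn (N := 12) aF.smooth (by norm_num) (hsub hr)
  have d2 : ∀ r ∈ Icc R₁ R₄, HasDerivAt (deriv F) (deriv (deriv F) r) r := fun r hr =>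
    hasDerivAt_deriv_of_contDiffOn (N := 12) aF.smooth (by norm_num) (hsub hr)
  have d3 : ∀ r ∈ Icc R₁ R₄, HasDerivAt
      (fun r => ((r - R₁) * (R₄ - r)) ^ 4 * (conj (F r) * deriv F r).re)
      (4 * ((r - R₁) * (R₄ - r)) ^ 3 * (R₄ + R₁ - 2 * r) * (conj (F r) * deriv F r).re +
        ((r - R₁) * (R₄ - r)) ^ 4 *
          (conj (deriv F r) * deriv F r + conj (F r) * deriv (deriv F) r).re) r := fun r hr => by
    have h1 : HasDerivAt (fun r => (r - R₁) * (R₄ - r)) (R₄ + R₁ - 2 * r) r :=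
      (((hasDerivAt_id' r).sub_const R₁).mul ((hasDerivAt_id' r).const_sub R₄)).congr_deriv
        (by ring)
    exact (h1.pow 4).mul (Complex.reCLM.hasFDerivAt.comp_hasDerivAt r ((d1 r hr).star.mul (d2 r hr)))
  have c1 : ContinuousOn F (Icc R₁ R₄) := fun r hr => (d1 r hr).continuousAt.continuousWithinAt
  have c2 : ContinuousOn (deriv F) (Icc R₁ R₄) := fun r hr =>
    (d2 r hr).continuousAt.continuousWithinAt
  have c3 : ContinuousOn G (Icc R₁ R₄) := aG.smooth.continuousOn.mono hsub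
  have c4 : ContinuousOn (fun r => ((r - R₁) * (R₄ - r)) ^ 4 * en κ F r) (Icc R₁ R₄) := by
    unfold en
    fun_prop
  have c5 : ContinuousOn (fun r => ‖F r‖ ^ 2 + ‖G r‖ ^ 2) (Icc R₁ R₄) := by fun_prop
  have key := intervalIntegral.integral_le_sub_of_hasDeriv_right_of_le h14
    (fun r hr => (d3 r hr).continuousAt.continuousWithinAt)
    (fun r hr => (d3 r (Ioo_subset_Icc_self hr)).hasDerivWithinAt)
    (φ := fun r => μ * (((r - R₁) * (R₄ - r)) ^ 4 * en κ F r) -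
      65536 / (c₀ * κ ^ 2) * (‖F r‖ ^ 2 + ‖G r‖ ^ 2))
    (ContinuousOn.integrableOn_Icc (by fun_prop)) (fun r hr => by
      have hr0 : R₀ < r := h01.trans hr.1
      have hr1 : 1 ≤ r := by linarith
      have hs : ∀ {c : ℝ → ℂ}, Sy R₀ 12 2 ε c → ‖c r‖ ≤ 1 := fun h =>
        (h.bd hr0).trans ((div_le_one (by positivity)).2 (by nlinarith))
      have hY : ‖V r * F r + W r * conj (G r) + 0‖ ≤ ‖F r‖ + ‖G r‖ := by
        rw [add_zero]
        refine (norm_add_le _ _).trans (add_le_add ?_ ?_)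
        · rw [norm_mul]
          exact mul_le_of_le_one_left (norm_nonneg _) (hs hV)
        · rw [norm_mul, Complex.norm_conj]
          exact mul_le_of_le_one_left (norm_nonneg _) (hs hW)
      have h1 := Cacc_alg hr1 (by linarith [hr.2]) (MM_nonneg m) (hE r hr0)
      rw [← deriv2_eq] at h1
      have h0 : 0 ≤ (r - R₁) * (R₄ - r) := mul_nonneg (by linarith [hr.1]) (by linarith [hr.2])
      refine le_trans (sub_le_sub_right ?_ _) (Cacc_real (a := ‖F r‖) (d := ‖deriv F r‖) h0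
        (by nlinarith [sq_nonneg (R₄ + R₁ - 2 * r)])
        (abs_le.2 ⟨by linarith [hr.2], by linarith [hr.1]⟩)
        ((Complex.abs_re_le_norm _).trans (by simp)) ht (by
          linarith [mul_le_mul_of_nonneg_left hY (norm_nonneg (F r)),
            mul_le_mul_of_nonneg_right hα (sq_nonneg ‖F r‖)]))
      rw [mul_left_comm]
      refine mul_le_mul_of_nonneg_left ?_ (by positivity)
      unfold en
      linarith [mul_le_mul_of_nonneg_right hμ1 (sq_nonneg ‖deriv F r‖),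
        mul_le_mul_of_nonneg_right hμ2 (show 0 ≤ κ ^ 2 * ‖F r‖ ^ 2 by positivity)])
  have i4 := (c4.intervalIntegrable_of_Icc (μ := volume) h14).const_mul μ
  have i5 := (c5.intervalIntegrable_of_Icc (μ := volume) h14).const_mul (65536 / (c₀ * κ ^ 2))
  rw [intervalIntegral.integral_sub i4 i5, intervalIntegral.integral_const_mul,
    intervalIntegral.integral_const_mul] at key
  simp only [sub_self, mul_zero, zero_mul, ne_eq, OfNat.ofNat_ne_zero, not_false_eq_true,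
    zero_pow, sub_nonpos] at key
  refine le_of_mul_le_mul_left (key.trans_eq ?_) hμ
  field_simp

end Crest.Agent.R086.Mb
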