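import Crest.Agent.R086.Mb.PtA
import Crest.Agent.R086.Mb.Cacc

/-! Row 86, part M-b: case A (`|Im λ|` large). -/

set_option autoImplicit false

open MeasureTheory Set Filter Topology
open scoped ComplexConjugate

namespace Crest.Agent.R086.Mb

theorem CaseA_en_nonneg (κ : ℝ) (u : ℝ → ℂ) (r : ℝ) : 0 ≤ en κ u r := by
  unfold en; positivity

theorem CaseA_cont {R₀ : ℝ} {u : ℝ → ℂ} (hu : Adm R₀ u) (κ : ℝ) :
    ContinuousOn u (Ioi R₀) ∧ ContinuousOn (en κ u) (Ioi R₀) := by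
  have h1 := hu.smooth.continuousOn
  have h2 : ContinuousOn (deriv u) (Ioi R₀) :=
    hu.smooth.continuousOn_deriv_of_isOpen isOpen_Ioi (by norm_num)
  exact ⟨h1, (continuousOn_const.mul (h1.norm.pow 2)).add (h2.norm.pow 2)⟩

/-- `r*` minimises the continuous function `e = en F + en G` on `[Ra + 2h, Ra + 3h]`; with `R₁ = Ra + h`,
`R₄ = Ra + 4h`: `h⁹ e(r*) ≤ ∫ ψ⁴ e ≤ C ∫ ψ⁴ en F ≤ C κ⁻² ∫_{R₁}^{R₄} (|F|² + |G|²)` (`ptA`, `cacc` with
`c₀ = 1/60`), `∫_{R₁}^{r*} ≤ 2h C₁ e(r*)`, `∫_{r*}^{R₄} ≤ C e(r*)/κ` (`outer0`). -/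
theorem caseA {h C₁ : ℝ} (hh : 0 < h) (hC : 0 ≤ C₁) : ∃ ε₀ κ₀ : ℝ, 0 < ε₀ ∧
    ∀ {R₀ Ra ε κ : ℝ} {m : ℕ} {lam α α' : ℂ} {F G : ℝ → ℂ},
    Sys R₀ ε m α α' F G (fun _ => 0) (fun _ => 0) → ε ≤ ε₀ → Spec m lam α α' κ → κ₀ ≤ κ →
    R₀ ≤ Ra → Ra + 4 * h ≤ 5 → MM m ≤ lam.im * Ra ^ 2 →
    (∀ r ∈ Icc (Ra + h) (Ra + 4 * h),
      -(lam * (F r * conj (deriv F r) + conj (G r) * deriv G r)).re ≤ C₁ * (en κ F r + en κ G r) ∧
      ∀ r' ∈ Icc r (Ra + 4 * h), ‖F r‖ ^ 2 + ‖G r‖ ^ 2 ≤ C₁ * (en κ F r' + en κ G r')) →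
      ∃ r ∈ Icc (Ra + 2 * h) (Ra + 3 * h), en κ F r + en κ G r = 0 := by
  obtain ⟨ε₁, κ₁, Cp, hε₁, hCp, hpt⟩ := ptA hh hC
  obtain ⟨κ₂, Cc, hCc, hca⟩ := cacc (c₀ := 1 / 60) (by norm_num)
  obtain ⟨ε₂, Co, hε₂, hε₂1, hCo, hou⟩ := outer0
  set A : ℝ := Cp * (Cc * (2 * h * C₁ + Co)) with hA
  have hA0 : 0 ≤ A := by positivity
  refine ⟨min ε₁ ε₂, max (max κ₁ κ₂) (max 7 (A / h ^ 9 + 1)), lt_min hε₁ hε₂, ?_⟩
  intro R₀ Ra ε κ m lam α α' F G hS hε hsp hκ hR h5 hM hyp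
  simp only [le_min_iff, max_le_iff] at hε hκ
  obtain ⟨⟨k1, k2⟩, k3, k4⟩ := hκ
  have h1 := hS.one_le
  have hκ0 : 0 < κ := by linarith
  have hsub : ∀ {a b : ℝ}, Ra + h ≤ a → a ≤ b → uIcc a b ⊆ Ioi R₀ := fun {a b} ha hab r hr => by
    rw [uIcc_of_le hab] at hr
    exact lt_of_lt_of_le (by linarith) (ha.trans hr.1)
  have cF := CaseA_cont hS.aF κ
  have cG := CaseA_cont hS.aG κ
  have ce : ContinuousOn (fun r => en κ F r + en κ G r) (Ioi R₀) := cF.2.add cG.2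
  have cn : ContinuousOn (fun r => ‖F r‖ ^ 2 + ‖G r‖ ^ 2) (Ioi R₀) :=
    (cF.1.norm.pow 2).add (cG.1.norm.pow 2)
  have cψ : ContinuousOn (fun r => ((r - (Ra + h)) * (Ra + 4 * h - r)) ^ 4 * en κ F r) (Ioi R₀) :=
    ContinuousOn.mul (by fun_prop) cF.2
  have h23 : Ra + 2 * h ≤ Ra + 3 * h := by linarith
  obtain ⟨r₀, hr₀, hmin⟩ := (isCompact_Icc (a := Ra + 2 * h) (b := Ra + 3 * h)).exists_isMinOn
    ⟨_, left_mem_Icc.2 h23⟩ (ce.mono fun r hr => lt_of_lt_of_le (by linarith) hr.1)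
  refine ⟨r₀, hr₀, ?_⟩
  set e₀ := en κ F r₀ + en κ G r₀ with he₀
  have he0 : 0 ≤ e₀ := add_nonneg (CaseA_en_nonneg _ _ _) (CaseA_en_nonneg _ _ _)
  -- the frequency
  have him : 1 / 60 * κ ^ 2 ≤ α.im := by
    have hM0 := MM_nonneg m
    have hRa : 1 ≤ Ra := h1.trans hR
    have hτ : 0 ≤ lam.im := by
      by_contra hn
      have : lam.im * Ra ^ 2 < 0 := mul_neg_of_neg_of_pos (not_le.1 hn) (by positivity)
      linarith
    have h25 : Ra ^ 2 ≤ 25 := by nlinarith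
    have a1 : MM m ≤ lam.im * 25 := hM.trans (mul_le_mul_of_nonneg_left h25 hτ)
    have a2 : κ ^ 2 = 1 + |lam.im| + MM m := hsp.sq
    rw [abs_of_nonneg hτ] at a2
    have a3 := hsp.im.1
    nlinarith
  -- step 1
  have s1 : h ^ 9 * e₀ ≤ Cp * ∫ r in (Ra + 2 * h)..(Ra + 3 * h),
      ((r - (Ra + h)) * (Ra + 4 * h - r)) ^ 4 * en κ F r := by
    rw [← intervalIntegral.integral_const_mul]
    have e1 : h ^ 9 * e₀ = ∫ _ in (Ra + 2 * h)..(Ra + 3 * h), h ^ 8 * e₀ := by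
      rw [intervalIntegral.integral_const, smul_eq_mul]; ring
    rw [e1]
    refine intervalIntegral.integral_mono_on h23 intervalIntegrable_const
      (((cψ.mono (hsub (by linarith) h23)).intervalIntegrable).const_mul _) fun r hr => ?_
    have a1 : e₀ ≤ en κ F r + en κ G r := hmin hr
    have a2 := hpt hS hε.1 hsp k1 hR (r := r) (by linarith [hr.1]) (by linarith [hr.2]) hM
      (hyp r ⟨by linarith [hr.1], by linarith [hr.2]⟩).1
    have a3 : h ^ 8 ≤ ((r - (Ra + h)) * (Ra + 4 * h - r)) ^ 4 := by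
      rw [show h ^ 8 = (h * h) ^ 4 by ring]
      exact pow_le_pow_left₀ (by positivity)
        (mul_le_mul (by linarith [hr.1]) (by linarith [hr.2]) hh.le (by linarith [hr.1])) 4
    calc h ^ 8 * e₀ ≤ ((r - (Ra + h)) * (Ra + 4 * h - r)) ^ 4 * (Cp * en κ F r) :=
          mul_le_mul a3 (a1.trans a2) he0 (by positivity)
      _ = _ := by ring
  have h14 : Ra + h ≤ Ra + 4 * h := by linarith
  have s2 : ∫ r in (Ra + 2 * h)..(Ra + 3 * h), ((r - (Ra + h)) * (Ra + 4 * h - r)) ^ 4 * en κ F r ≤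
      ∫ r in (Ra + h)..(Ra + 4 * h), ((r - (Ra + h)) * (Ra + 4 * h - r)) ^ 4 * en κ F r :=
    intervalIntegral.integral_mono_interval (by linarith) h23 (by linarith)
      (ae_of_all _ fun r => mul_nonneg (by positivity) (CaseA_en_nonneg _ _ _))
      (cψ.mono (hsub le_rfl h14)).intervalIntegrable
  have s3 := hca h1 hS.aF hS.aG hS.hF (hε.2.trans hε₂1) k2 him (R₁ := Ra + h) (R₄ := Ra + 4 * h)
    (by linarith) h14 h5
  have hr1 : Ra + h ≤ r₀ := by linarith [hr₀.1]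
  have hr4 : r₀ ≤ Ra + 4 * h := by linarith [hr₀.2]
  have s4 : ∫ r in (Ra + h)..r₀, (‖F r‖ ^ 2 + ‖G r‖ ^ 2) ≤ 2 * h * C₁ * e₀ := by
    have a1 : ∫ r in (Ra + h)..r₀, (‖F r‖ ^ 2 + ‖G r‖ ^ 2) ≤ ∫ _ in (Ra + h)..r₀, C₁ * e₀ :=
      intervalIntegral.integral_mono_on hr1 (cn.mono (hsub le_rfl hr1)).intervalIntegrable
        intervalIntegrable_const fun r hr =>
          (hyp r ⟨hr.1, hr.2.trans hr4⟩).2 r₀ ⟨hr.2, hr4⟩
    rw [intervalIntegral.integral_const, smul_eq_mul] at a1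
    refine a1.trans ?_
    rw [mul_assoc (2 * h)]
    exact mul_le_mul_of_nonneg_right (by linarith [hr₀.2]) (by positivity)
  have s5 : ∫ r in r₀..(Ra + 4 * h), (‖F r‖ ^ 2 + ‖G r‖ ^ 2) ≤ Co * e₀ := by
    have a1 := (hou hS hε.2 hsp.par hsp.par' (R₁ := r₀) (by linarith) (by linarith)).2 _ hr4 h5
    have a2 : κ * ∫ r in r₀..(Ra + 4 * h), (‖F r‖ ^ 2 + ‖G r‖ ^ 2) ≤
        ∫ r in r₀..(Ra + 4 * h), (en κ F r + en κ G r) := by
      rw [← intervalIntegral.integral_const_mul]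
      refine intervalIntegral.integral_mono_on hr4
        ((cn.mono (hsub hr1 hr4)).intervalIntegrable.const_mul _)
        (ce.mono (hsub hr1 hr4)).intervalIntegrable fun r _ => ?_
      have b1 : κ ≤ κ ^ 2 := by nlinarith
      have b2 := mul_le_mul_of_nonneg_right b1 (add_nonneg (sq_nonneg ‖F r‖) (sq_nonneg ‖G r‖))
      unfold en
      nlinarith [sq_nonneg ‖deriv F r‖, sq_nonneg ‖deriv G r‖]
    refine le_of_mul_le_mul_left (a2.trans (a1.trans (le_of_eq ?_))) hκ0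
    ring
  rw [← intervalIntegral.integral_add_adjacent_intervals (b := r₀)
    (cn.mono (hsub le_rfl hr1)).intervalIntegrable
    (cn.mono (hsub hr1 hr4)).intervalIntegrable] at s3
  have s6 : h ^ 9 * e₀ ≤ A / κ ^ 2 * e₀ := by
    refine s1.trans ((mul_le_mul_of_nonneg_left (s2.trans (s3.trans (mul_le_mul_of_nonneg_left
      (add_le_add s4 s5) (by positivity)))) hCp).trans (le_of_eq ?_))
    rw [hA]; ring
  have s7 : A / κ ^ 2 < h ^ 9 := by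
    have b1 : A / h ^ 9 < κ ^ 2 := by nlinarith
    rw [div_lt_iff₀ (by positivity)] at b1 ⊢
    linarith
  by_contra hne
  have := mul_lt_mul_of_pos_right s7 (lt_of_le_of_ne he0 (Ne.symm hne))
  linarith

end Crest.Agent.R086.Mb
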