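import Crest.Agent.R086.Mb.Lev

/-! Row 86, part M-b: the pointwise ladder on a bounded region. -/

set_option autoImplicit false

open MeasureTheory Set Filter Topology
open scoped ComplexConjugate

namespace Crest.Agent.R086.Mb

theorem Jet.mono {κ r s s' : ℝ} {m j : ℕ} {u : ℝ → ℂ} (h : Jet κ m u j r s) (hκ : 0 ≤ κ)
    (hs : s ≤ s') : Jet κ m u j r s' :=
  ⟨h.1.trans (by gcongr), h.2.trans (by gcongr)⟩

theorem jet_zero_fun {κ r s : ℝ} (hκ : 0 ≤ κ) (hs : 0 ≤ s) (m j : ℕ) :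
    Jet κ m (fun _ => 0) j r s := by
  unfold Jet
  rw [lv_zero_fun]
  simp only [deriv_const', norm_zero]
  exact ⟨by positivity, by positivity⟩

theorem Lad_aux {k κ A r M : ℝ} {j : ℕ} {α f f' g g' x x' e e' : ℂ} (hk : 0 ≤ k) (hκ : 1 ≤ κ)
    (hA : 0 ≤ A) (hr1 : 1 ≤ r) (hr5 : r ≤ 5) (hj : (j : ℝ) ≤ 3) (hM0 : 0 ≤ M) (hM : M ≤ κ ^ 2)
    (hα : ‖α‖ ≤ 5 * κ ^ 2)
    (q1 : Complex.I * g = (α + j) * f + (r : ℂ) / 2 * f' + (x + e))
    (q2 : Complex.I * g' = (α + j + 1 / 2) * f' + (r : ℂ) / 2 *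
      (g - 11 / (r : ℂ) * f' + (M : ℂ) / (r : ℂ) ^ 2 * f) + (x' + e'))
    (f0 : ‖f‖ ≤ A) (f1 : ‖f'‖ ≤ κ * A) (x0 : ‖x‖ ≤ k * (14 * A)) (x1 : ‖x'‖ ≤ k * (16 * (κ * A)))
    (e0 : ‖e‖ ≤ A) (e1 : ‖e'‖ ≤ κ * A) :
    (‖g‖ ≤ (70 + 51 * k) * (κ ^ 2 * A) ∧ ‖g'‖ ≤ (70 + 51 * k) * (κ ^ 3 * A)) ∧
      ‖g + Complex.I * α * f‖ ≤ (70 + 51 * k) * (κ * A) ∧
      ‖g' + Complex.I * α * f'‖ ≤ (70 + 51 * k) * (κ ^ 2 * A) := by
  have hr0 : 0 < r := by linarith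
  have hj0 : (0 : ℝ) ≤ j := Nat.cast_nonneg j
  have a1 : A ≤ κ * A := le_mul_of_one_le_left hA hκ
  have a2 : κ * A ≤ κ ^ 2 * A := mul_le_mul_of_nonneg_right (by nlinarith) hA
  have a3 : κ ^ 2 * A ≤ κ ^ 3 * A :=
    mul_le_mul_of_nonneg_right (pow_le_pow_right₀ hκ (by norm_num)) hA
  have b1 := mul_le_mul_of_nonneg_left a1 hk
  have b2 := mul_le_mul_of_nonneg_left a2 hk
  have b3 := mul_le_mul_of_nonneg_left a3 hk
  have b0 := mul_nonneg hk hA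
  have nr : ‖(r : ℂ) / 2‖ ≤ 5 / 2 := by
    rw [norm_div, Complex.norm_real, Real.norm_of_nonneg hr0.le, Complex.norm_ofNat]; linarith
  have nj : ‖(j : ℂ)‖ ≤ 3 := by rwa [Complex.norm_natCast]
  have nj' : ‖(j : ℂ) + 1 / 2‖ ≤ 7 / 2 := by
    refine (norm_add_le _ _).trans ?_
    rw [norm_div, norm_one, Complex.norm_ofNat]; linarith
  have n11 : ‖11 / (r : ℂ)‖ ≤ 11 := by
    rw [norm_div, Complex.norm_real, Real.norm_of_nonneg hr0.le, Complex.norm_ofNat]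
    exact div_le_self (by norm_num) hr1
  have nM : ‖(M : ℂ) / (r : ℂ) ^ 2‖ ≤ κ ^ 2 := by
    rw [norm_div, norm_pow, Complex.norm_real, Complex.norm_real, Real.norm_of_nonneg hr0.le,
      Real.norm_of_nonneg hM0]
    exact (div_le_self hM0 (one_le_pow₀ hr1)).trans hM
  have nα : ‖Complex.I * α‖ ≤ 5 * κ ^ 2 := by rwa [norm_mul, Complex.norm_I, one_mul]
  have hI : ∀ w : ℂ, ‖w‖ = ‖Complex.I * w‖ := fun w => by rw [norm_mul, Complex.norm_I, one_mul]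
  have t1 : ‖(j : ℂ) * f‖ ≤ 3 * A := norm_mul_le_of_le nj f0
  have t2 : ‖(r : ℂ) / 2 * f'‖ ≤ 5 / 2 * (κ * A) := norm_mul_le_of_le nr f1
  have E1 : ‖g + Complex.I * α * f‖ ≤ (7 + 14 * k) * (κ * A) := by
    have e : Complex.I * (g + Complex.I * α * f) = j * f + (r : ℂ) / 2 * f' + (x + e) := by
      linear_combination q1 + α * f * Complex.I_mul_I
    rw [hI, e]
    have := norm_add_le_of_le (norm_add_le_of_le t1 t2) (norm_add_le_of_le x0 e0)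
    linarith
  have G0 : ‖g‖ ≤ (12 + 14 * k) * (κ ^ 2 * A) := by
    have := norm_sub_le_of_le E1 (norm_mul_le_of_le nα f0)
    rw [add_sub_cancel_right] at this
    linarith
  have t3 : ‖((j : ℂ) + 1 / 2) * f'‖ ≤ 7 / 2 * (κ * A) := norm_mul_le_of_le nj' f1
  have t4 := norm_mul_le_of_le nr (norm_add_le_of_le
    (norm_sub_le_of_le G0 (norm_mul_le_of_le n11 f1)) (norm_mul_le_of_le nM f0))
  have E2 : ‖g' + Complex.I * α * f'‖ ≤ (65 + 51 * k) * (κ ^ 2 * A) := by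
    have e : Complex.I * (g' + Complex.I * α * f') = ((j : ℂ) + 1 / 2) * f' + (r : ℂ) / 2 *
        (g - 11 / (r : ℂ) * f' + (M : ℂ) / (r : ℂ) ^ 2 * f) + (x' + e') := by
      linear_combination q2 + α * f' * Complex.I_mul_I
    rw [hI, e]
    have := norm_add_le_of_le (norm_add_le_of_le t3 t4) (norm_add_le_of_le x1 e1)
    linarith
  have G1 : ‖g'‖ ≤ (70 + 51 * k) * (κ ^ 3 * A) := by
    have := norm_sub_le_of_le E2 (norm_mul_le_of_le nα f1)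
    rw [add_sub_cancel_right] at this
    have e : 5 * κ ^ 2 * (κ * A) = 5 * (κ ^ 3 * A) := by ring
    linarith
  exact ⟨⟨by linarith, G1⟩, by linarith, by linarith⟩

theorem Lad_tele {κ B : ℝ} {α : ℂ} {u : ℕ → ℂ} (hκ : 0 ≤ κ) (hB : 0 ≤ B) (hα : ‖α‖ ≤ 5 * κ ^ 2)
    (h : ∀ j, j ≤ 3 → ‖u (j + 1) + Complex.I * α * u j‖ ≤ κ ^ (2 * j) * B) :
    ‖u 4 - α ^ 4 * u 0‖ ≤ 156 * (κ ^ 6 * B) := by
  have nα : ‖Complex.I * α‖ ≤ 5 * κ ^ 2 := by rwa [norm_mul, Complex.norm_I, one_mul]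
  have e : u 4 - α ^ 4 * u 0 = (u (3 + 1) + Complex.I * α * u 3) - Complex.I * α *
      ((u (2 + 1) + Complex.I * α * u 2) - Complex.I * α * ((u (1 + 1) + Complex.I * α * u 1) -
        Complex.I * α * (u (0 + 1) + Complex.I * α * u 0))) := by
    norm_num
    linear_combination (α ^ 4 * u 0) * Complex.I_pow_four
  rw [e]
  calc _ ≤ _ := norm_sub_le_of_le (h 3 le_rfl) (norm_mul_le_of_le nα (norm_sub_le_of_le
        (h 2 (by norm_num)) (norm_mul_le_of_le nα (norm_sub_le_of_le (h 1 (by norm_num))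
          (norm_mul_le_of_le nα (h 0 (by norm_num)))))))
    _ = _ := by ring

/-- one step.  `F_{j+1} + iαF_j = -i (j F_j + (r/2) F_j' + X_j + e_j)` (`Lev.eqn`, `lv_succ`) and
`F_{j+1}' + iαF_j' = -i ((j + 1/2) F_j' + (r/2)(F_{j+1} - 11F_j'/r + M F_j/r²) + X_j' + e_j')`
(`Eqn.deriv`); `Zv_le`, `Zd_le`. -/
theorem lad_step (K : ℝ) : ∃ C : ℝ, 1 ≤ C ∧ ∀ {R₀ K' κ r s : ℝ} {m j : ℕ} {α : ℂ} {F G e : ℝ → ℂ}
    {X : ℕ → ℝ → ℂ}, 1 ≤ R₀ → Lev R₀ K' κ m α F G e X → K' ≤ K → Par m α κ → Adm R₀ F → Adm R₀ e →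
    R₀ < r → r ≤ 5 → j ≤ 3 → (∀ i, i ≤ j → Jet κ m F i r s ∧ Jet κ m G i r s) → Jet κ m e j r s →
      Jet κ m F (j + 1) r (C * s) ∧
      ‖lv m F (j + 1) r + Complex.I * α * lv m F j r‖ ≤ C * (κ ^ (2 * j + 1) * s) ∧
      ‖deriv (lv m F (j + 1)) r + Complex.I * α * deriv (lv m F j) r‖ ≤ C * (κ ^ (2 * j + 2) * s) := by
  refine ⟨70 + 51 * |K|, by linarith [abs_nonneg K], ?_⟩
  intro R₀ K' κ r s m j α F G e X hR hL hK hP aF ae hr hr5 hj hJ hJe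
  have hκ := hP.one_le
  have hκ0 : 0 < κ := by linarith
  have hr1 : 1 ≤ r := by linarith
  have hr0 : 0 < r := by linarith
  have hR0 : 0 ≤ R₀ := by linarith
  have hs : 0 ≤ s := by simpa using (norm_nonneg _).trans (hJ 0 (Nat.zero_le j)).1.1
  have hk : 0 ≤ |K| := abs_nonneg K
  have hK' : K' ≤ |K| := hK.trans (le_abs_self K)
  generalize |K| = k at hk hK' ⊢
  have hj3 : (j : ℝ) ≤ 3 := by exact_mod_cast hj
  have sF : ContDiffOn ℝ (12 : ℕ) F (Ioi R₀) := by exact_mod_cast aF.smooth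
  have se : ContDiffOn ℝ (12 : ℕ) e (Ioi R₀) := by exact_mod_cast ae.smooth
  have s3 : ContDiffOn ℝ 3 (lv m F j) (Ioi R₀) := by
    exact_mod_cast contDiffOn_lv (N' := 3) (j := j) hR0 sF m (by omega)
  have de := hasDerivAt_of_contDiffOn (contDiffOn_lv (N' := 1) (j := j) hR0 se m (by omega))
    le_rfl hr
  have q1 := hL.eqn j (by omega) r hr
  have q2 := (hL.eqn j (by omega)).deriv hR0 s3 hr
  rw [((hL.diff j hj r hr).hasDerivAt.fun_add de).deriv] at q2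
  rw [← lv_succ] at q1 q2
  have zF := Zv_le hκ hr1 fun i hi => (hJ i hi).1
  have zG := Zv_le hκ hr1 fun i hi => (hJ i hi).2
  have yF := Zd_le hκ fun i hi => (hJ i hi).1
  have yG := Zd_le hκ fun i hi => (hJ i hi).2
  have zF0 := Zv_nonneg hκ0.le hr0.le m F j
  have zG0 := Zv_nonneg hκ0.le hr0.le m G j
  have yF0 : 0 ≤ Zd κ m F j r := by unfold Zd; positivity
  have yG0 : 0 ≤ Zd κ m G j r := by unfold Zd; positivity
  obtain ⟨f0, f1⟩ := (hJ j le_rfl).1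
  obtain ⟨e0, e1⟩ := hJe
  have x0 := hL.bd j (by omega) r hr
  have x1 := hL.bd' j hj r hr
  unfold Jet
  have p1 : κ ^ (2 * j + 1) * s = κ * (κ ^ (2 * j) * s) := by ring
  have p2 : κ ^ (2 * j + 2) * s = κ ^ 2 * (κ ^ (2 * j) * s) := by ring
  have p3 : ∀ c : ℝ, κ ^ (2 * (j + 1)) * (c * s) = c * (κ ^ 2 * (κ ^ (2 * j) * s)) :=
    fun c => by ring
  have p4 : ∀ c : ℝ, κ ^ (2 * (j + 1) + 1) * (c * s) = c * (κ ^ 3 * (κ ^ (2 * j) * s)) :=
    fun c => by ring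
  rw [p1] at f1 e1 yF yG
  rw [p1, p2, p3, p4]
  have hA : 0 ≤ κ ^ (2 * j) * s := by positivity
  generalize κ ^ (2 * j) * s = A at *
  have a1 : A ≤ κ * A := le_mul_of_one_le_left hA hκ
  have a2 : κ * A ≤ κ ^ 2 * A := mul_le_mul_of_nonneg_right (by nlinarith) hA
  have a3 : κ ^ 2 * A ≤ κ ^ 3 * A :=
    mul_le_mul_of_nonneg_right (pow_le_pow_right₀ hκ (by norm_num)) hA
  have x0' : ‖X j r‖ ≤ k * (14 * A) := by
    refine x0.trans (mul_le_mul ?_ (by nlinarith) (by linarith) hk)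
    calc K' / r ^ 2 ≤ k / r ^ 2 := by gcongr
      _ ≤ k := div_le_self hk (one_le_pow₀ hr1)
  have x1' : ‖deriv (X j) r‖ ≤ k * (16 * (κ * A)) :=
    x1.trans (mul_le_mul hK' (by nlinarith) (by linarith) hk)
  exact Lad_aux hk hκ hA hr1 hr5 hj3 (MM_nonneg m) hP.M_le hP.norm_le q1 q2 f0 f1 x0' x1' e0 e1

/-- four steps for both components; `(-iα)⁴ = α⁴`, `‖α‖ ≤ 5κ²` -/
theorem ladder : ∃ C : ℝ, 1 ≤ C ∧ ∀ {R₀ ε κ r s : ℝ} {m : ℕ} {α α' : ℂ} {F G eF eG : ℝ → ℂ},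
    Sys R₀ ε m α α' F G eF eG → ε ≤ 1 → Par m α κ → Par m α' κ → R₀ < r → r ≤ 5 →
    Jet κ m F 0 r s → Jet κ m G 0 r s → (∀ j, j ≤ 3 → Jet κ m eF j r s ∧ Jet κ m eG j r s) →
      (∀ j, j ≤ 4 → Jet κ m F j r (C * s) ∧ Jet κ m G j r (C * s)) ∧
      ‖lv m G 4 r - α' ^ 4 * G r‖ ≤ C * (κ ^ 7 * s) ∧
      ‖deriv (lv m G 4) r - α' ^ 4 * deriv G r‖ ≤ C * (κ ^ 8 * s) := by
  obtain ⟨C₀, hC₀, hlev⟩ := exists_lev
  obtain ⟨C, hC, hstep⟩ := lad_step C₀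
  have hC4 : 1 ≤ C ^ 4 := one_le_pow₀ hC
  refine ⟨156 * C ^ 4, by linarith, ?_⟩
  intro R₀ ε κ r s m α α' F G eF eG hS hε hP hP' hr hr5 hF hG he
  have hκ := hP.one_le
  have hκ0 : 0 ≤ κ := by linarith
  have hs : 0 ≤ s := by simpa using (norm_nonneg _).trans hF.1
  obtain ⟨X, hX⟩ := hlev hS.one_le hκ hP.M_le hS.aF hS.aG hS.aeF hS.hF
  obtain ⟨Y, hY⟩ := hlev hS.one_le hκ hP.M_le hS.aG hS.aF hS.aeG hS.hG
  have hK : C₀ * ε ≤ C₀ := mul_le_of_le_one_right hC₀ hε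
  have hse : ∀ j : ℕ, s ≤ C ^ j * s := fun j => le_mul_of_one_le_left hs (one_le_pow₀ hC)
  have key : ∀ j, j ≤ 4 → ∀ i, i ≤ j → Jet κ m F i r (C ^ j * s) ∧ Jet κ m G i r (C ^ j * s) := by
    intro j
    induction j with
    | zero =>
      intro _ i hi
      obtain rfl : i = 0 := by omega
      simpa using ⟨hF, hG⟩
    | succ j ih =>
      intro hj i hi
      have ih' := ih (by omega)
      have e : C ^ (j + 1) * s = C * (C ^ j * s) := by ring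
      rw [e]
      rcases Nat.lt_or_ge i (j + 1) with hi' | hi'
      · have hle : C ^ j * s ≤ C * (C ^ j * s) :=
          le_mul_of_one_le_left (hs.trans (hse j)) hC
        exact ⟨(ih' i (by omega)).1.mono hκ0 hle, (ih' i (by omega)).2.mono hκ0 hle⟩
      · obtain rfl : i = j + 1 := by omega
        exact ⟨(hstep hS.one_le hX hK hP hS.aF hS.aeF hr hr5 (by omega) ih'
            ((he j (by omega)).1.mono hκ0 (hse j))).1,
          (hstep hS.one_le hY hK hP' hS.aG hS.aeG hr hr5 (by omega) (fun i hi => (ih' i hi).symm)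
            ((he j (by omega)).2.mono hκ0 (hse j))).1⟩
  have hD : ∀ j, j ≤ 3 →
      ‖lv m G (j + 1) r + Complex.I * α' * lv m G j r‖ ≤ κ ^ (2 * j) * (C ^ 4 * (κ * s)) ∧
      ‖deriv (lv m G (j + 1)) r + Complex.I * α' * deriv (lv m G j) r‖ ≤
        κ ^ (2 * j) * (C ^ 4 * (κ ^ 2 * s)) := by
    intro j hj
    obtain ⟨-, h1, h2⟩ := hstep hS.one_le hY hK hP' hS.aG hS.aeG hr hr5 hj
      (fun i hi => (key j (by omega) i hi).symm) ((he j hj).2.mono hκ0 (hse j))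
    have h3 : C ^ (j + 1) ≤ C ^ 4 := pow_le_pow_right₀ hC (by omega)
    constructor
    · calc _ ≤ _ := h1
        _ = κ ^ (2 * j) * (C ^ (j + 1) * (κ * s)) := by ring
        _ ≤ _ := by gcongr
    · calc _ ≤ _ := h2
        _ = κ ^ (2 * j) * (C ^ (j + 1) * (κ ^ 2 * s)) := by ring
        _ ≤ _ := by gcongr
  have hC0 : 0 ≤ C ^ 4 := by linarith
  refine ⟨fun j hj => ?_, ?_, ?_⟩
  · have hle : C ^ 4 * s ≤ 156 * C ^ 4 * s := by nlinarith [mul_nonneg hC0 hs]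
    exact ⟨(key 4 le_rfl j hj).1.mono hκ0 hle, (key 4 le_rfl j hj).2.mono hκ0 hle⟩
  · calc _ ≤ _ := Lad_tele (u := fun j => lv m G j r) hκ0 (by positivity) hP'.norm_le
          fun j hj => (hD j hj).1
      _ = _ := by ring
  · calc _ ≤ _ := Lad_tele (u := fun j => deriv (lv m G j) r) hκ0 (by positivity) hP'.norm_le
          fun j hj => (hD j hj).2
      _ = _ := by ring

/-- the level `0` jet is measured by `en` -/
theorem jet_en {κ r : ℝ} (hκ : 1 ≤ κ) (m : ℕ) (F G : ℝ → ℂ) :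
    Jet κ m F 0 r (Real.sqrt (en κ F r + en κ G r) / κ) ∧
      Jet κ m G 0 r (Real.sqrt (en κ F r + en κ G r) / κ) := by
  have hκ0 : 0 < κ := by linarith
  have aux : ∀ (u : ℝ → ℂ) (S : ℝ), en κ u r ≤ S → Jet κ m u 0 r (Real.sqrt S / κ) := by
    intro u S hS
    unfold en at hS
    unfold Jet
    simp only [lv_zero, mul_zero, pow_zero, one_mul, zero_add, pow_one]
    constructor
    · rw [le_div_iff₀ hκ0]
      refine Real.le_sqrt_of_sq_le ?_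
      nlinarith [sq_nonneg ‖deriv u r‖]
    · rw [mul_div_cancel₀ _ hκ0.ne']
      refine Real.le_sqrt_of_sq_le ?_
      have : 0 ≤ κ ^ 2 * ‖u r‖ ^ 2 := by positivity
      linarith
  have h1 : 0 ≤ en κ F r := by unfold en; positivity
  have h2 : 0 ≤ en κ G r := by unfold en; positivity
  exact ⟨aux F _ (by linarith), aux G _ (by linarith)⟩

end Crest.Agent.R086.Mb
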