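import Crest.Agent.R086.Mb.Lvl
import Crest.Agent.R086.Mb.Lad

/-! Row 86, part M-b: the outer estimate. -/

set_option autoImplicit false

open MeasureTheory Set Filter Topology
open scoped ComplexConjugate

namespace Crest.Agent.R086.Mb

theorem out_term {κ r : ℝ} (hκ : 0 ≤ κ) (hr : 0 ≤ r) (m : ℕ) (u : ℝ → ℂ) {i : ℕ} (hi : i ≤ 3) :
    κ ^ (16 - 4 * i) * (r ^ (4 * i) / r ^ 7 * ‖lv m u i r‖ ^ 2) +
      κ ^ (14 - 4 * i) * (r ^ (4 * i) / r ^ 5 * ‖deriv (lv m u i) r‖ ^ 2) ≤ dens κ m u r := by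
  unfold dens
  have h := Finset.single_le_sum (s := Finset.range 4)
    (f := fun i => κ ^ (16 - 4 * i) * (r ^ (4 * i) / r ^ 7 * ‖lv m u i r‖ ^ 2) +
      κ ^ (14 - 4 * i) * (r ^ (4 * i) / r ^ 5 * ‖deriv (lv m u i) r‖ ^ 2))
    (fun i _ => by positivity) (Finset.mem_range.2 (by omega : i < 4))
  have : 0 ≤ r ^ 11 * ‖lv m u 4 r‖ ^ 2 := by positivity
  linarith

theorem out_term_top {κ r : ℝ} (hκ : 0 ≤ κ) (hr : 0 ≤ r) (m : ℕ) (u : ℝ → ℂ) :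
    r ^ 11 * ‖lv m u 4 r‖ ^ 2 ≤ dens κ m u r := by
  unfold dens
  exact le_add_of_nonneg_left (Finset.sum_nonneg fun i _ => by positivity)

theorem out_intA {R₀ R₁ : ℝ} {u : ℝ → ℂ} (h : Adm R₀ u) (hR : 1 ≤ R₀) (h1 : R₀ ≤ R₁) (m : ℕ) {i : ℕ}
    (hi : i ≤ 4) : IntegrableOn (fun r : ℝ => r ^ (4 * i) / r ^ 7 * ‖lv m u i r‖ ^ 2) (Ioi R₁) := by
  obtain ⟨K, hK⟩ := h.lv (by linarith) m (j := i) (by omega)
  exact int_sq hK.1.continuousOn (fun r hr => hK.bd hr) hR h1 (by omega)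

theorem out_intB {R₀ R₁ : ℝ} {u : ℝ → ℂ} (h : Adm R₀ u) (hR : 1 ≤ R₀) (h1 : R₀ ≤ R₁) (m : ℕ) {i : ℕ}
    (hi : i ≤ 4) :
    IntegrableOn (fun r : ℝ => r ^ (4 * i) / r ^ 5 * ‖deriv (lv m u i) r‖ ^ 2) (Ioi R₁) := by
  obtain ⟨K, hK⟩ := h.lv (by linarith) m (j := i) (by omega)
  have h2 := (hK.mono_N (N' := 0 + 1) (by omega)).deriv
  exact int_sq h2.1.continuousOn (fun r hr => h2.bd hr) hR h1 (by omega)

theorem out_intT {R₀ R₁ : ℝ} {u : ℝ → ℂ} (h : Adm R₀ u) (hR : 1 ≤ R₀) (h1 : R₀ ≤ R₁) (m : ℕ) :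
    IntegrableOn (fun r : ℝ => r ^ 11 * ‖lv m u 4 r‖ ^ 2) (Ioi R₁) := by
  obtain ⟨K, hK⟩ := h.lv (by linarith) m (j := 4) (by omega)
  simpa using int_sq hK.1.continuousOn (fun r hr => hK.bd hr) hR h1 (p := 11) (q := 0) (by omega)

theorem out_split {R₀ R₁ : ℝ} {u : ℝ → ℂ} (h : Adm R₀ u) (hR : 1 ≤ R₀) (h1 : R₀ ≤ R₁) (κ : ℝ) (m : ℕ) :
    ∫ r in Ioi R₁, dens κ m u r = ∑ i ∈ Finset.range 4,
      (κ ^ (16 - 4 * i) * (∫ r in Ioi R₁, r ^ (4 * i) / r ^ 7 * ‖lv m u i r‖ ^ 2) +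
        κ ^ (14 - 4 * i) * ∫ r in Ioi R₁, r ^ (4 * i) / r ^ 5 * ‖deriv (lv m u i) r‖ ^ 2) +
      ∫ r in Ioi R₁, r ^ 11 * ‖lv m u 4 r‖ ^ 2 := by
  have hi : ∀ i ∈ Finset.range 4, Integrable (fun r : ℝ =>
      κ ^ (16 - 4 * i) * (r ^ (4 * i) / r ^ 7 * ‖lv m u i r‖ ^ 2) +
      κ ^ (14 - 4 * i) * (r ^ (4 * i) / r ^ 5 * ‖deriv (lv m u i) r‖ ^ 2))
      (volume.restrict (Ioi R₁)) := fun i hi =>
    ((out_intA h hR h1 m (Finset.mem_range.1 hi).le).const_mul _).add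
      ((out_intB h hR h1 m (Finset.mem_range.1 hi).le).const_mul _)
  unfold dens
  rw [integral_add (integrable_finsetSum _ hi) (out_intT h hR h1 m), integral_finsetSum _ hi]
  congr 1
  refine Finset.sum_congr rfl fun i hi => ?_
  rw [integral_add ((out_intA h hR h1 m (Finset.mem_range.1 hi).le).const_mul _)
    ((out_intB h hR h1 m (Finset.mem_range.1 hi).le).const_mul _), integral_const_mul,
    integral_const_mul]

theorem out_norm_add_sq (a b : ℂ) : ‖a + b‖ ^ 2 ≤ 2 * ‖a‖ ^ 2 + 2 * ‖b‖ ^ 2 := by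
  have := pow_le_pow_left₀ (norm_nonneg _) (norm_add_le a b) 2
  nlinarith [sq_nonneg (‖a‖ - ‖b‖)]

theorem out_forcing {R₀ R₁ K κ : ℝ} {m : ℕ} {F G e : ℝ → ℂ} (hR : 1 ≤ R₀) (h1 : R₀ ≤ R₁)
    (hF : Adm R₀ F) (hG : Adm R₀ G) (he : Adm R₀ e) {φ : ℝ → ℝ} (h0 : ∀ r, R₀ < r → 0 ≤ φ r)
    (h : ∀ r, R₀ < r → φ r ≤ 36 * K ^ 2 * (dens κ m F r + dens κ m G r) + 2 * dens κ m e r) :
    ∫ r in Ioi R₁, φ r ≤ 36 * K ^ 2 * ((∫ r in Ioi R₁, dens κ m F r) + ∫ r in Ioi R₁, dens κ m G r) +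
      2 * ∫ r in Ioi R₁, dens κ m e r := by
  have iF := hF.int_dens hR h1 κ m
  have iG := hG.int_dens hR h1 κ m
  have ie := he.int_dens hR h1 κ m
  have iFG : Integrable (fun r => 36 * K ^ 2 * (dens κ m F r + dens κ m G r))
      (volume.restrict (Ioi R₁)) := (iF.add iG).const_mul _
  rw [← integral_add iF iG, ← integral_const_mul, ← integral_const_mul,
    ← integral_add iFG (ie.const_mul _)]
  refine integral_mono_of_nonneg ?_ (iFG.add (ie.const_mul _)) ?_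
  · exact (ae_restrict_iff' measurableSet_Ioi).2 (Eventually.of_forall fun r hr =>
      h0 r (h1.trans_lt hr))
  · exact (ae_restrict_iff' measurableSet_Ioi).2 (Eventually.of_forall fun r hr =>
      h r (h1.trans_lt hr))

theorem out_int_nonneg {R₁ : ℝ} (hR : 0 ≤ R₁) {κ : ℝ} (m : ℕ) (u : ℝ → ℂ) :
    0 ≤ ∫ r in Ioi R₁, dens κ m u r :=
  setIntegral_nonneg measurableSet_Ioi fun r hr => dens_nonneg κ m u (hR.trans (le_of_lt hr))

theorem out_jet {κ r s : ℝ} {m j : ℕ} {u : ℝ → ℂ} (hκ : 1 ≤ κ) (h : Jet κ m u j r s) {k : ℕ}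
    (hk : k + 4 * j + 1 ≤ 17) :
    κ ^ k * (‖lv m u j r‖ ^ 2 + ‖lv m u j r‖ * ‖deriv (lv m u j) r‖) ≤ 2 * (κ ^ 17 * s ^ 2) := by
  have h0 := (norm_nonneg _).trans h.1
  have h1 := pow_le_pow_left₀ (norm_nonneg _) h.1 2
  have h2 := mul_le_mul h.1 h.2 (norm_nonneg _) h0
  have h3 : κ ^ (k + 4 * j) ≤ κ ^ 17 := pow_le_pow_right₀ hκ (by omega)
  have h4 : κ ^ (k + 4 * j + 1) ≤ κ ^ 17 := pow_le_pow_right₀ hκ hk
  have hk0 : 0 ≤ κ ^ k := by positivity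
  calc _ ≤ κ ^ k * ((κ ^ (2 * j) * s) ^ 2 + κ ^ (2 * j) * s * (κ ^ (2 * j + 1) * s)) := by gcongr
    _ = κ ^ (k + 4 * j) * s ^ 2 + κ ^ (k + 4 * j + 1) * s ^ 2 := by ring
    _ ≤ κ ^ 17 * s ^ 2 + κ ^ 17 * s ^ 2 := by gcongr
    _ = _ := by ring

/-- One component.  `a_i = κ^{16-4i} ∫ r^{4i-7}|F_i|²`, `b_i = κ^{14-4i} ∫ r^{4i-5}|F_i'|²`, `a_4 = ∫ r¹¹|F_4|²`.
`lvl_low` times `κ^{14-4i}`: `a_i + b_i ≤ D + C a_{i+1}`, `lvl_top`: `a_4 ≤ D`, where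
`D = C' (κ¹⁷ s² + K² ∫(dens F + dens G) + ∫ dens e)` (`Lev.sq_low`, `Lev.sq_top`, `‖X + e‖² ≤ 2‖X‖² + 2‖e‖²`). -/
theorem out_half : ∃ C : ℝ, 0 ≤ C ∧ ∀ {R₀ R₁ K κ s : ℝ} {m : ℕ} {α : ℂ} {F G e : ℝ → ℂ}
    {X : ℕ → ℝ → ℂ}, 1 ≤ R₀ → R₀ < R₁ → R₁ ≤ 5 → Par m α κ → Adm R₀ F → Adm R₀ G → Adm R₀ e →
    Lev R₀ K κ m α F G e X → (∀ j, j ≤ 4 → Jet κ m F j R₁ s) →
      ∫ r in Ioi R₁, dens κ m F r ≤ C * (κ ^ 17 * s ^ 2 +
        K ^ 2 * ((∫ r in Ioi R₁, dens κ m F r) + ∫ r in Ioi R₁, dens κ m G r) +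
        ∫ r in Ioi R₁, dens κ m e r) := by
  obtain ⟨C₁, hC₁, hlow⟩ := lvl_low
  obtain ⟨C₂, hC₂, htop⟩ := lvl_top
  set c := 38 * (C₁ + C₂ + 1) with hc
  refine ⟨5 * c * (1 + C₁) ^ 4, by positivity, ?_⟩
  intro R₀ R₁ K κ s m α F G e X hR h1 h5 hp hF hG he hL hJ
  have hκ := hp.one_le
  have hκ0 : 0 < κ := by linarith
  have hR1 : 0 ≤ R₁ := by linarith
  set IF := ∫ r in Ioi R₁, dens κ m F r with hIF
  set IG := ∫ r in Ioi R₁, dens κ m G r with hIG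
  set Ie := ∫ r in Ioi R₁, dens κ m e r with hIe
  have nF : 0 ≤ IF := out_int_nonneg hR1 m F
  have nG : 0 ≤ IG := out_int_nonneg hR1 m G
  have ne : 0 ≤ Ie := out_int_nonneg hR1 m e
  set D := κ ^ 17 * s ^ 2 + K ^ 2 * (IF + IG) + Ie with hD
  have d1 : 0 ≤ κ ^ 17 * s ^ 2 := by positivity
  have d2 : 0 ≤ K ^ 2 * (IF + IG) := by positivity
  have hD0 : 0 ≤ D := by positivity
  set A : ℕ → ℝ := fun i => ∫ r in Ioi R₁, r ^ (4 * i) / r ^ 7 * ‖lv m F i r‖ ^ 2 with hA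
  set B : ℕ → ℝ := fun i => ∫ r in Ioi R₁, r ^ (4 * i) / r ^ 5 * ‖deriv (lv m F i) r‖ ^ 2 with hB
  set T := ∫ r in Ioi R₁, r ^ 11 * ‖lv m F 4 r‖ ^ 2 with hT
  have hB0 : ∀ i, 0 ≤ B i := fun i => setIntegral_nonneg measurableSet_Ioi fun r hr => by
    have : 0 < r := hR1.trans_lt hr
    positivity
  have hlev : ∀ i, i ≤ 3 → κ ^ (16 - 4 * i) * A i + κ ^ (14 - 4 * i) * B i ≤
      c * D + C₁ * (κ ^ (16 - 4 * (i + 1)) * A (i + 1)) := by
    intro i hi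
    obtain ⟨K', hK'⟩ := hF.lv (by linarith) m (j := i) (by omega)
    have h2 := hlow hR h1 h5 hi hp (hK'.mono_N (by omega)) (hL.eqn i (by omega))
    rw [← lv_succ] at h2
    have h3 := out_jet hκ (hJ i (by omega)) (k := 14 - 4 * i) (by omega)
    have h4 := out_forcing (K := K) (κ := κ) (m := m) hR h1.le hF hG he
      (φ := fun r => κ ^ (12 - 4 * i) * (r ^ (4 * i) / r ^ 7 * ‖X i r + lv m e i r‖ ^ 2))
      (fun r hr => by
        have : 0 < r := by linarith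
        positivity)
      (fun r hr => by
        have hr0 : 0 < r := by linarith
        have a1 := hL.sq_low hR hκ hi hr
        have a2 := out_term hκ0.le hr0.le m e hi
        have a3 : 0 ≤ κ ^ (14 - 4 * i) * (r ^ (4 * i) / r ^ 5 * ‖deriv (lv m e i) r‖ ^ 2) := by
          positivity
        have a4 : κ ^ (12 - 4 * i) * (r ^ (4 * i) / r ^ 7 * ‖lv m e i r‖ ^ 2) ≤
            κ ^ (16 - 4 * i) * (r ^ (4 * i) / r ^ 7 * ‖lv m e i r‖ ^ 2) :=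
          mul_le_mul_of_nonneg_right (pow_le_pow_right₀ hκ (by omega)) (by positivity)
        have a5 := mul_le_mul_of_nonneg_left (out_norm_add_sq (X i r) (lv m e i r))
          (by positivity : 0 ≤ κ ^ (12 - 4 * i) * (r ^ (4 * i) / r ^ 7))
        linarith)
    rw [integral_const_mul] at h4
    have e1 : κ ^ (16 - 4 * i) = κ ^ (12 - 4 * i) * κ ^ 2 * κ ^ 2 := by
      rw [← pow_add, ← pow_add]; congr 1; omega
    have e2 : κ ^ (14 - 4 * i) = κ ^ (12 - 4 * i) * κ ^ 2 := by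
      rw [← pow_add]; congr 1; omega
    have e3 : 16 - 4 * (i + 1) = 12 - 4 * i := by omega
    have h6 := mul_le_mul_of_nonneg_left h2 (by positivity : 0 ≤ κ ^ (14 - 4 * i))
    have e4 : ∀ x : ℝ, κ ^ (14 - 4 * i) * (C₁ / κ ^ 2 * x) = C₁ * (κ ^ (12 - 4 * i) * x) := by
      intro x; rw [e2]; field_simp
    rw [mul_add (κ ^ (14 - 4 * i)) (C₁ * _), e4] at h6
    have h7 := mul_le_mul_of_nonneg_left h3 hC₁
    have h8 := mul_le_mul_of_nonneg_left h4 hC₁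
    have h9 : C₁ * (2 * (κ ^ 17 * s ^ 2)) + C₁ * (36 * K ^ 2 * (IF + IG) + 2 * Ie) ≤ c * D := by
      rw [hc, hD]
      nlinarith [mul_nonneg hC₁ d1, mul_nonneg hC₁ d2, mul_nonneg hC₁ ne, mul_nonneg hC₂ d1,
        mul_nonneg hC₂ d2, mul_nonneg hC₂ ne]
    rw [e3, e1]
    rw [e2] at h6 h7 ⊢
    simp only [hA, hB]
    linarith
  have hTD : T ≤ c * D := by
    obtain ⟨K', hK'⟩ := hF.lv (by linarith) m (j := 4) (by omega)
    have h2 := htop hR h1 h5 hp.re0 (hK'.mono_N (by omega)) (hL.eqn 4 le_rfl)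
    have h3 := out_jet hκ (hJ 4 le_rfl) (k := 0) (by omega)
    have h4 := out_forcing (K := K) (κ := κ) (m := m) hR h1.le hF hG he
      (φ := fun r => r ^ 11 * ‖X 4 r + lv m e 4 r‖ ^ 2)
      (fun r hr => by
        have : 0 < r := by linarith
        positivity)
      (fun r hr => by
        have hr1 : 1 ≤ r := by linarith
        have a1 := hL.sq_top hR hκ hr
        have a2 := out_term_top hκ0.le (by linarith : 0 ≤ r) m e
        have a4 : r ^ 11 * ‖X 4 r‖ ^ 2 ≤ r ^ 13 * ‖X 4 r‖ ^ 2 :=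
          mul_le_mul_of_nonneg_right (pow_le_pow_right₀ hr1 (by omega)) (by positivity)
        have a5 := mul_le_mul_of_nonneg_left (out_norm_add_sq (X 4 r) (lv m e 4 r))
          (by positivity : 0 ≤ r ^ 11)
        linarith)
    rw [pow_zero, one_mul] at h3
    have h7 := mul_le_mul_of_nonneg_left h3 hC₂
    have h9 : C₂ * (2 * (κ ^ 17 * s ^ 2)) + (36 * K ^ 2 * (IF + IG) + 2 * Ie) ≤ c * D := by
      rw [hc, hD]
      nlinarith [mul_nonneg hC₁ d1, mul_nonneg hC₁ d2, mul_nonneg hC₁ ne, mul_nonneg hC₂ d1,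
        mul_nonneg hC₂ d2, mul_nonneg hC₂ ne]
    linarith
  have hA4 : A 4 ≤ T := by
    refine setIntegral_mono_on (out_intA hF hR h1.le m le_rfl) (out_intT hF hR h1.le m)
      measurableSet_Ioi fun r hr => ?_
    have hr1 : 1 ≤ r := by linarith [mem_Ioi.1 hr]
    refine mul_le_mul_of_nonneg_right ?_ (by positivity)
    rw [div_le_iff₀ (by positivity), ← pow_add]
    exact pow_le_pow_right₀ hr1 (by norm_num)
  have hcD : 0 ≤ c * D := by positivity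
  have step : ∀ i j, i ≤ 3 → κ ^ (16 - 4 * (i + 1)) * A (i + 1) ≤ c * D * (1 + C₁) ^ j →
      κ ^ (16 - 4 * i) * A i + κ ^ (14 - 4 * i) * B i ≤ c * D * (1 + C₁) ^ (j + 1) ∧
      κ ^ (16 - 4 * i) * A i ≤ c * D * (1 + C₁) ^ (j + 1) := by
    intro i j hi h
    have a1 := hlev i hi
    have a2 := mul_le_mul_of_nonneg_left h hC₁
    have a3 : c * D ≤ c * D * (1 + C₁) ^ j :=
      le_mul_of_one_le_right hcD (one_le_pow₀ (by linarith))
    have a4 : 0 ≤ κ ^ (14 - 4 * i) * B i := mul_nonneg (by positivity) (hB0 i)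
    have a5 : c * D * (1 + C₁) ^ (j + 1) = c * D * (1 + C₁) ^ j + C₁ * (c * D * (1 + C₁) ^ j) := by
      ring
    constructor <;> linarith
  have s3 := step 3 0 le_rfl (by simpa using hA4.trans hTD)
  have s2 := step 2 1 (by norm_num) s3.2
  have s1 := step 1 2 (by norm_num) s2.2
  have s0 := step 0 3 (by norm_num) s1.2
  have m1 : ∀ j, j ≤ 4 → c * D * (1 + C₁) ^ j ≤ c * D * (1 + C₁) ^ 4 := fun j hj =>
    mul_le_mul_of_nonneg_left (pow_le_pow_right₀ (by linarith) hj) hcD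
  have hsplit := out_split hF hR h1.le κ m
  rw [← hIF] at hsplit
  simp only [Finset.sum_range_succ, Finset.sum_range_zero, zero_add] at hsplit
  have t0 := m1 0 (by norm_num)
  rw [pow_zero, mul_one] at t0
  have := m1 1 (by norm_num)
  have := m1 2 (by norm_num)
  have := m1 3 (by norm_num)
  simp only [hA, hB] at s0 s1 s2 s3
  linarith [s0.1, s1.1, s2.1, s3.1]

/-- **outer estimate** (add the two components and absorb) -/
theorem outer : ∃ ε₀ C : ℝ, 0 < ε₀ ∧ ε₀ ≤ 1 ∧ 0 ≤ C ∧ ∀ {R₀ R₁ ε κ s : ℝ} {m : ℕ} {α α' : ℂ}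
    {F G eF eG : ℝ → ℂ}, Sys R₀ ε m α α' F G eF eG → ε ≤ ε₀ → Par m α κ → Par m α' κ → R₀ < R₁ →
    R₁ ≤ 5 → (∀ j, j ≤ 4 → Jet κ m F j R₁ s ∧ Jet κ m G j R₁ s) →
      (∫ r in Ioi R₁, dens κ m F r) + ∫ r in Ioi R₁, dens κ m G r ≤ C * (κ ^ 17 * s ^ 2 +
        ((∫ r in Ioi R₁, dens κ m eF r) + ∫ r in Ioi R₁, dens κ m eG r)) := by
  obtain ⟨C₁, hC₁, hlev⟩ := exists_lev
  obtain ⟨C₂, hC₂, hhalf⟩ := out_half
  refine ⟨1 / ((1 + C₁) * (1 + 4 * C₂)), 4 * C₂, by positivity, ?_, by positivity, ?_⟩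
  · rw [div_le_one (by positivity)]; nlinarith [mul_nonneg hC₁ hC₂]
  intro R₀ R₁ ε κ s m α α' F G eF eG hS hε hp hp' h1 h5 hJ
  have hR := hS.one_le
  have hR1 : 0 ≤ R₁ := by linarith
  obtain ⟨X, hX⟩ := hlev hR hp.one_le hp.M_le hS.aF hS.aG hS.aeF hS.hF
  obtain ⟨X', hX'⟩ := hlev hR hp.one_le hp.M_le hS.aG hS.aF hS.aeG hS.hG
  have a1 := hhalf hR h1 h5 hp hS.aF hS.aG hS.aeF hX fun j hj => (hJ j hj).1
  have a2 := hhalf hR h1 h5 hp' hS.aG hS.aF hS.aeG hX' fun j hj => (hJ j hj).2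
  have nF := out_int_nonneg hR1 (κ := κ) m F
  have nG := out_int_nonneg hR1 (κ := κ) m G
  have ne := out_int_nonneg hR1 (κ := κ) m eF
  have ne' := out_int_nonneg hR1 (κ := κ) m eG
  have hε0 := hS.hF.nonneg (by linarith)
  have b1 : C₁ * ε * (1 + 4 * C₂) ≤ 1 := by
    rw [le_div_iff₀ (by positivity)] at hε
    nlinarith [mul_nonneg hε0 hC₂]
  have b0 : 0 ≤ C₁ * ε := by positivity
  have b2 : C₁ * ε ≤ 1 := by nlinarith [mul_nonneg b0 hC₂]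
  have b3 : C₂ * (C₁ * ε) ^ 2 ≤ 1 / 4 := by nlinarith [mul_nonneg b0 hC₂]
  have b4 := mul_le_mul_of_nonneg_right b3 (add_nonneg nF nG)
  have b5 := mul_nonneg hC₂ (add_nonneg ne ne')
  nlinarith

/-- no forcing: `ladder`, `jet_en`; for the second part `en κ u ≤ 5⁷ κ^{-14} dens κ m u` on `[1, 5]` -/
theorem outer0 : ∃ ε₀ C : ℝ, 0 < ε₀ ∧ ε₀ ≤ 1 ∧ 0 ≤ C ∧ ∀ {R₀ R₁ ε κ : ℝ} {m : ℕ} {α α' : ℂ}
    {F G : ℝ → ℂ}, Sys R₀ ε m α α' F G (fun _ => 0) (fun _ => 0) → ε ≤ ε₀ → Par m α κ → Par m α' κ →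
    R₀ < R₁ → R₁ ≤ 5 →
      (∫ r in Ioi R₁, dens κ m F r) + ∫ r in Ioi R₁, dens κ m G r ≤
        C * (κ ^ 15 * (en κ F R₁ + en κ G R₁)) ∧
      ∀ R₂, R₁ ≤ R₂ → R₂ ≤ 5 →
        ∫ r in R₁..R₂, (en κ F r + en κ G r) ≤ C * (κ * (en κ F R₁ + en κ G R₁)) := by
  obtain ⟨ε₀, C₁, hε₀, hε₁, hC₁, hout⟩ := outer
  obtain ⟨C₂, hC₂, hlad⟩ := ladder
  refine ⟨ε₀, 5 ^ 7 * (C₁ * C₂ ^ 2), hε₀, hε₁, by positivity, ?_⟩
  intro R₀ R₁ ε κ m α α' F G hS hε hp hp' h1 h5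
  have hR := hS.one_le
  have hR1 : 0 ≤ R₁ := by linarith
  have hκ := hp.one_le
  have hκ0 : 0 < κ := by linarith
  set e := en κ F R₁ + en κ G R₁ with he
  have he0 : 0 ≤ e := by rw [he]; unfold en; positivity
  obtain ⟨j1, j2⟩ := jet_en (r := R₁) hκ m F G
  have hs0 : 0 ≤ Real.sqrt e / κ := by positivity
  obtain ⟨hJ, -⟩ := hlad hS (hε.trans hε₁) hp hp' h1 h5 j1 j2
    fun j _ => ⟨jet_zero_fun hκ0.le hs0 m j, jet_zero_fun hκ0.le hs0 m j⟩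
  have h2 := hout hS hε hp hp' h1 h5 hJ
  have z : ∫ r in Ioi R₁, dens κ m (fun _ => 0) r = 0 := by
    simp [dens, lv_zero_fun]
  have e1 : κ ^ 17 * (C₂ * (Real.sqrt e / κ)) ^ 2 = C₂ ^ 2 * (κ ^ 15 * e) := by
    rw [mul_pow, div_pow, Real.sq_sqrt he0]; field_simp
  rw [z, add_zero, add_zero, e1, ← mul_assoc] at h2
  have hp0 : 0 ≤ C₁ * C₂ ^ 2 * (κ ^ 15 * e) := by positivity
  refine ⟨by linarith, fun R₂ h12 h25 => ?_⟩
  have iF := hS.aF.int_dens hR h1.le κ m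
  have iG := hS.aG.int_dens hR h1.le κ m
  have pt : ∀ (u : ℝ → ℂ) (r : ℝ), 1 ≤ r → r ≤ 5 → κ ^ 14 * en κ u r ≤ 5 ^ 7 * dens κ m u r := by
    intro u r hr1 hr5
    have hr0 : 0 < r := by linarith
    have a := out_term hκ0.le hr0.le m u (i := 0) (by norm_num)
    simp only [mul_zero, Nat.sub_zero, pow_zero, lv_zero] at a
    have b1 : 1 ≤ 5 ^ 7 * (1 / r ^ 7) := by
      rw [mul_one_div, le_div_iff₀ (by positivity), one_mul]; gcongr
    have b2 : 1 ≤ 5 ^ 7 * (1 / r ^ 5) := by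
      rw [mul_one_div, le_div_iff₀ (by positivity), one_mul]
      calc r ^ 5 ≤ 5 ^ 5 := by gcongr
        _ ≤ 5 ^ 7 := by norm_num
    have c1 := mul_le_mul_of_nonneg_right b1 (by positivity : 0 ≤ κ ^ 16 * ‖u r‖ ^ 2)
    have c2 := mul_le_mul_of_nonneg_right b2 (by positivity : 0 ≤ κ ^ 14 * ‖deriv u r‖ ^ 2)
    unfold en
    nlinarith
  have h3 : κ ^ 14 * ∫ r in R₁..R₂, (en κ F r + en κ G r) ≤
      5 ^ 7 * ((∫ r in Ioi R₁, dens κ m F r) + ∫ r in Ioi R₁, dens κ m G r) := by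
    have iFG : IntegrableOn (fun r => 5 ^ 7 * (dens κ m F r + dens κ m G r)) (Ioi R₁) :=
      (iF.add iG).const_mul _
    rw [intervalIntegral.integral_of_le h12, ← integral_const_mul, ← integral_add iF iG,
      ← integral_const_mul]
    calc _ ≤ ∫ r in Ioc R₁ R₂, 5 ^ 7 * (dens κ m F r + dens κ m G r) := by
          refine integral_mono_of_nonneg ?_ (iFG.mono_set Ioc_subset_Ioi_self) ?_
          · exact Eventually.of_forall fun r => by unfold en; positivity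
          · refine (ae_restrict_iff' measurableSet_Ioc).2 (Eventually.of_forall fun r hr => ?_)
            have := pt F r (by linarith [hr.1]) (by linarith [hr.2])
            have := pt G r (by linarith [hr.1]) (by linarith [hr.2])
            dsimp only
            linarith
      _ ≤ _ := by
          refine setIntegral_mono_set iFG ?_ (HasSubset.Subset.eventuallyLE Ioc_subset_Ioi_self)
          refine (ae_restrict_iff' measurableSet_Ioi).2 (Eventually.of_forall fun r hr => ?_)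
          have h0 : 0 ≤ r := hR1.trans (le_of_lt hr)
          have := dens_nonneg κ m F h0
          have := dens_nonneg κ m G h0
          positivity
  refine le_of_mul_le_mul_left (h3.trans ?_) (by positivity : 0 < κ ^ 14)
  calc _ ≤ 5 ^ 7 * (C₁ * C₂ ^ 2 * (κ ^ 15 * e)) := by gcongr
    _ = _ := by ring

end Crest.Agent.R086.Mb
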