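import Crest.Agent.R086.Mb.Ell
import Crest.Agent.R086.Mb.Out

/-! Row 86, part M-b: case B (`M` large). -/

set_option autoImplicit false

open MeasureTheory Set Filter Topology
open scoped ComplexConjugate

namespace Crest.Agent.R086.Mb

theorem CaseB_cont {F : ℝ → ℂ} (hF : ContDiff ℝ 2 F) (k : ℝ) : Continuous (en k F) :=
  (continuous_const.mul (hF.continuous.norm.pow 2)).add
    ((hF.continuous_deriv (by norm_num)).norm.pow 2)

theorem CaseB_nonneg (k : ℝ) (F : ℝ → ℂ) (r : ℝ) : 0 ≤ en k F r := by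
  unfold en; positivity

theorem CaseB_cmp {k κ c : ℝ} (hk : k ^ 2 = c * κ ^ 2) (hc : c ≤ 1) (F : ℝ → ℂ) (r : ℝ) :
    c * en κ F r ≤ en k F r ∧ en k F r ≤ en κ F r := by
  unfold en
  rw [hk]
  have h1 : 0 ≤ (1 - c) * ‖deriv F r‖ ^ 2 := mul_nonneg (by linarith) (sq_nonneg _)
  have h2 : 0 ≤ (1 - c) * (κ ^ 2 * ‖F r‖ ^ 2) := mul_nonneg (by linarith) (by positivity)
  constructor <;> nlinarith

theorem CaseB_M {h R₀ Ra L M κ : ℝ} (hh : 0 < h) (h1 : 1 ≤ R₀) (h2 : R₀ + 5 * h ≤ Ra) (h3 : Ra ≤ 5)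
    (hL : 0 ≤ L) (hM : L * Ra ^ 2 ≤ M) (hκ : κ ^ 2 = 1 + L + M) (hκ' : 6000 ≤ h * κ ^ 2) :
    h / 2000 * κ ^ 2 + (L + 1) + 4 ≤ M / (R₀ + 4 * h) ^ 2 := by
  have a0 : 1 ≤ Ra ^ 2 := one_le_pow₀ (by linarith)
  have a1 : L ≤ M := (le_mul_of_one_le_right hL a0).trans hM
  have a2 : Ra ^ 2 ≤ 25 := by nlinarith
  have a3 : (R₀ + 4 * h) ^ 2 + 2 * h ≤ Ra ^ 2 := by nlinarith
  have a4 : (R₀ + 4 * h) ^ 2 ≤ Ra ^ 2 * (1 - 2 * h / 25) := by nlinarith
  have a5 : L * (R₀ + 4 * h) ^ 2 ≤ M * (1 - 2 * h / 25) :=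
    (mul_le_mul_of_nonneg_left a4 hL).trans (by
      rw [← mul_assoc]; exact mul_le_mul_of_nonneg_right hM (by linarith))
  have a6 : (h / 2000 * κ ^ 2 + 5) * (R₀ + 4 * h) ^ 2 ≤ (h / 2000 * κ ^ 2 + 5) * 25 :=
    mul_le_mul_of_nonneg_left (by linarith) (by positivity)
  have a7 : h * κ ^ 2 ≤ h * (1 + 2 * M) := mul_le_mul_of_nonneg_left (by linarith) hh.le
  rw [le_div_iff₀ (by positivity)]
  nlinarith

/-- `Rd = R₀ + 4h`, `k² = h κ²/2000 ≤ κ²` (`h ≤ 1`), `t = |Im λ| + 1`, `M ≥ (κ² - 1)/2`,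
`1/Rd² - 1/Ra² ≥ 2h/625`.  `y = r¹¹ (en k F + en k G)`, `Y = ∫_0^r y`; `r*` minimises `e = en κ F + en κ G` on
`[R₀ + h, R₀ + 2h]`: `h (h/2000) e(r*) ≤ Y(R₀ + 2h)`, `Y(Rd) ≤ Y(R₀ + 2h) + 5¹¹ C κ e(r*)` (`outer0`),
`(kh)² Y(R₀ + 2h) ≤ Y(Rd)` (`ell`, `grow`); so `Y(R₀ + 2h) = 0` for large `κ`. -/
theorem caseB {h : ℝ} (hh : 0 < h) : ∃ ε₀ κ₀ : ℝ, 0 < ε₀ ∧
    ∀ {R₀ Ra ε κ : ℝ} {m : ℕ} {lam α α' : ℂ} {F G : ℝ → ℂ},
    Sys R₀ ε m α α' F G (fun _ => 0) (fun _ => 0) → ε ≤ ε₀ → Spec m lam α α' κ → κ₀ ≤ κ →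
    Glob m α α' F G → R₀ + 5 * h ≤ Ra → Ra ≤ 5 → |lam.im| * Ra ^ 2 ≤ MM m →
      ∃ r ∈ Icc (R₀ + h) (R₀ + 2 * h), en κ F r + en κ G r = 0 := by
  obtain ⟨ε₀, C, hε₀, -, hC, hout⟩ := outer0
  refine ⟨ε₀, (5 ^ 11 * C / (h * (h / 2000)) + 2) / (h / 2000 * h ^ 2) + 6000 / h, hε₀,
    fun {R₀ Ra ε κ m lam α α' F G} hS hε hsp hκ hG h1 h2 h3 => ?_⟩
  have hR := hS.one_le
  have hκ1 : 1 ≤ κ := hsp.par.one_le
  have hκκ : κ ≤ κ ^ 2 := by nlinarith
  have hκa : 6000 ≤ h * κ ^ 2 := by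
    have : 6000 / h ≤ κ := le_trans (le_add_of_nonneg_left (by positivity)) hκ
    rw [div_le_iff₀' hh] at this
    exact this.trans (mul_le_mul_of_nonneg_left hκκ hh.le)
  have hκb : 5 ^ 11 * C < h * (h / 2000) * (h / 2000 * h ^ 2 * κ - 1) := by
    have : (5 ^ 11 * C / (h * (h / 2000)) + 2) / (h / 2000 * h ^ 2) ≤ κ :=
      le_trans (le_add_of_nonneg_right (by positivity)) hκ
    rw [div_le_iff₀' (by positivity)] at this
    rw [← div_lt_iff₀' (by positivity)]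
    linarith
  set k := √(h / 2000) * κ with hkd
  have hk0 : 0 < k := by positivity
  have hk : k ^ 2 = h / 2000 * κ ^ 2 := by rw [hkd, mul_pow, Real.sq_sqrt (by positivity)]
  have hc : h / 2000 ≤ 1 := by linarith
  set e : ℝ → ℝ := fun r => en κ F r + en κ G r with he
  set y : ℝ → ℝ := fun r => r ^ 11 * (en k F r + en k G r) with hy
  have ec : Continuous e := (CaseB_cont hG.sF κ).add (CaseB_cont hG.sG κ)
  have yc : Continuous y := (continuous_pow 11).mul ((CaseB_cont hG.sF k).add (CaseB_cont hG.sG k))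
  have y0 : ∀ s, 0 ≤ s → 0 ≤ y s := fun s hs =>
    mul_nonneg (pow_nonneg hs _) (add_nonneg (CaseB_nonneg _ _ _) (CaseB_nonneg _ _ _))
  obtain ⟨r, hr, hmin⟩ := (isCompact_Icc (a := R₀ + h) (b := R₀ + 2 * h)).exists_isMinOn
    (nonempty_Icc.2 (by linarith)) ec.continuousOn
  refine ⟨r, hr, ?_⟩
  have e0 : 0 ≤ e r := add_nonneg (CaseB_nonneg _ _ _) (CaseB_nonneg _ _ _)
  have him := hsp.im
  have g1 := grow yc (Rd := R₀ + 4 * h) (r := R₀ + 2 * h) hk0.le hh.le (by linarith) (by linarith) y0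
    fun s hs hs' => ell hG (t := |lam.im| + 1) hk0 (by linarith)
      (by linarith [him.1, neg_abs_le lam.im]) (by linarith [him.2.2.1, le_abs_self lam.im])
      (by rw [hk]; exact CaseB_M hh hR h1 h2 (abs_nonneg _) h3 hsp.sq hκa) hs hs'
  have add : ∀ a b c : ℝ, (∫ x in a..b, y x) + ∫ x in b..c, y x = ∫ x in a..c, y x := fun a b c =>
    intervalIntegral.integral_add_adjacent_intervals (yc.intervalIntegrable _ _)
      (yc.intervalIntegrable _ _)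
  have pos : ∀ a b : ℝ, 0 ≤ a → a ≤ b → 0 ≤ ∫ x in a..b, y x := fun a b ha hab =>
    intervalIntegral.integral_nonneg hab fun s hs => y0 s (ha.trans hs.1)
  have g2 : ∫ x in r..(R₀ + 2 * h + 2 * h), y x ≤ 5 ^ 11 * (C * (κ * e r)) := by
    refine le_trans ?_ (mul_le_mul_of_nonneg_left ((hout hS hε hsp.par hsp.par' (R₁ := r)
      (by linarith [hr.1]) (by linarith [hr.2])).2 (R₀ + 2 * h + 2 * h) (by linarith [hr.2])
      (by linarith)) (by positivity))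
    rw [← intervalIntegral.integral_const_mul]
    refine intervalIntegral.integral_mono_on (by linarith [hr.2]) (yc.intervalIntegrable _ _)
      ((continuous_const.mul ec).intervalIntegrable _ _) fun s hs => ?_
    exact mul_le_mul (pow_le_pow_left₀ (by linarith [hs.1, hr.1]) (by linarith [hs.2]) 11)
      (add_le_add (CaseB_cmp hk hc F s).2 (CaseB_cmp hk hc G s).2)
      (add_nonneg (CaseB_nonneg _ _ _) (CaseB_nonneg _ _ _)) (by positivity)
  have g3 : h * (h / 2000 * e r) ≤ ∫ x in (R₀ + h)..(R₀ + 2 * h), y x := by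
    have := intervalIntegral.integral_mono_on (a := R₀ + h) (b := R₀ + 2 * h) (μ := volume)
      (f := fun _ => h / 2000 * e r) (by linarith) (continuous_const.intervalIntegrable _ _)
      (yc.intervalIntegrable _ _) fun s hs => by
        have b1 : e r ≤ e s := hmin hs
        have b2 : h / 2000 * e s ≤ en k F s + en k G s := by
          rw [he, mul_add]
          exact add_le_add (CaseB_cmp hk hc F s).1 (CaseB_cmp hk hc G s).1
        exact ((mul_le_mul_of_nonneg_left b1 (by positivity)).trans b2).trans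
          (le_mul_of_one_le_left (add_nonneg (CaseB_nonneg _ _ _) (CaseB_nonneg _ _ _))
            (one_le_pow₀ (by linarith [hs.1])))
    rwa [intervalIntegral.integral_const, smul_eq_mul, show R₀ + 2 * h - (R₀ + h) = h by ring]
      at this
  set A := ∫ x in (0 : ℝ)..(R₀ + 2 * h), y x with hA
  have g4 : h * (h / 2000) * e r ≤ A := by
    have := add 0 (R₀ + h) (R₀ + 2 * h)
    have := pos 0 (R₀ + h) le_rfl (by linarith)
    linarith
  have g5 : h / 2000 * h ^ 2 * κ ^ 2 * A ≤ A + 5 ^ 11 * C * κ * e r := by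
    have b1 := add 0 r (R₀ + 2 * h)
    have b2 := pos r (R₀ + 2 * h) (by linarith [hr.1]) hr.2
    have b3 := add 0 r (R₀ + 2 * h + 2 * h)
    rw [mul_pow, hk] at g1
    linarith
  have hA0 : 0 ≤ A := pos _ _ le_rfl (by linarith)
  have hq : 0 < h / 2000 * h ^ 2 * κ - 1 :=
    (mul_pos_iff_of_pos_left (by positivity)).1 (lt_of_le_of_lt (by positivity) hκb)
  by_contra hne
  have e1 : 0 < e r := lt_of_le_of_ne e0 (Ne.symm hne)
  have b1 : κ * (h / 2000 * h ^ 2 * κ - 1) * A ≤ 5 ^ 11 * C * κ * e r := by nlinarith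
  have b2 := mul_le_mul_of_nonneg_left g4 (mul_pos (one_pos.trans_le hκ1) hq).le
  have b3 := mul_lt_mul_of_pos_right hκb (mul_pos (one_pos.trans_le hκ1) e1)
  linarith

end Crest.Agent.R086.Mb
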