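import Crest.Agent.R086.Mb.DAlg0

/-! Row 86, part M-b: algebra of the operator `𝒟` on a half line. -/

set_option autoImplicit false

open MeasureTheory Set Filter Topology
open scoped ComplexConjugate

namespace Crest.Agent.R086.Mb

variable {R₀ r : ℝ} {m : ℕ} {u v c Y : ℝ → ℂ} {α : ℂ}

theorem DAlg_id (r : ℝ) : HasDerivAt (fun s : ℝ => (s : ℂ)) 1 r := Complex.ofRealCLM.hasDerivAt

theorem DAlg_half (r : ℝ) : HasDerivAt (fun s : ℝ => (s : ℂ) / 2) (1 / 2) r := (DAlg_id r).div_const 2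

theorem DAlg_half_smooth {N : ℕ} : ContDiffOn ℝ N (fun s : ℝ => (s : ℂ) / 2) (Ioi R₀) :=
  (Complex.ofRealCLM.contDiff.div_const 2).contDiffOn

theorem DAlg_const_mul (m : ℕ) (a : ℂ) (u : ℝ → ℂ) (r : ℝ) :
    DD m (fun r => a * u r) r = a * DD m u r := congrFun (lv_const_mul m a u 1) r

theorem DAlg_hasDerivAt (hR : 0 ≤ R₀) (hu : ContDiffOn ℝ 3 u (Ioi R₀)) (hr : R₀ < r) :
    HasDerivAt (DD m u) (DD m (deriv u) r - 11 / (r : ℂ) ^ 2 * deriv u r +
      2 * (MM m : ℂ) / (r : ℂ) ^ 3 * u r) r := by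
  have h0 : (r : ℂ) ≠ 0 := by exact_mod_cast (hR.trans_lt hr).ne'
  have h1 := hasDerivAt_of_contDiffOn (N := 3) hu (by norm_num) hr
  have h2 := hasDerivAt_deriv_of_contDiffOn (N := 3) hu (by norm_num) hr
  have h3 := hasDerivAt_deriv_of_contDiffOn (N := 2) (contDiffOn_deriv (N := 2) hu) le_rfl hr
  have h4 := (h3.add (((hasDerivAt_const r (11 : ℂ)).div (DAlg_id r) h0).mul h2)).sub
    (((hasDerivAt_const r ((m : ℂ) * (m + 10))).div ((DAlg_id r).pow 2) (pow_ne_zero 2 h0)).mul h1)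
  refine HasDerivAt.congr_deriv (f := DD m u) h4 ?_
  simp only [MM_cast, DD, Pi.div_apply, Pi.pow_apply]
  field_simp
  ring

theorem DD_mul (hc : ContDiffOn ℝ 2 c (Ioi R₀)) (hu : ContDiffOn ℝ 2 u (Ioi R₀)) (hr : R₀ < r) :
    DD m (fun r => c r * u r) r = c r * DD m u r + 2 * deriv c r * deriv u r +
      (deriv (deriv c) r + 11 * (deriv c r / r)) * u r := by
  have h1 : ∀ s, R₀ < s → deriv (fun r => c r * u r) s = deriv c s * u s + c s * deriv u s :=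
    fun s hs => ((hasDerivAt_of_contDiffOn (N := 2) hc (by norm_num) hs).mul
      (hasDerivAt_of_contDiffOn (N := 2) hu (by norm_num) hs)).deriv
  have c1 := hasDerivAt_of_contDiffOn (N := 2) hc (by norm_num) hr
  have c2 := hasDerivAt_deriv_of_contDiffOn (N := 2) hc le_rfl hr
  have u1 := hasDerivAt_of_contDiffOn (N := 2) hu (by norm_num) hr
  have u2 := hasDerivAt_deriv_of_contDiffOn (N := 2) hu le_rfl hr
  have h2 : deriv (fun s => deriv c s * u s + c s * deriv u s) r = _ :=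
    ((c2.mul u1).add (c1.mul u2)).deriv
  unfold DD
  rw [deriv_congr_Ioi h1 hr, h2, h1 r hr]
  ring

theorem DD_deriv (hR : 0 ≤ R₀) (hu : ContDiffOn ℝ 3 u (Ioi R₀)) (hr : R₀ < r) :
    DD m (deriv u) r = deriv (DD m u) r + 11 / (r : ℂ) ^ 2 * deriv u r -
      2 * (MM m : ℂ) / (r : ℂ) ^ 3 * u r := by
  rw [(DAlg_hasDerivAt hR hu hr).deriv]
  ring

theorem DD_theta (hR : 0 ≤ R₀) (hu : ContDiffOn ℝ 3 u (Ioi R₀)) (hr : R₀ < r) :
    DD m (fun r => (r : ℂ) / 2 * deriv u r) r = (r : ℂ) / 2 * deriv (DD m u) r + DD m u r := by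
  have h0 : (r : ℂ) ≠ 0 := by exact_mod_cast (hR.trans_lt hr).ne'
  have e1 : deriv (fun s : ℝ => (s : ℂ) / 2) = fun _ => 1 / 2 := funext fun s => (DAlg_half s).deriv
  rw [DD_mul (DAlg_half_smooth (N := 2)) (contDiffOn_deriv (N := 2) hu) hr, DD_deriv hR hu hr, e1,
    deriv2_eq m u r]
  simp only [deriv_const]
  field_simp
  ring

theorem Eqn.mono {R₁ : ℝ} (h : Eqn R₀ m α u Y) (hR : R₀ ≤ R₁) : Eqn R₁ m α u Y :=
  fun r hr => h r (hR.trans_lt hr)

/-- `Y = i𝒟u - αu - (r/2)u'` on the half line -/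
theorem Eqn.contDiffOn {N : ℕ} (h : Eqn R₀ m α u Y) (hR : 0 ≤ R₀)
    (hu : ContDiffOn ℝ (N + 2 : ℕ) u (Ioi R₀)) : ContDiffOn ℝ N Y (Ioi R₀) := by
  have h1 := contDiffOn_DD hR hu m
  have h2 : ContDiffOn ℝ N u (Ioi R₀) := hu.of_le (by exact_mod_cast Nat.le_add_right _ _)
  have h3 : ContDiffOn ℝ N (deriv u) (Ioi R₀) :=
    contDiffOn_deriv (hu.of_le (by exact_mod_cast Nat.le_succ _))
  refine (((contDiffOn_const (c := Complex.I)).mul h1).sub (((contDiffOn_const (c := α)).mul h2).add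
    (DAlg_half_smooth.mul h3))).congr fun r hr => ?_
  rw [h r hr]
  ring

/-- apply `𝒟` to the equation -/
theorem Eqn.succ (h : Eqn R₀ m α u Y) (hR : 0 ≤ R₀) (hu : ContDiffOn ℝ 4 u (Ioi R₀)) :
    Eqn R₀ m (α + 1) (DD m u) (DD m Y) := by
  intro r hr
  have h2 : ContDiffOn ℝ 2 u (Ioi R₀) := hu.of_le (by norm_num)
  have h3 : ContDiffOn ℝ 3 u (Ioi R₀) := hu.of_le (by norm_num)
  have a1 : ContDiffOn ℝ 2 (fun s => α * u s) (Ioi R₀) := contDiffOn_const.mul h2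
  have a2 : ContDiffOn ℝ 2 (fun s : ℝ => (s : ℂ) / 2 * deriv u s) (Ioi R₀) :=
    (DAlg_half_smooth (N := 2)).mul (contDiffOn_deriv (N := 2) h3)
  have a3 : ContDiffOn ℝ 2 Y (Ioi R₀) := h.contDiffOn (N := 2) hR hu
  have e := DD_congr (m := m) h hr
  rw [DAlg_const_mul, DD_add (a1.add a2) a3 hr, DD_add a1 a2 hr, DAlg_const_mul,
    DD_theta hR h3 hr] at e
  rw [e]
  ring

theorem Eqn.lv {N j : ℕ} (h : Eqn R₀ m α u Y) (hR : 0 ≤ R₀) (hu : ContDiffOn ℝ N u (Ioi R₀))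
    (hj : 2 * j + 2 ≤ N) : Eqn R₀ m (α + j) (lv m u j) (lv m Y j) := by
  induction j with
  | zero => simpa using h
  | succ j ih =>
    have h1 := (ih (by omega)).succ hR (contDiffOn_lv (N' := 4) hR hu m (by omega))
    rw [lv_succ, lv_succ, Nat.cast_succ, ← add_assoc]
    exact h1

/-- differentiate the equation -/
theorem Eqn.deriv (h : Eqn R₀ m α u Y) (hR : 0 ≤ R₀) (hu : ContDiffOn ℝ 3 u (Ioi R₀)) (hr : R₀ < r) :
    Complex.I * deriv (DD m u) r = (α + 1 / 2) * deriv u r + (r : ℂ) / 2 *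
      (DD m u r - 11 / (r : ℂ) * deriv u r + (MM m : ℂ) / (r : ℂ) ^ 2 * u r) + deriv Y r := by
  have u1 := hasDerivAt_of_contDiffOn (N := 3) hu (by norm_num) hr
  have u2 := hasDerivAt_deriv_of_contDiffOn (N := 3) hu (by norm_num) hr
  have d1 := hasDerivAt_of_contDiffOn (N := 1) (contDiffOn_DD (N := 1) hR hu m) le_rfl hr
  have y1 := hasDerivAt_of_contDiffOn (N := 1) (h.contDiffOn (N := 1) hR hu) le_rfl hr
  have e := deriv_congr_Ioi h hr
  have e1 : _root_.deriv (fun s => Complex.I * DD m u s) r = _ := (d1.const_mul Complex.I).deriv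
  have e2 : _root_.deriv (fun s : ℝ => α * u s + (s : ℂ) / 2 * _root_.deriv u s + Y s) r = _ :=
    (((u1.const_mul α).add ((DAlg_half r).mul u2)).add y1).deriv
  rw [e1, e2, deriv2_eq m u r] at e
  rw [e]
  ring

theorem Sys.swap {ε : ℝ} {α' : ℂ} {F G eF eG : ℝ → ℂ} (h : Sys R₀ ε m α α' F G eF eG) :
    Sys R₀ ε m α' α G F eG eF :=
  ⟨h.one_le, h.aG, h.aF, h.aeG, h.aeF, h.hG, h.hF⟩

end Crest.Agent.R086.Mb
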