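import Crest.Agent.R086.Mb.Defs

/-! Row 86, part M-b: algebra of the operator `𝒟` on a half line. -/

set_option autoImplicit false

open MeasureTheory Set Filter Topology
open scoped ComplexConjugate

namespace Crest.Agent.R086.Mb

variable {R₀ r : ℝ} {m : ℕ} {u v c Y : ℝ → ℂ} {α : ℂ}

theorem MM_nonneg (m : ℕ) : 0 ≤ MM m := by unfold MM; positivity

theorem MM_cast (m : ℕ) : ((MM m : ℝ) : ℂ) = (m : ℂ) * (m + 10) := by unfold MM; push_cast; ring

theorem nu_sq (m : ℕ) : nu m ^ 2 = (MM m + 25) / 4 := by unfold nu MM; ring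

@[simp] theorem lv_zero (m : ℕ) (u : ℝ → ℂ) : lv m u 0 = u := rfl

theorem lv_succ (m : ℕ) (u : ℝ → ℂ) (j : ℕ) : lv m u (j + 1) = DD m (lv m u j) :=
  Function.iterate_succ_apply' _ _ _

theorem deriv2_eq (m : ℕ) (u : ℝ → ℂ) (r : ℝ) : deriv (deriv u) r =
    DD m u r - 11 / (r : ℂ) * deriv u r + (MM m : ℂ) / (r : ℂ) ^ 2 * u r := by
  rw [MM_cast]; unfold DD; ring

theorem deriv_congr_Ioi (h : ∀ r, R₀ < r → u r = v r) (hr : R₀ < r) : deriv u r = deriv v r := by
  refine Filter.EventuallyEq.deriv_eq ?_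
  filter_upwards [Ioi_mem_nhds hr] with s hs using h s hs

theorem DD_congr (h : ∀ r, R₀ < r → u r = v r) (hr : R₀ < r) : DD m u r = DD m v r := by
  unfold DD
  rw [deriv_congr_Ioi (fun r hr => deriv_congr_Ioi h hr) hr, deriv_congr_Ioi h hr, h r hr]

theorem lv_congr (h : ∀ r, R₀ < r → u r = v r) (j : ℕ) (hr : R₀ < r) : lv m u j r = lv m v j r := by
  induction j generalizing r with
  | zero => exact h r hr
  | succ j ih =>
    rw [lv_succ, lv_succ]
    exact DD_congr (fun r hr => ih hr) hr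

theorem contDiffOn_deriv {N : ℕ} (h : ContDiffOn ℝ (N + 1 : ℕ) u (Ioi R₀)) :
    ContDiffOn ℝ N (deriv u) (Ioi R₀) := by
  exact h.deriv_of_isOpen isOpen_Ioi (by push_cast; exact le_rfl)

theorem contDiffOn_DD {N : ℕ} (hR : 0 ≤ R₀) (h : ContDiffOn ℝ (N + 2 : ℕ) u (Ioi R₀)) (m : ℕ) :
    ContDiffOn ℝ N (DD m u) (Ioi R₀) := by
  have h1 : ContDiffOn ℝ (N + 1 : ℕ) (deriv u) (Ioi R₀) := contDiffOn_deriv (N := N + 1) h
  have h2 : ContDiffOn ℝ N (deriv (deriv u)) (Ioi R₀) := contDiffOn_deriv h1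
  have h3 : ContDiffOn ℝ N (fun r : ℝ => (r : ℂ)) (Ioi R₀) := Complex.ofRealCLM.contDiff.contDiffOn
  have h4 : ∀ r ∈ Ioi R₀, (r : ℂ) ≠ 0 := fun r hr =>
    Complex.ofReal_ne_zero.2 (hR.trans_lt hr).ne'
  have h5 : ContDiffOn ℝ N (fun r : ℝ => (r : ℂ)⁻¹) (Ioi R₀) := h3.inv h4
  have e : DD m u = fun r => deriv (deriv u) r + 11 * (r : ℂ)⁻¹ * deriv u r
      - ((m : ℂ) * (m + 10)) * ((r : ℂ)⁻¹) ^ 2 * u r := by
    funext r
    unfold DD
    ring
  rw [e]
  exact (h2.add ((contDiffOn_const.mul h5).mul (h1.of_le (by exact_mod_cast Nat.le_succ N)))).sub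
    ((contDiffOn_const.mul (h5.pow 2)).mul (h.of_le (by exact_mod_cast Nat.le_add_right N 2)))

theorem contDiffOn_lv {N N' j : ℕ} (hR : 0 ≤ R₀) (h : ContDiffOn ℝ N u (Ioi R₀)) (m : ℕ)
    (hN : N' + 2 * j ≤ N) : ContDiffOn ℝ N' (lv m u j) (Ioi R₀) := by
  induction j generalizing N' with
  | zero => exact h.of_le (by exact_mod_cast hN)
  | succ j ih =>
    rw [lv_succ]
    exact contDiffOn_DD hR (ih (N' := N' + 2) (by omega)) m

theorem hasDerivAt_of_contDiffOn {N : ℕ} (h : ContDiffOn ℝ N u (Ioi R₀)) (hN : 1 ≤ N) (hr : R₀ < r) :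
    HasDerivAt u (deriv u r) r := by
  have h1 : (N : WithTop ℕ∞) ≠ 0 := by exact_mod_cast (by omega : N ≠ 0)
  exact ((h.contDiffAt (Ioi_mem_nhds hr)).differentiableAt h1).hasDerivAt

theorem hasDerivAt_deriv_of_contDiffOn {N : ℕ} (h : ContDiffOn ℝ N u (Ioi R₀)) (hN : 2 ≤ N)
    (hr : R₀ < r) : HasDerivAt (deriv u) (deriv (deriv u) r) r := by
  exact hasDerivAt_of_contDiffOn (N := 1)
    (contDiffOn_deriv (h.of_le (by exact_mod_cast hN))) le_rfl hr

/-- `deriv.star` -/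
theorem deriv_conj (u : ℝ → ℂ) : deriv (fun r => conj (u r)) = fun r => conj (deriv u r) := by
  funext r
  exact deriv.star (f := u)

theorem DD_conj (m : ℕ) (u : ℝ → ℂ) : DD m (fun r => conj (u r)) = fun r => conj (DD m u r) := by
  funext r
  unfold DD
  rw [deriv_conj, deriv_conj]
  simp [Complex.conj_ofReal, map_ofNat]

theorem lv_conj (m : ℕ) (u : ℝ → ℂ) (j : ℕ) :
    lv m (fun r => conj (u r)) j = fun r => conj (lv m u j r) := by
  induction j with
  | zero => rfl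
  | succ j ih => rw [lv_succ, lv_succ, ih, DD_conj]

/-- `deriv_const_mul_field` -/
theorem lv_const_mul (m : ℕ) (a : ℂ) (u : ℝ → ℂ) (j : ℕ) :
    lv m (fun r => a * u r) j = fun r => a * lv m u j r := by
  induction j with
  | zero => rfl
  | succ j ih =>
    rw [lv_succ, lv_succ, ih]
    funext r
    unfold DD
    rw [deriv_const_mul_field', deriv_const_mul_field']
    ring

theorem lv_zero_fun (m j : ℕ) : lv m (fun _ => 0) j = fun _ => 0 := by
  have := lv_const_mul m 0 (fun _ => 0) j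
  simpa using this

theorem DD_add (hu : ContDiffOn ℝ 2 u (Ioi R₀)) (hv : ContDiffOn ℝ 2 v (Ioi R₀)) (hr : R₀ < r) :
    DD m (fun r => u r + v r) r = DD m u r + DD m v r := by
  have e : ∀ s, R₀ < s → deriv (fun r => u r + v r) s = deriv u s + deriv v s := fun s hs =>
    ((hasDerivAt_of_contDiffOn (N := 2) hu one_le_two hs).add
      (hasDerivAt_of_contDiffOn (N := 2) hv one_le_two hs)).deriv
  have e2 : deriv (fun s => deriv u s + deriv v s) r = deriv (deriv u) r + deriv (deriv v) r :=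
    ((hasDerivAt_deriv_of_contDiffOn (N := 2) hu le_rfl hr).add
      (hasDerivAt_deriv_of_contDiffOn (N := 2) hv le_rfl hr)).deriv
  unfold DD
  rw [deriv_congr_Ioi e hr, e2, e r hr]
  ring

theorem lv_add {N j : ℕ} (hR : 0 ≤ R₀) (hu : ContDiffOn ℝ N u (Ioi R₀))
    (hv : ContDiffOn ℝ N v (Ioi R₀)) (hj : 2 * j ≤ N) (hr : R₀ < r) :
    lv m (fun r => u r + v r) j r = lv m u j r + lv m v j r := by
  induction j generalizing r with
  | zero => rfl
  | succ j ih =>
    rw [lv_succ, lv_succ, lv_succ, DD_congr (fun r hr => ih (by omega) hr) hr]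
    exact DD_add (contDiffOn_lv (N' := 2) hR hu m (by omega))
      (contDiffOn_lv (N' := 2) hR hv m (by omega)) hr

end Crest.Agent.R086.Mb
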