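import Crest.Agent.R086.Defs

/-!
# Row 86, part M-b (helper84): the exterior region and high frequencies.  Definitions.

Notation: `F_j = lv m F j = 𝒟^j F`, `M = MM m = m (m + 10)`, `κ² ≈ β = 1 + |Im λ| + M`.
The pair `(F, G) = (f, conj g)` solves on `r > R₀` the system `Sys`
`i 𝒟 F = α F + (r/2) F' + V F + W conj G + e_F` (and the same with `F, G` exchanged), `V, W` small symbols of
order `-2`.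
-/

set_option autoImplicit false

open MeasureTheory Set Filter Topology
open scoped ComplexConjugate

namespace Crest.Agent.R086.Mb

noncomputable section

/-- `M = m (m + 10)` -/
def MM (m : ℕ) : ℝ := (m : ℝ) * (m + 10)

/-- the level `F_j = 𝒟^j F` -/
def lv (m : ℕ) (F : ℝ → ℂ) (j : ℕ) : ℝ → ℂ := (DD m)^[j] F

/-- symbols of order `-o` on `(R₀, ∞)`, `N` derivatives -/
def Sy (R₀ : ℝ) (N o : ℕ) (K : ℝ) (c : ℝ → ℂ) : Prop :=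
  ContDiffOn ℝ N c (Ioi R₀) ∧ ∀ k : ℕ, k ≤ N → ∀ r : ℝ, R₀ < r → ‖iteratedDeriv k c r‖ ≤ K / r ^ (o + k)

/-- admissible functions on `(R₀, ∞)` -/
def Adm (R₀ : ℝ) (f : ℝ → ℂ) : Prop := ∃ K : ℝ, Sy R₀ 12 0 K f

/-- `i 𝒟 F = α F + (r/2) F' + Y` on `(R₀, ∞)` -/
def Eqn (R₀ : ℝ) (m : ℕ) (α : ℂ) (F Y : ℝ → ℂ) : Prop :=
  ∀ r : ℝ, R₀ < r → Complex.I * DD m F r = α * F r + (r : ℂ) / 2 * deriv F r + Y r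

/-- one of the two equations -/
def Half (R₀ ε : ℝ) (m : ℕ) (α : ℂ) (F G e : ℝ → ℂ) : Prop :=
  ∃ V W : ℝ → ℂ, Sy R₀ 12 2 ε V ∧ Sy R₀ 12 2 ε W ∧
    Eqn R₀ m α F (fun r => V r * F r + W r * conj (G r) + e r)

/-- the exterior system -/
structure Sys (R₀ ε : ℝ) (m : ℕ) (α α' : ℂ) (F G eF eG : ℝ → ℂ) : Prop where
  one_le : 1 ≤ R₀
  aF : Adm R₀ F
  aG : Adm R₀ G
  aeF : Adm R₀ eF
  aeG : Adm R₀ eG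
  hF : Half R₀ ε m α F G eF
  hG : Half R₀ ε m α' G F eG

/-- the size `κ` of the frequency -/
structure Par (m : ℕ) (α : ℂ) (κ : ℝ) : Prop where
  one_le : 1 ≤ κ
  M_le : MM m ≤ κ ^ 2
  norm_le : ‖α‖ ≤ 5 * κ ^ 2
  le : κ ^ 2 ≤ 2 + |α.im| + MM m
  re0 : 0 ≤ α.re
  re1 : α.re ≤ 3.4

/-- majorant of `r² 𝒟^j (c u)` for a symbol `c` of order `-2` -/
def Zv (κ : ℝ) (m : ℕ) (u : ℝ → ℂ) (j : ℕ) (r : ℝ) : ℝ :=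
  ∑ i ∈ Finset.range (j + 1), κ ^ (2 * (j - i)) / r ^ (2 * (j - i)) * ‖lv m u i r‖ +
    ∑ i ∈ Finset.range j, κ ^ (2 * (j - 1 - i)) * r / r ^ (2 * (j - i)) * ‖deriv (lv m u i) r‖

/-- majorant of `(𝒟^j (c u))'` -/
def Zd (κ : ℝ) (m : ℕ) (u : ℝ → ℂ) (j : ℕ) (r : ℝ) : ℝ :=
  ∑ i ∈ Finset.range (j + 1), κ ^ (2 * (j - i)) * (‖lv m u i r‖ + ‖deriv (lv m u i) r‖)

/-- the equations of the levels; `X j = 𝒟^j (V F + W conj G)` -/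
structure Lev (R₀ K κ : ℝ) (m : ℕ) (α : ℂ) (F G e : ℝ → ℂ) (X : ℕ → ℝ → ℂ) : Prop where
  eqn : ∀ j : ℕ, j ≤ 4 → Eqn R₀ m (α + j) (lv m F j) (fun r => X j r + lv m e j r)
  cont : ∀ j : ℕ, j ≤ 4 → ContinuousOn (X j) (Ioi R₀)
  bd : ∀ j : ℕ, j ≤ 4 → ∀ r : ℝ, R₀ < r → ‖X j r‖ ≤ K / r ^ 2 * (Zv κ m F j r + Zv κ m G j r)
  diff : ∀ j : ℕ, j ≤ 3 → ∀ r : ℝ, R₀ < r → DifferentiableAt ℝ (X j) r
  bd' : ∀ j : ℕ, j ≤ 3 → ∀ r : ℝ, R₀ < r → ‖deriv (X j) r‖ ≤ K * (Zd κ m F j r + Zd κ m G j r)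

/-- natural size of the level `j` at the point `r` -/
def Jet (κ : ℝ) (m : ℕ) (u : ℝ → ℂ) (j : ℕ) (r s : ℝ) : Prop :=
  ‖lv m u j r‖ ≤ κ ^ (2 * j) * s ∧ ‖deriv (lv m u j) r‖ ≤ κ ^ (2 * j + 1) * s

/-- the density of the outer estimate -/
def dens (κ : ℝ) (m : ℕ) (u : ℝ → ℂ) (r : ℝ) : ℝ :=
  ∑ i ∈ Finset.range 4, (κ ^ (16 - 4 * i) * (r ^ (4 * i) / r ^ 7 * ‖lv m u i r‖ ^ 2) +
    κ ^ (14 - 4 * i) * (r ^ (4 * i) / r ^ 5 * ‖deriv (lv m u i) r‖ ^ 2)) + r ^ 11 * ‖lv m u 4 r‖ ^ 2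

/-- `κ² |u|² + |u'|²` -/
def en (κ : ℝ) (u : ℝ → ℂ) (r : ℝ) : ℝ := κ ^ 2 * ‖u r‖ ^ 2 + ‖deriv u r‖ ^ 2

/-- `Φ = √(ρ²/4 + Tρ)`, `ρ = r²/4` -/
def Ph (T r : ℝ) : ℝ := r / 2 * Real.sqrt (r ^ 2 / 16 + T)

/-- `ν = (5 + m)/2` -/
def nu (m : ℕ) : ℝ := (5 + (m : ℝ)) / 2

/-! ## The interface with part M-a -/

/-- `β = 1 + |Im λ| + M` -/
def bet (m : ℕ) (lam : ℂ) : ℝ := 1 + |lam.im| + MM m

/-- `e(r) = β (|f|² + |g|²) + |f'|² + |g'|²` -/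
def eng (m : ℕ) (lam : ℂ) (f g : ℝ → ℂ) (r : ℝ) : ℝ :=
  bet m lam * (‖f r‖ ^ 2 + ‖g r‖ ^ 2) + ‖deriv f r‖ ^ 2 + ‖deriv g r‖ ^ 2

/-- an admissible solution of `(L - λ)(f, g) = Σ c (φ, conj φ)`, `0 ≤ Re λ ≤ 3.3` -/
structure Eig (n : ℕ) (b : ℝ) (q : ℝ → ℂ) (m : ℕ) (lam c₀ c₁ c₂ : ℂ) (f g : ℝ → ℂ) : Prop where
  re0 : 0 ≤ lam.re
  re1 : lam.re ≤ 33 / 10
  af : RadAdm f
  ag : RadAdm g
  allowed : Allowed m c₀ c₁ c₂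
  eq1 : ∀ r : ℝ, 0 < r → L1 n b q m f g r - lam * f r = phc (aa n) b (Qr q) c₀ c₁ c₂ r
  eq2 : ∀ r : ℝ, 0 < r → L2 n b q m f g r - lam * g r =
    conj (phc (aa n) b (Qr q) (conj c₀) (conj c₁) (conj c₂) r)

/-- what M-a proves with the energy and the Morawetz identity (`c = 0`) -/
def Hyd (b R : ℕ → ℝ) (q : ℕ → ℝ → ℂ) : Prop :=
  ∃ η₀ C : ℝ, 0 < η₀ ∧ 0 ≤ C ∧ ∀ η : ℝ, 0 < η → ∀ᶠ n in atTop, ∀ (m : ℕ) (lam : ℂ) (f g : ℝ → ℂ),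
    Eig n (b n) (q n) m lam 0 0 0 f g → ∀ r ∈ Icc (R n + η) (R n + η₀),
      -(lam * (f r * conj (deriv f r) + g r * conj (deriv g r))).re ≤ C * eng m lam f g r ∧
      ∀ r' ∈ Icc r (R n + η₀), ‖f r‖ ^ 2 + ‖g r‖ ^ 2 ≤ C * eng m lam f g r'

/-- the symmetry modes are admissible eigenfunctions (M0) -/
structure Modes (n : ℕ) (b : ℝ) (q : ℝ → ℂ) : Prop where
  e0 : Eig n b q 0 0 0 0 0 (ph0 (Qr q)) (fun r => conj (ph0 (Qr q) r))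
  e1 : Eig n b q 0 1 0 0 0 (ph1 (aa n) b (Qr q)) (fun r => conj (ph1 (aa n) b (Qr q) r))
  e2 : Eig n b q 1 (1 / 2) 0 0 0 (ph2 (Qr q)) (fun r => conj (ph2 (Qr q) r))

end

end Crest.Agent.R086.Mb
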