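import Crest.Agent.R086.Mb.DAlg

/-! Row 86, part M-b: the spectral parameters. -/

set_option autoImplicit false

open MeasureTheory Set Filter Topology
open scoped ComplexConjugate

namespace Crest.Agent.R086.Mb

/-- `α = λ + a - ib`, `α' = conj λ + a - ib`, `κ² = β` -/
structure Spec (m : ℕ) (lam α α' : ℂ) (κ : ℝ) : Prop where
  pos : 0 ≤ κ
  sq : κ ^ 2 = bet m lam
  re0 : 0 ≤ lam.re
  re1 : lam.re ≤ 33 / 10
  ex : ∃ a b : ℝ, a ∈ Icc (0 : ℝ) 0.1 ∧ b ∈ Icc (0 : ℝ) 1 ∧ α = lam + a - Complex.I * b ∧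
    α' = conj lam + a - Complex.I * b

/-- the equations on the whole half line, with the repulsive potential -/
structure Glob (m : ℕ) (α α' : ℂ) (F G : ℝ → ℂ) : Prop where
  sF : ContDiff ℝ 2 F
  sG : ContDiff ℝ 2 G
  ex : ∃ (v : ℝ → ℝ) (W : ℝ → ℂ), (∀ r, ‖W r‖ ≤ v r) ∧
    Eqn 0 m α F (fun r => Complex.I * (v r * F r + W r * conj (G r))) ∧
    Eqn 0 m α' G (fun r => Complex.I * (v r * G r + W r * conj (F r)))

variable {m : ℕ} {lam α α' : ℂ} {κ : ℝ}

theorem Spec.swap (h : Spec m lam α α' κ) : Spec m (conj lam) α' α κ := by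
  obtain ⟨a, b, ha, hb, h1, h2⟩ := h.ex
  refine ⟨h.pos, ?_, by simpa using h.re0, by simpa using h.re1, a, b, ha, hb, h2, by simpa using h1⟩
  rw [h.sq]; simp [bet]

theorem Spec.im (h : Spec m lam α α' κ) : lam.im - 1 ≤ α.im ∧ α.im ≤ lam.im ∧
    -lam.im - 1 ≤ α'.im ∧ α'.im ≤ -lam.im := by
  obtain ⟨a, b, ha, hb, rfl, rfl⟩ := h.ex
  simp only [Complex.sub_im, Complex.add_im, Complex.ofReal_im, Complex.mul_im, Complex.I_re,
    Complex.I_im, Complex.ofReal_re, Complex.conj_im]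
  refine ⟨?_, ?_, ?_, ?_⟩ <;> linarith [hb.1, hb.2]

theorem Spec.par (h : Spec m lam α α' κ) : Par m α κ := by
  have hM := MM_nonneg m
  have ht := abs_nonneg lam.im
  have hs : κ ^ 2 = 1 + |lam.im| + MM m := h.sq
  obtain ⟨h1, h2, -, -⟩ := h.im
  obtain ⟨a, b, ha, hb, hα, -⟩ := h.ex
  have hre : α.re = lam.re + a := by simp [hα]
  have hab : |α.im - lam.im| ≤ 1 := abs_le.2 ⟨by linarith, by linarith⟩
  have e1 := abs_sub_abs_le_abs_sub α.im lam.im
  have e2 := abs_sub_abs_le_abs_sub lam.im α.im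
  rw [abs_sub_comm] at e2
  have h0 := h.re0
  have h3 := h.re1
  have ha1 := ha.1
  have ha2 := ha.2
  refine ⟨by nlinarith [h.pos], by linarith, ?_, by linarith, by linarith, by linarith⟩
  refine (Complex.norm_le_abs_re_add_abs_im α).trans ?_
  rw [abs_of_nonneg (by linarith)]
  linarith

theorem Spec.par' (h : Spec m lam α α' κ) : Par m α' κ := h.swap.par

end Crest.Agent.R086.Mb
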