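import Crest.Agent.R086.Mb.Sy
import Crest.Agent.R086.Mb.Spec

/-! Row 86, part M-b: from the eigenvalue problem to the abstract systems. -/

set_option autoImplicit false

open MeasureTheory Set Filter Topology
open scoped ComplexConjugate

namespace Crest.Agent.R086.Mb

variable {n m : ℕ} {b : ℝ} {q f g : ℝ → ℂ} {lam c₀ c₁ c₂ : ℂ}

theorem phc_zero (a b : ℝ) (Q : ℝ → ℂ) : phc a b Q 0 0 0 = fun _ => 0 := by
  funext r; simp [phc]

theorem conj_V1 (n : ℕ) (u : ℂ) : conj (V1 n u) = V1 n u := by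
  simp only [V1, map_mul, map_add, map_pow, map_natCast, map_one, Complex.conj_conj]
  ring

theorem V1_eq (n : ℕ) (u : ℂ) : V1 n u = ((((n : ℝ) + 1) * ‖u‖ ^ (2 * n) : ℝ) : ℂ) := by
  rw [V1, ← mul_pow, Complex.mul_conj, Complex.normSq_eq_norm_sq, pow_mul]
  push_cast
  ring

theorem norm_V2_le (n : ℕ) (u : ℂ) : ‖V2 n u‖ ≤ ((n : ℝ) + 1) * ‖u‖ ^ (2 * n) := by
  rcases n with _ | n
  · simp [V2]
  · rw [V2, norm_mul, norm_mul, norm_pow, norm_pow, Complex.norm_conj, Complex.norm_natCast,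
      Nat.add_sub_cancel, ← pow_add, show n + 1 + 1 + n = 2 * (n + 1) by ring]
    exact mul_le_mul_of_nonneg_right (by linarith) (by positivity)

theorem Eig.eqn1 (h : Eig n b q m lam c₀ c₁ c₂ f g) :
    Eqn 0 m (lam + (aa n : ℝ) - Complex.I * b) f (fun r => Complex.I * V1 n (Qr q r) * f r +
      Complex.I * V2 n (Qr q r) * conj (conj (g r)) + phc (aa n) b (Qr q) c₀ c₁ c₂ r) := by
  intro r hr
  have h1 := h.eq1 r hr
  simp only [L1] at h1
  simp only [Complex.conj_conj]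
  linear_combination h1

/-- conjugate the second equation (`DD_conj`, `deriv_conj`, `conj_V1`) -/
theorem Eig.eqn2 (h : Eig n b q m lam c₀ c₁ c₂ f g) :
    Eqn 0 m (conj lam + (aa n : ℝ) - Complex.I * b) (fun r => conj (g r))
      (fun r => Complex.I * V1 n (Qr q r) * conj (g r) + Complex.I * V2 n (Qr q r) * conj (f r) +
        phc (aa n) b (Qr q) (conj c₀) (conj c₁) (conj c₂) r) := by
  intro r hr
  have h1 := congrArg conj (h.eq2 r hr)
  simp only [L2, map_sub, map_add, map_mul, map_neg, map_div₀, Complex.conj_conj, Complex.conj_I,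
    Complex.conj_ofReal, conj_V1, map_ofNat] at h1
  simp only [DD_conj, deriv_conj]
  linear_combination h1

theorem Eig.glob (h : Eig n b q m lam 0 0 0 f g) :
    Glob m (lam + (aa n : ℝ) - Complex.I * b) (conj lam + (aa n : ℝ) - Complex.I * b) f
      (fun r => conj (g r)) := by
  refine ⟨h.af.smooth.of_le (by norm_num),
    Complex.conjCLE.contDiff.comp (h.ag.smooth.of_le (by norm_num)),
    fun r => ((n : ℝ) + 1) * ‖Qr q r‖ ^ (2 * n), fun r => V2 n (Qr q r), fun r => norm_V2_le _ _,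
    fun r hr => ?_, fun r hr => ?_⟩
  · have h1 := h.eqn1 r hr
    simp only [phc_zero] at h1
    simp only [← V1_eq]
    linear_combination h1
  · have h1 := h.eqn2 r hr
    simp only [map_zero, phc_zero] at h1
    simp only [← V1_eq]
    linear_combination h1

theorem Eig.spec (h : Eig n b q m lam c₀ c₁ c₂ f g) (hn : 5 ≤ n) (hb : b ∈ Icc (0 : ℝ) 1) :
    Spec m lam (lam + (aa n : ℝ) - Complex.I * b) (conj lam + (aa n : ℝ) - Complex.I * b)
      (Real.sqrt (bet m lam)) := by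
  have h0 : 0 ≤ bet m lam := by
    have := MM_nonneg m
    unfold bet
    positivity
  have h5 : (5 : ℝ) ≤ n := by exact_mod_cast hn
  refine ⟨Real.sqrt_nonneg _, Real.sq_sqrt h0, h.re0, h.re1, aa n, b, ⟨?_, ?_⟩, hb, rfl, rfl⟩
  · unfold aa; positivity
  · unfold aa
    rw [div_le_iff₀ (by linarith)]
    linarith

theorem Modes.adm (h : Modes n b q) {R₀ : ℝ} (hR : 0 ≤ R₀) (c₀ c₁ c₂ : ℂ) :
    Adm R₀ (phc (aa n) b (Qr q) c₀ c₁ c₂) := by
  exact (((adm_of_radAdm h.e0.af hR).const_mul c₀).add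
    ((adm_of_radAdm h.e1.af hR).const_mul c₁)).add ((adm_of_radAdm h.e2.af hR).const_mul c₂)

/-- the potentials are small symbols outside the plateau (`Fam.tiny`, `Prof.smooth`) -/
theorem fam_sy {b R : ℕ → ℝ} {q : ℕ → ℝ → ℂ} (hF : Fam b R q) {η ε : ℝ} (hη : 0 < η) (hε : 0 < ε) :
    ∀ᶠ n in atTop, ∀ R₀ : ℝ, R n + η ≤ R₀ →
      Sy R₀ 12 2 ε (fun r => Complex.I * V1 n (Qr (q n) r)) ∧
      Sy R₀ 12 2 ε (fun r => Complex.I * V2 n (Qr (q n) r)) := by
  filter_upwards [hF.tiny η hη ε hε, hF.prof, hF.box] with n h1 h2 h3 R₀ hR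
  have h0 : 0 < R₀ := by linarith [h3.2.1]
  have hQ : ContDiff ℝ (12 : ℕ) (Qr (q n)) :=
    (contDiff_infty.1 h2.smooth 12).comp (f := fun r : ℝ => r ^ 2 / 4) (by fun_prop)
  have hQ' : ContDiff ℝ (12 : ℕ) fun r => conj (Qr (q n) r) := Complex.conjCLE.contDiff.comp hQ
  have e : ∀ (r : ℝ) (k : ℕ), R₀ < r → ε * r ^ (-(2 : ℝ) - k) = ε / r ^ (2 + k) := fun r k hr => by
    rw [← neg_add', Real.rpow_neg (h0.trans hr).le, div_eq_mul_inv, ← Real.rpow_natCast]
    push_cast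
    rfl
  have s1 : Sy R₀ 12 2 ε fun r => V1 n (Qr (q n) r) :=
    ⟨(contDiff_const.mul ((hQ.pow n).mul (hQ'.pow n))).contDiffOn,
      fun k hk r hr => e r k hr ▸ (h1 k hk r (hR.trans hr.le)).1⟩
  have s2 : Sy R₀ 12 2 ε fun r => V2 n (Qr (q n) r) :=
    ⟨(contDiff_const.mul ((hQ.pow (n + 1)).mul (hQ'.pow (n - 1)))).contDiffOn,
      fun k hk r hr => e r k hr ▸ (h1 k hk r (hR.trans hr.le)).2⟩
  exact ⟨by simpa using s1.const_mul Complex.I, by simpa using s2.const_mul Complex.I⟩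

theorem Eig.sys (h : Eig n b q m lam c₀ c₁ c₂ f g) {R₀ ε : ℝ} (hR : 1 ≤ R₀)
    (h1 : Sy R₀ 12 2 ε (fun r => Complex.I * V1 n (Qr q r)))
    (h2 : Sy R₀ 12 2 ε (fun r => Complex.I * V2 n (Qr q r)))
    (a1 : Adm R₀ (phc (aa n) b (Qr q) c₀ c₁ c₂))
    (a2 : Adm R₀ (phc (aa n) b (Qr q) (conj c₀) (conj c₁) (conj c₂))) :
    Sys R₀ ε m (lam + (aa n : ℝ) - Complex.I * b) (conj lam + (aa n : ℝ) - Complex.I * b) f
      (fun r => conj (g r)) (phc (aa n) b (Qr q) c₀ c₁ c₂)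
      (phc (aa n) b (Qr q) (conj c₀) (conj c₁) (conj c₂)) :=
  have h0 : (0 : ℝ) ≤ R₀ := zero_le_one.trans hR
  ⟨hR, adm_of_radAdm h.af h0, (adm_of_radAdm h.ag h0).conj, a1, a2,
    ⟨_, _, h1, h2, h.eqn1.mono h0⟩, ⟨_, _, h1, h2, h.eqn2.mono h0⟩⟩

theorem eng_eq (m : ℕ) (lam : ℂ) (f g : ℝ → ℂ) (r : ℝ) : eng m lam f g r =
    en (Real.sqrt (bet m lam)) f r + en (Real.sqrt (bet m lam)) (fun r => conj (g r)) r := by
  have h0 : 0 ≤ bet m lam := by
    have := MM_nonneg m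
    unfold bet
    positivity
  simp only [eng, en, deriv_conj, Real.sq_sqrt h0, Complex.norm_conj]
  ring

end Crest.Agent.R086.Mb
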