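import Crest.Agent.R086.Mb.Spec

/-! Row 86, part M-b: the elliptic identity on `[0, r]`. -/

set_option autoImplicit false

open MeasureTheory Set Filter Topology
open scoped ComplexConjugate

namespace Crest.Agent.R086.Mb

theorem Ell_re {D α u u' w W : ℂ} {r v : ℝ}
    (h : Complex.I * D = α * u + (r : ℂ) / 2 * u' + Complex.I * (v * u + W * conj w)) :
    (conj u * D).re = α.im * ‖u‖ ^ 2 + r / 2 * (conj u * u').im + v * ‖u‖ ^ 2
      + (W * conj u * conj w).re := by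
  have e : D = -Complex.I * (α * u + (r : ℂ) / 2 * u') + (v * u + W * conj w) := by
    linear_combination (-Complex.I) * h + (D - (v * u + W * conj w)) * Complex.I_mul_I
  have e2 : (r : ℂ) / 2 = ((r / 2 : ℝ) : ℂ) := by push_cast; rfl
  rw [e, e2, Complex.sq_norm, Complex.normSq_apply]
  simp only [Complex.mul_re, Complex.mul_im, Complex.add_re, Complex.add_im, Complex.neg_re,
    Complex.neg_im, Complex.I_re, Complex.I_im, Complex.conj_re, Complex.conj_im,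
    Complex.ofReal_re, Complex.ofReal_im]
  ring

theorem Ell_low {D α u u' w W : ℂ} {r v t k μ : ℝ}
    (h : Complex.I * D = α * u + (r : ℂ) / 2 * u' + Complex.I * (v * u + W * conj w))
    (hW : ‖W‖ ≤ v) (hr : 0 ≤ r) (hr5 : r ≤ 5) (ht : -t ≤ α.im) (hμ : k ^ 2 + t + 4 ≤ μ) :
    (k ^ 2 * ‖u‖ ^ 2 + ‖u'‖ ^ 2) / 2 + v * ‖u‖ ^ 2 - v * (‖u‖ * ‖w‖)
      ≤ ‖u'‖ ^ 2 + (conj u * D).re + μ * ‖u‖ ^ 2 := by
  rw [Ell_re h]
  have h1 : -(‖u‖ * ‖u'‖) ≤ (conj u * u').im := by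
    have := Complex.abs_im_le_norm (conj u * u')
    rw [norm_mul, Complex.norm_conj] at this
    exact (abs_le.1 this).1
  have h2 : -(v * (‖u‖ * ‖w‖)) ≤ (W * conj u * conj w).re := by
    have := Complex.abs_re_le_norm (W * conj u * conj w)
    rw [norm_mul, norm_mul, Complex.norm_conj, Complex.norm_conj, mul_assoc ‖W‖] at this
    have h3 : ‖W‖ * (‖u‖ * ‖w‖) ≤ v * (‖u‖ * ‖w‖) :=
      mul_le_mul_of_nonneg_right hW (by positivity)
    linarith [(abs_le.1 this).1]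
  have h3 : -(5 / 2 * (‖u‖ * ‖u'‖)) ≤ r / 2 * (conj u * u').im := by
    have : 0 ≤ ‖u‖ * ‖u'‖ := by positivity
    nlinarith
  have h4 : (k ^ 2 + 4) * ‖u‖ ^ 2 ≤ (α.im + μ) * ‖u‖ ^ 2 :=
    mul_le_mul_of_nonneg_right (by linarith) (by positivity)
  nlinarith [sq_nonneg (‖u'‖ - 5 / 2 * ‖u‖), mul_nonneg (sq_nonneg k) (sq_nonneg ‖u‖),
    sq_nonneg ‖u‖]

theorem Ell_deriv (m : ℕ) {F : ℝ → ℂ} (hF : ContDiff ℝ 2 F) {s : ℝ} (hs : 0 < s) :
    HasDerivAt (fun x : ℝ => x ^ 11 * (conj (F x) * deriv F x).re)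
      (s ^ 11 * (‖deriv F s‖ ^ 2 + (conj (F s) * DD m F s).re + MM m / s ^ 2 * ‖F s‖ ^ 2)) s := by
  have h1 : HasDerivAt F (deriv F s) s := (hF.differentiable (by norm_num) s).hasDerivAt
  have h2 : HasDerivAt (deriv F) (deriv (deriv F) s) s :=
    (hF.differentiable_deriv_two s).hasDerivAt
  have h3 : HasDerivAt (fun x => conj (F x)) (conj (deriv F s)) s := h1.star
  have h4 := Complex.reCLM.hasFDerivAt.comp_hasDerivAt s (h3.mul h2)
  refine ((hasDerivAt_pow 11 s).mul h4).congr_deriv ?_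
  have e1 : (11 : ℂ) / (s : ℂ) = ((11 / s : ℝ) : ℂ) := by push_cast; rfl
  have e2 : (MM m : ℂ) / (s : ℂ) ^ 2 = ((MM m / s ^ 2 : ℝ) : ℂ) := by push_cast; rfl
  rw [deriv2_eq m F s, e1, e2, Complex.sq_norm, Complex.sq_norm, Complex.normSq_apply,
    Complex.normSq_apply]
  simp only [Function.comp_apply, Pi.mul_apply, Complex.reCLM_apply, Complex.mul_re, Complex.mul_im,
    Complex.add_re, Complex.add_im, Complex.sub_re, Complex.sub_im, Complex.conj_re,
    Complex.conj_im, Complex.ofReal_re, Complex.ofReal_im]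
  field_simp
  push_cast
  ring

theorem Ell_up (k : ℝ) (hk : 0 ≤ k) (F : ℝ → ℂ) (r : ℝ) :
    2 * k * (conj (F r) * deriv F r).re ≤ en k F r := by
  have h1 : (conj (F r) * deriv F r).re ≤ ‖F r‖ * ‖deriv F r‖ := by
    have := Complex.re_le_norm (conj (F r) * deriv F r)
    rwa [norm_mul, Complex.norm_conj] at this
  have h2 := mul_le_mul_of_nonneg_left h1 hk
  unfold en
  nlinarith [sq_nonneg (k * ‖F r‖ - ‖deriv F r‖)]

theorem Ell_cont (k : ℝ) {F : ℝ → ℂ} (hF : ContDiff ℝ 2 F) : Continuous (en k F) := by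
  have h1 := hF.continuous
  have h2 := hF.continuous_deriv (by norm_num)
  unfold en
  fun_prop

/-- `b = r¹¹ Re(F̄F' + ḠG')`, `b(0) = 0`; for `r > 0`:
`b' = r¹¹ (|F'|² + |G'|² + M(|F|² + |G|²)/r² + Re(F̄ 𝒟F + Ḡ 𝒟G))`,
`Re(F̄ 𝒟F) = Im α |F|² + (r/2) Im(F̄F') + v|F|² + Re(W F̄ Ḡ)`, `v(|F|² + |G|²) + 2Re(W F̄ Ḡ) ≥ 0`, so
`b' ≥ r¹¹ (en k F + en k G)/2`; and `b ≤ r¹¹ (en k F + en k G)/(2k)`. -/
theorem ell {m : ℕ} {α α' : ℂ} {F G : ℝ → ℂ} (h : Glob m α α' F G) {k t Rd : ℝ} (hk : 0 < k)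
    (hRd : Rd ≤ 5) (ht : -t ≤ α.im) (ht' : -t ≤ α'.im) (hM : k ^ 2 + t + 4 ≤ MM m / Rd ^ 2) {r : ℝ}
    (hr : 0 ≤ r) (hr' : r ≤ Rd) :
    k * ∫ s in (0 : ℝ)..r, s ^ 11 * (en k F s + en k G s) ≤ r ^ 11 * (en k F r + en k G r) := by
  obtain ⟨hF, hG, v, W, hW, eF, eG⟩ := h
  have cF := hF.continuous
  have cF' := hF.continuous_deriv (by norm_num)
  have cG := hG.continuous
  have cG' := hG.continuous_deriv (by norm_num)
  have c1 := Ell_cont k hF
  have c2 := Ell_cont k hG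
  have key := intervalIntegral.integral_le_sub_of_hasDeriv_right_of_le hr
    (g := fun x : ℝ => 2 * (x ^ 11 * (conj (F x) * deriv F x).re
      + x ^ 11 * (conj (G x) * deriv G x).re))
    (φ := fun s => s ^ 11 * (en k F s + en k G s))
    (Continuous.continuousOn (by fun_prop))
    (fun x hx => (((Ell_deriv m hF hx.1).add (Ell_deriv m hG hx.1)).const_mul 2).hasDerivWithinAt)
    (Continuous.integrableOn_Icc (by fun_prop))
    (fun x hx => by
      have hx0 := hx.1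
      have hx1 : x ≤ Rd := hx.2.le.trans hr'
      have hμ : k ^ 2 + t + 4 ≤ MM m / x ^ 2 :=
        hM.trans (div_le_div_of_nonneg_left (MM_nonneg m) (by positivity)
          (pow_le_pow_left₀ hx0.le hx1 2))
      have a1 := Ell_low (eF x hx0) (hW x) hx0.le (hx1.trans hRd) ht hμ
      have a2 := Ell_low (eG x hx0) (hW x) hx0.le (hx1.trans hRd) ht' hμ
      have hv : 0 ≤ v x := (norm_nonneg _).trans (hW x)
      have a3 : 0 ≤ v x * (‖F x‖ - ‖G x‖) ^ 2 := by positivity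
      rw [← mul_add, mul_left_comm]
      refine mul_le_mul_of_nonneg_left ?_ (by positivity)
      unfold en
      nlinarith)
  have b1 := Ell_up k hk.le F r
  have b2 := Ell_up k hk.le G r
  have b3 : 0 ≤ r ^ 11 := by positivity
  simp only [ne_eq, OfNat.ofNat_ne_zero, not_false_eq_true, zero_pow, zero_mul, add_zero, mul_zero,
    sub_zero] at key
  refine (mul_le_mul_of_nonneg_left key hk.le).trans ?_
  nlinarith [mul_le_mul_of_nonneg_left b1 b3, mul_le_mul_of_nonneg_left b2 b3]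

/-- `Y(r) = ∫_0^r y` is monotone and `Y(r + h) - Y(r) = ∫ y ≥ k h Y(r)` -/
theorem grow {y : ℝ → ℝ} (hy : Continuous y) {k h r Rd : ℝ} (hk : 0 ≤ k) (hh : 0 ≤ h) (hr : 0 ≤ r)
    (hRd : r + 2 * h ≤ Rd) (h0 : ∀ s, 0 ≤ s → 0 ≤ y s)
    (h1 : ∀ s, 0 ≤ s → s ≤ Rd → k * ∫ x in (0 : ℝ)..s, y x ≤ y s) :
    (k * h) ^ 2 * ∫ x in (0 : ℝ)..r, y x ≤ ∫ x in (0 : ℝ)..(r + 2 * h), y x := by
  have hadd : ∀ a b : ℝ, ∫ x in (0 : ℝ)..b, y x = (∫ x in (0 : ℝ)..a, y x) + ∫ x in a..b, y x :=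
    fun a b => (intervalIntegral.integral_add_adjacent_intervals (hy.intervalIntegrable _ _)
      (hy.intervalIntegrable _ _)).symm
  have hnn : ∀ a b : ℝ, 0 ≤ a → a ≤ b → 0 ≤ ∫ x in a..b, y x := fun a b ha hab =>
    intervalIntegral.integral_nonneg hab fun u hu => h0 u (ha.trans hu.1)
  have step : ∀ s, 0 ≤ s → s + h ≤ Rd →
      k * h * ∫ x in (0 : ℝ)..s, y x ≤ ∫ x in (0 : ℝ)..(s + h), y x := by
    intro s hs hsR
    have h2 : ∫ _ in s..(s + h), (k * ∫ x in (0 : ℝ)..s, y x) ≤ ∫ x in s..(s + h), y x := by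
      refine intervalIntegral.integral_mono_on (by linarith) intervalIntegrable_const
        (hy.intervalIntegrable _ _) fun u hu => le_trans ?_ (h1 u (hs.trans hu.1) (hu.2.trans hsR))
      refine mul_le_mul_of_nonneg_left ?_ hk
      rw [hadd s u]
      exact le_add_of_nonneg_right (hnn s u hs hu.1)
    rw [intervalIntegral.integral_const, smul_eq_mul, add_sub_cancel_left] at h2
    rw [hadd s (s + h)]
    have := hnn 0 s le_rfl hs
    linarith
  have a1 := step r hr (by linarith)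
  have a2 := step (r + h) (by linarith) (by linarith)
  rw [show r + h + h = r + 2 * h by ring] at a2
  have a3 := mul_le_mul_of_nonneg_left a1 (mul_nonneg hk hh)
  calc _ = k * h * (k * h * ∫ x in (0 : ℝ)..r, y x) := by ring
    _ ≤ _ := a3.trans a2

end Crest.Agent.R086.Mb
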