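import Crest.Agent.R086.Mb.CaseA
import Crest.Agent.R086.Mb.CaseB
import Crest.Agent.R086.Mb.Eig

/-! Row 86, part M-b: no eigenvalues of high frequency. -/

set_option autoImplicit false

open MeasureTheory Set Filter Topology
open scoped ComplexConjugate

namespace Crest.Agent.R086.Mb

theorem High_zero {κ r : ℝ} {f g : ℝ → ℂ} (hκ : 0 < κ)
    (h : en κ f r + en κ (fun r => conj (g r)) r = 0) :
    f r = 0 ∧ deriv f r = 0 ∧ g r = 0 ∧ deriv g r = 0 := by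
  simp only [en, deriv_conj, Complex.norm_conj] at h
  have h1 : 0 ≤ κ ^ 2 * ‖f r‖ ^ 2 := by positivity
  have h2 : 0 ≤ κ ^ 2 * ‖g r‖ ^ 2 := by positivity
  have h3 : 0 ≤ ‖deriv f r‖ ^ 2 := by positivity
  have h4 : 0 ≤ ‖deriv g r‖ ^ 2 := by positivity
  have e1 : κ ^ 2 * ‖f r‖ ^ 2 = 0 := by linarith
  have e2 : κ ^ 2 * ‖g r‖ ^ 2 = 0 := by linarith
  have e3 : ‖deriv f r‖ ^ 2 = 0 := by linarith
  have e4 : ‖deriv g r‖ ^ 2 = 0 := by linarith
  refine ⟨?_, ?_, ?_, ?_⟩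
  · simpa [hκ.ne'] using e1
  · simpa using e3
  · simpa [hκ.ne'] using e2
  · simpa using e4

/-- `h = min η₀ 1 / 10`, `R₀ = R + h`, `Ra = R + 6h`; `caseB` if `|Im λ| Ra² ≤ M`, otherwise `caseA` for
`(f, conj g, λ)` (`Im λ ≥ 0`) or for `(conj g, f, conj λ)` (`Sys.swap`, `Spec.swap`). -/
theorem high0 {b R : ℕ → ℝ} {q : ℕ → ℝ → ℂ} (hF : Fam b R q) (hH : Hyd b R q) :
    ∃ β₀ : ℝ, ∀ᶠ n in atTop, ∀ (m : ℕ) (lam : ℂ) (f g : ℝ → ℂ),
      Eig n (b n) (q n) m lam 0 0 0 f g → β₀ ≤ bet m lam →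
      ∃ r : ℝ, 0 < r ∧ f r = 0 ∧ deriv f r = 0 ∧ g r = 0 ∧ deriv g r = 0 := by
  obtain ⟨η₀, C, hη₀, hC, hH⟩ := hH
  obtain ⟨h, hh, hh1, hh2⟩ : ∃ h : ℝ, 0 < h ∧ 10 * h ≤ η₀ ∧ 10 * h ≤ 1 :=
    ⟨min η₀ 1 / 10, by positivity, by linarith [min_le_left η₀ 1], by linarith [min_le_right η₀ 1]⟩
  obtain ⟨εA, κA, hεA, hA⟩ := caseA hh hC
  obtain ⟨εB, κB, hεB, hB⟩ := caseB hh
  refine ⟨κA ^ 2 + κB ^ 2, ?_⟩
  filter_upwards [hH h hh, hF.box, fam_sy hF hh (lt_min hεA hεB), eventually_ge_atTop 5]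
    with n hHn hbox hsy hn m lam f g hE hβ
  obtain ⟨⟨hb0, hb1⟩, hR0, hR1⟩ := hbox
  obtain ⟨s1, s2⟩ := hsy (R n + h) le_rfl
  have hS := hE.sys (R₀ := R n + h) (by linarith) s1 s2 (by rw [phc_zero]; exact adm_zero _)
    (by rw [map_zero, phc_zero]; exact adm_zero _)
  rw [map_zero, phc_zero] at hS
  have hSp := hE.spec hn ⟨by linarith, by linarith⟩
  have hκA : κA ≤ Real.sqrt (bet m lam) := Real.le_sqrt_of_sq_le (by nlinarith [sq_nonneg κB])
  have hκB : κB ≤ Real.sqrt (bet m lam) := Real.le_sqrt_of_sq_le (by nlinarith [sq_nonneg κA])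
  have hκ : 0 < Real.sqrt (bet m lam) := lt_of_lt_of_le one_pos hSp.par.one_le
  have hyd := fun r (hr : r ∈ Icc (R n + 6 * h + h) (R n + 6 * h + 4 * h)) =>
    hHn m lam f g hE r ⟨by linarith [hr.1], by linarith [hr.2]⟩
  simp only [eng_eq] at hyd
  rcases le_total (|lam.im| * (R n + 6 * h) ^ 2) (MM m) with hc | hc
  · obtain ⟨r, hr, h0⟩ := hB (Ra := R n + 6 * h) hS (min_le_right _ _) hSp hκB hE.glob (by linarith)
      (by linarith) hc
    exact ⟨r, by linarith [hr.1], High_zero hκ h0⟩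
  · rcases le_total 0 lam.im with hl | hl
    · rw [abs_of_nonneg hl] at hc
      obtain ⟨r, hr, h0⟩ := hA (Ra := R n + 6 * h) hS (min_le_left _ _) hSp hκA (by linarith)
        (by linarith) hc fun r hr => ⟨by
          simpa only [deriv_conj, Complex.conj_conj] using (hyd r hr).1, fun r' hr' => by
          simpa only [Complex.norm_conj] using (hyd r hr).2 r' ⟨hr'.1, by linarith [hr'.2]⟩⟩
      exact ⟨r, by linarith [hr.1], High_zero hκ h0⟩
    · rw [abs_of_nonpos hl, ← Complex.conj_im] at hc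
      obtain ⟨r, hr, h0⟩ := hA (Ra := R n + 6 * h) hS.swap (min_le_left _ _) hSp.swap hκA
        (by linarith) (by linarith) hc fun r hr => ⟨by
          rw [add_comm (en _ _ _)]
          refine le_of_eq_of_le ?_ (hyd r hr).1
          rw [← Complex.conj_re (lam * _), deriv_conj]
          simp only [map_mul, map_add, Complex.conj_conj]
          rw [add_comm], fun r' hr' => by
          rw [add_comm (en _ _ _), add_comm]
          simpa only [Complex.norm_conj] using (hyd r hr).2 r' ⟨hr'.1, by linarith [hr'.2]⟩⟩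
      exact ⟨r, by linarith [hr.1], High_zero hκ ((add_comm _ _).trans h0)⟩

end Crest.Agent.R086.Mb
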