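import Crest.Agent.R086.Mb.Tm

/-! Row 86, part M-b: the equations of the levels. -/

set_option autoImplicit false

open MeasureTheory Set Filter Topology
open scoped ComplexConjugate

namespace Crest.Agent.R086.Mb

/-- `X j = lv m (V F + W conj G) j`; `Eqn.lv`, `lv_add`, `lv_mul`, `lv_conj`, `deriv_conj` -/
theorem exists_lev : ∃ C : ℝ, 0 ≤ C ∧ ∀ {R₀ ε κ : ℝ} {m : ℕ} {α : ℂ} {F G e : ℝ → ℂ}, 1 ≤ R₀ →
    1 ≤ κ → MM m ≤ κ ^ 2 → Adm R₀ F → Adm R₀ G → Adm R₀ e → Half R₀ ε m α F G e →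
    ∃ X : ℕ → ℝ → ℂ, Lev R₀ (C * ε) κ m α F G e X := by
  obtain ⟨C, hC, hmul⟩ := lv_mul
  refine ⟨C, hC, ?_⟩
  intro R₀ ε κ m α F G e hR hκ hM hF hG he h
  obtain ⟨V, W, hV, hW, hE⟩ := h
  have hR0 : 0 ≤ R₀ := by linarith
  have sF : ContDiffOn ℝ (12 : ℕ) F (Ioi R₀) := by exact_mod_cast hF.smooth
  have sG : ContDiffOn ℝ (12 : ℕ) (fun r => conj (G r)) (Ioi R₀) := by
    exact_mod_cast hG.conj.smooth
  have se : ContDiffOn ℝ (12 : ℕ) e (Ioi R₀) := by exact_mod_cast he.smooth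
  have s1 : ContDiffOn ℝ (12 : ℕ) (fun r => V r * F r) (Ioi R₀) := hV.1.mul sF
  have s2 : ContDiffOn ℝ (12 : ℕ) (fun r => W r * conj (G r)) (Ioi R₀) := hW.1.mul sG
  have s3 : ContDiffOn ℝ (12 : ℕ) (fun r => V r * F r + W r * conj (G r)) (Ioi R₀) := s1.add s2
  have hZv : ∀ j r, Zv κ m (fun r => conj (G r)) j r = Zv κ m G j r := fun j r => by
    simp only [Zv, lv_conj, deriv_conj, Complex.norm_conj]
  have hZd : ∀ j r, Zd κ m (fun r => conj (G r)) j r = Zd κ m G j r := fun j r => by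
    simp only [Zd, lv_conj, deriv_conj, Complex.norm_conj]
  have hadd : ∀ j, j ≤ 4 → ∀ r, R₀ < r → lv m (fun r => V r * F r + W r * conj (G r)) j r =
      lv m (fun r => V r * F r) j r + lv m (fun r => W r * conj (G r)) j r :=
    fun j hj r hr => lv_add hR0 s1 s2 (by omega) hr
  refine ⟨fun j => lv m (fun r => V r * F r + W r * conj (G r)) j, ?_, ?_, ?_, ?_, ?_⟩
  · intro j hj r hr
    rw [hE.lv hR0 sF (by omega : 2 * j + 2 ≤ 12) r hr, lv_add hR0 s3 se (by omega) hr]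
  · intro j hj
    exact (contDiffOn_lv (N' := 0) hR0 s3 m (by omega)).continuousOn
  · intro j hj r hr
    rw [hadd j hj r hr, mul_add, ← hZv]
    exact (norm_add_le _ _).trans (add_le_add
      (hmul hR hκ hM hV hF.smooth j hj r hr).1 (hmul hR hκ hM hW hG.conj.smooth j hj r hr).1)
  · intro j hj r hr
    exact (hasDerivAt_of_contDiffOn (contDiffOn_lv (N' := 1) hR0 s3 m (by omega)) le_rfl
      hr).differentiableAt
  · intro j hj r hr
    have d1 := hasDerivAt_of_contDiffOn (contDiffOn_lv (N' := 1) (j := j) hR0 s1 m (by omega))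
      le_rfl hr
    have d2 := hasDerivAt_of_contDiffOn (contDiffOn_lv (N' := 1) (j := j) hR0 s2 m (by omega))
      le_rfl hr
    rw [deriv_congr_Ioi (hadd j (by omega)) hr, (d1.fun_add d2).deriv, mul_add, ← hZd]
    exact (norm_add_le _ _).trans (add_le_add
      (hmul hR hκ hM hV hF.smooth j (by omega) r hr).2
      (hmul hR hκ hM hW hG.conj.smooth j (by omega) r hr).2)

theorem Half.nonneg {R₀ ε : ℝ} {m : ℕ} {α : ℂ} {F G e : ℝ → ℂ} (h : Half R₀ ε m α F G e)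
    (hR : 0 ≤ R₀) : 0 ≤ ε := by
  obtain ⟨V, W, hV, -⟩ := h
  exact hV.nonneg hR

theorem Zv_nonneg {κ r : ℝ} (hκ : 0 ≤ κ) (hr : 0 ≤ r) (m : ℕ) (u : ℝ → ℂ) (j : ℕ) :
    0 ≤ Zv κ m u j r := by
  unfold Zv
  positivity

/-- at most nine terms, each of them squared is a term of `dens` (`interval_cases j`) -/
theorem Zv_sq {κ r : ℝ} (hκ : 1 ≤ κ) (hr : 1 ≤ r) (m : ℕ) (u : ℝ → ℂ) {j : ℕ} (hj : j ≤ 4) :
    κ ^ (16 - 4 * j) * (r ^ (4 * j) / r ^ 7 * Zv κ m u j r ^ 2) ≤ 9 * dens κ m u r := by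
  have hr0 : 0 < r := by linarith
  have hκ0 : 0 < κ := by linarith
  set a : ℕ → ℝ := fun i => κ ^ (2 * (j - i)) / r ^ (2 * (j - i)) * ‖lv m u i r‖ with ha
  set b : ℕ → ℝ := fun i => κ ^ (2 * (j - 1 - i)) * r / r ^ (2 * (j - i)) * ‖deriv (lv m u i) r‖
    with hb
  set A : ℕ → ℝ := fun i => κ ^ (16 - 4 * i) * (r ^ (4 * i) / r ^ 7 * ‖lv m u i r‖ ^ 2) with hA
  set B : ℕ → ℝ := fun i => κ ^ (14 - 4 * i) * (r ^ (4 * i) / r ^ 5 * ‖deriv (lv m u i) r‖ ^ 2)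
    with hB
  set w : ℝ := κ ^ (16 - 4 * j) * (r ^ (4 * j) / r ^ 7) with hw
  have hw0 : 0 ≤ w := by positivity
  have hrj : ∀ i, i ≤ j → r ^ (4 * j) = r ^ (4 * i) * (r ^ (2 * (j - i))) ^ 2 := fun i hi => by
    rw [← pow_mul, ← pow_add]; congr 1; omega
  have h1 : ∀ i ∈ Finset.range (j + 1), w * a i ^ 2 = A i := fun i hi => by
    have hi' : i ≤ j := by simpa [Nat.lt_succ_iff] using hi
    have e : κ ^ (16 - 4 * i) = κ ^ (16 - 4 * j) * (κ ^ (2 * (j - i))) ^ 2 := by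
      rw [← pow_mul, ← pow_add]; congr 1; omega
    simp only [hw, ha, hA]
    rw [e, hrj i hi']
    field_simp
  have h2 : ∀ i ∈ Finset.range j, w * b i ^ 2 ≤ B i := fun i hi => by
    have hi' : i < j := by simpa using hi
    have e : κ ^ (16 - 4 * j) * (κ ^ (2 * (j - 1 - i))) ^ 2 ≤ κ ^ (14 - 4 * i) := by
      rw [← pow_mul, ← pow_add]
      exact pow_le_pow_right₀ hκ (by omega)
    calc w * b i ^ 2 = κ ^ (16 - 4 * j) * (κ ^ (2 * (j - 1 - i))) ^ 2 *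
          (r ^ (4 * i) / r ^ 5 * ‖deriv (lv m u i) r‖ ^ 2) := by
          simp only [hw, hb]
          rw [hrj i hi'.le]
          field_simp
      _ ≤ B i := mul_le_mul_of_nonneg_right e (by positivity)
  have hA0 : ∀ i, 0 ≤ A i := fun i => by positivity
  have hB0 : ∀ i, 0 ≤ B i := fun i => by positivity
  have h3 : ∑ i ∈ Finset.range (j + 1), A i ≤ ∑ i ∈ Finset.range 4, A i + r ^ 11 * ‖lv m u 4 r‖ ^ 2 := by
    calc _ ≤ ∑ i ∈ Finset.range (4 + 1), A i :=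
          Finset.sum_le_sum_of_subset_of_nonneg (Finset.range_subset_range.2 (by omega))
            fun i _ _ => hA0 i
      _ = ∑ i ∈ Finset.range 4, A i + r ^ 9 * ‖lv m u 4 r‖ ^ 2 := by
          rw [Finset.sum_range_succ]
          congr 1
          simp only [hA]
          norm_num
          left
          field_simp
      _ ≤ _ := by gcongr; norm_num
  have h4 : ∑ i ∈ Finset.range j, B i ≤ ∑ i ∈ Finset.range 4, B i :=
    Finset.sum_le_sum_of_subset_of_nonneg (Finset.range_subset_range.2 hj) fun i _ _ => hB0 i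
  have h5 : (∑ i ∈ Finset.range (j + 1), a i) ^ 2 ≤ 5 * ∑ i ∈ Finset.range (j + 1), a i ^ 2 := by
    refine sq_sum_le_card_mul_sum_sq.trans ?_
    rw [Finset.card_range]
    have : ((j + 1 : ℕ) : ℝ) ≤ 5 := by exact_mod_cast (by omega : j + 1 ≤ 5)
    gcongr
  have h6 : (∑ i ∈ Finset.range j, b i) ^ 2 ≤ 4 * ∑ i ∈ Finset.range j, b i ^ 2 := by
    refine sq_sum_le_card_mul_sum_sq.trans ?_
    rw [Finset.card_range]
    have : ((j : ℕ) : ℝ) ≤ 4 := by exact_mod_cast hj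
    gcongr
  have h7 : Zv κ m u j r ^ 2 ≤
      9 * (∑ i ∈ Finset.range (j + 1), a i ^ 2 + ∑ i ∈ Finset.range j, b i ^ 2) := by
    change (∑ i ∈ Finset.range (j + 1), a i + ∑ i ∈ Finset.range j, b i) ^ 2 ≤ _
    nlinarith [sq_nonneg (4 * ∑ i ∈ Finset.range (j + 1), a i - 5 * ∑ i ∈ Finset.range j, b i)]
  have h8 : dens κ m u r = ∑ i ∈ Finset.range 4, A i + ∑ i ∈ Finset.range 4, B i +
      r ^ 11 * ‖lv m u 4 r‖ ^ 2 := by
    rw [← Finset.sum_add_distrib]; rfl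
  have h9 := Finset.sum_congr rfl h1
  have h10 := Finset.sum_le_sum h2
  rw [← Finset.mul_sum] at h9 h10
  calc _ = w * Zv κ m u j r ^ 2 := by rw [hw]; ring
    _ ≤ w * (9 * (∑ i ∈ Finset.range (j + 1), a i ^ 2 + ∑ i ∈ Finset.range j, b i ^ 2)) := by
        gcongr
    _ ≤ _ := by rw [h8]; linarith

theorem Zv_le {κ r s : ℝ} (hκ : 1 ≤ κ) (hr : 1 ≤ r) {m : ℕ} {u : ℝ → ℂ} {j : ℕ}
    (h : ∀ i, i ≤ j → Jet κ m u i r s) : Zv κ m u j r ≤ (2 * j + 1) * (κ ^ (2 * j) * s) := by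
  have hr0 : 0 < r := by linarith
  have hκ0 : 0 < κ := by linarith
  have hs : 0 ≤ s := by simpa using (norm_nonneg _).trans (h 0 (Nat.zero_le j)).1
  have h1 : ∀ i ∈ Finset.range (j + 1),
      κ ^ (2 * (j - i)) / r ^ (2 * (j - i)) * ‖lv m u i r‖ ≤ κ ^ (2 * j) * s := fun i hi => by
    have hi' : i ≤ j := by simpa [Nat.lt_succ_iff] using hi
    calc _ ≤ κ ^ (2 * (j - i)) * (κ ^ (2 * i) * s) :=
          mul_le_mul (div_le_self (by positivity) (one_le_pow₀ hr)) (h i hi').1 (norm_nonneg _)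
            (by positivity)
      _ = _ := by rw [← mul_assoc, ← pow_add]; congr 2; omega
  have h2 : ∀ i ∈ Finset.range j, κ ^ (2 * (j - 1 - i)) * r / r ^ (2 * (j - i)) *
      ‖deriv (lv m u i) r‖ ≤ κ ^ (2 * j) * s := fun i hi => by
    have hi' : i < j := by simpa using hi
    have e : κ ^ (2 * (j - 1 - i)) * r / r ^ (2 * (j - i)) ≤ κ ^ (2 * (j - 1 - i)) := by
      rw [div_le_iff₀ (by positivity)]
      exact mul_le_mul_of_nonneg_left (le_self_pow₀ hr (by omega)) (by positivity)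
    calc _ ≤ κ ^ (2 * (j - 1 - i)) * (κ ^ (2 * i + 1) * s) :=
          mul_le_mul e (h i hi'.le).2 (norm_nonneg _) (by positivity)
      _ ≤ _ := by
          rw [← mul_assoc, ← pow_add]
          exact mul_le_mul_of_nonneg_right (pow_le_pow_right₀ hκ (by omega)) hs
  have h3 := Finset.sum_le_sum h1
  have h4 := Finset.sum_le_sum h2
  rw [Finset.sum_const, Finset.card_range, nsmul_eq_mul] at h3 h4
  push_cast at h3
  unfold Zv
  linarith

theorem Zd_le {κ r s : ℝ} (hκ : 1 ≤ κ) {m : ℕ} {u : ℝ → ℂ} {j : ℕ}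
    (h : ∀ i, i ≤ j → Jet κ m u i r s) : Zd κ m u j r ≤ (2 * j + 2) * (κ ^ (2 * j + 1) * s) := by
  have hκ0 : 0 < κ := by linarith
  have hs : 0 ≤ s := by simpa using (norm_nonneg _).trans (h 0 (Nat.zero_le j)).1
  have h1 : ∀ i ∈ Finset.range (j + 1), κ ^ (2 * (j - i)) *
      (‖lv m u i r‖ + ‖deriv (lv m u i) r‖) ≤ 2 * (κ ^ (2 * j + 1) * s) := fun i hi => by
    have hi' : i ≤ j := by simpa [Nat.lt_succ_iff] using hi
    have e : κ ^ (2 * i) * s ≤ κ ^ (2 * i + 1) * s :=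
      mul_le_mul_of_nonneg_right (pow_le_pow_right₀ hκ (by omega)) hs
    calc _ ≤ κ ^ (2 * (j - i)) * (2 * (κ ^ (2 * i + 1) * s)) :=
          mul_le_mul_of_nonneg_left (by linarith [(h i hi').1, (h i hi').2]) (by positivity)
      _ = 2 * (κ ^ (2 * (j - i)) * κ ^ (2 * i + 1) * s) := by ring
      _ = _ := by rw [← pow_add]; congr 3; omega
  have h3 := Finset.sum_le_sum h1
  rw [Finset.sum_const, Finset.card_range, nsmul_eq_mul] at h3
  push_cast at h3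
  unfold Zd
  linarith

theorem Lev_sq {R₀ K κ : ℝ} {m : ℕ} {α : ℂ} {F G e : ℝ → ℂ} {X : ℕ → ℝ → ℂ}
    (h : Lev R₀ K κ m α F G e X) {j : ℕ} (hj : j ≤ 4) {r : ℝ} (hr : R₀ < r) :
    ‖X j r‖ ^ 2 ≤ (K / r ^ 2) ^ 2 * (2 * (Zv κ m F j r ^ 2 + Zv κ m G j r ^ 2)) := by
  calc _ ≤ (K / r ^ 2 * (Zv κ m F j r + Zv κ m G j r)) ^ 2 :=
        pow_le_pow_left₀ (norm_nonneg _) (h.bd j hj r hr) 2
    _ ≤ _ := by
        rw [mul_pow]
        refine mul_le_mul_of_nonneg_left ?_ (sq_nonneg _)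
        nlinarith [sq_nonneg (Zv κ m F j r - Zv κ m G j r)]

theorem Lev.sq_low {R₀ K κ : ℝ} {m : ℕ} {α : ℂ} {F G e : ℝ → ℂ} {X : ℕ → ℝ → ℂ}
    (h : Lev R₀ K κ m α F G e X) (hR : 1 ≤ R₀) (hκ : 1 ≤ κ) {j : ℕ} (hj : j ≤ 3) {r : ℝ}
    (hr : R₀ < r) : κ ^ (12 - 4 * j) * (r ^ (4 * j) / r ^ 7 * ‖X j r‖ ^ 2) ≤
      18 * K ^ 2 * (dens κ m F r + dens κ m G r) := by
  have hr1 : 1 ≤ r := by linarith
  have hr0 : 0 < r := by linarith
  have hκ0 : 0 < κ := by linarith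
  have h1 := Zv_sq hκ hr1 m F (j := j) (by omega)
  have h2 := Zv_sq hκ hr1 m G (j := j) (by omega)
  have h3 := Lev_sq h (j := j) (by omega) hr
  have h4 : (K / r ^ 2) ^ 2 ≤ K ^ 2 := by
    rw [div_pow]
    exact div_le_self (sq_nonneg K) (one_le_pow₀ (one_le_pow₀ hr1))
  have h5 : κ ^ (12 - 4 * j) ≤ κ ^ (16 - 4 * j) := pow_le_pow_right₀ hκ (by omega)
  calc _ ≤ κ ^ (16 - 4 * j) * (r ^ (4 * j) / r ^ 7 *
        (K ^ 2 * (2 * (Zv κ m F j r ^ 2 + Zv κ m G j r ^ 2)))) := by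
        gcongr
        exact h3.trans (by gcongr)
    _ = 2 * K ^ 2 * (κ ^ (16 - 4 * j) * (r ^ (4 * j) / r ^ 7 * Zv κ m F j r ^ 2) +
        κ ^ (16 - 4 * j) * (r ^ (4 * j) / r ^ 7 * Zv κ m G j r ^ 2)) := by ring
    _ ≤ 2 * K ^ 2 * (9 * dens κ m F r + 9 * dens κ m G r) := by gcongr
    _ = _ := by ring

theorem Lev.sq_top {R₀ K κ : ℝ} {m : ℕ} {α : ℂ} {F G e : ℝ → ℂ} {X : ℕ → ℝ → ℂ}
    (h : Lev R₀ K κ m α F G e X) (hR : 1 ≤ R₀) (hκ : 1 ≤ κ) {r : ℝ} (hr : R₀ < r) :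
    r ^ 13 * ‖X 4 r‖ ^ 2 ≤ 18 * K ^ 2 * (dens κ m F r + dens κ m G r) := by
  have hr1 : 1 ≤ r := by linarith
  have hr0 : 0 < r := by linarith
  have h1 := Zv_sq hκ hr1 m F (j := 4) le_rfl
  have h2 := Zv_sq hκ hr1 m G (j := 4) le_rfl
  have h3 := Lev_sq h (j := 4) le_rfl hr
  calc _ ≤ r ^ 13 * ((K / r ^ 2) ^ 2 * (2 * (Zv κ m F 4 r ^ 2 + Zv κ m G 4 r ^ 2))) := by gcongr
    _ = 2 * K ^ 2 * (κ ^ (16 - 4 * 4) * (r ^ (4 * 4) / r ^ 7 * Zv κ m F 4 r ^ 2) +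
        κ ^ (16 - 4 * 4) * (r ^ (4 * 4) / r ^ 7 * Zv κ m G 4 r ^ 2)) := by
        norm_num
        field_simp
    _ ≤ 2 * K ^ 2 * (9 * dens κ m F r + 9 * dens κ m G r) := by gcongr
    _ = _ := by ring

end Crest.Agent.R086.Mb
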