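import Crest.Agent.R086.Mb.Lim0
import Crest.Agent.R086.Mb.Out

/-! Row 86, part M-b: passing to the limit in the levels. -/

set_option autoImplicit false

open MeasureTheory Set Filter Topology
open scoped ComplexConjugate

namespace Crest.Agent.R086.Mb

variable {R₀ R₁ : ℝ} {m : ℕ} {α α' : ℕ → ℂ} {F G eF eG u u' : ℕ → ℝ → ℂ} {a a' : ℂ}
  {F₀ G₀ e₀ e₀' v v' : ℝ → ℂ}

theorem Lim_I {x y : ℕ → ℂ} {z : ℂ} {Z : ℕ → ℝ} {w : ℝ} (hZ : Tendsto Z atTop (𝓝 w))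
    (h1 : ∀ ε : ℝ, 0 < ε → ∀ᶠ k in atTop, ‖Complex.I * x k - y k‖ ≤ ε * Z k)
    (h2 : Tendsto y atTop (𝓝 (Complex.I * z))) : Tendsto x atTop (𝓝 z) := by
  have h3 : (fun k => Complex.I * x k - y k) =o[atTop] Z :=
    Asymptotics.isLittleO_iff.2 fun ε hε => (h1 ε hε).mono fun k hk =>
      hk.trans (mul_le_mul_of_nonneg_left (le_abs_self _) hε.le)
  have h4 := ((h3.tendsto_zero_of_tendsto hZ).add h2).const_mul (-Complex.I)
  simpa [← mul_assoc] using h4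

theorem Lim_step {j : ℕ} (hj : j ≤ 3) (hs : ∀ ε : ℝ, 0 < ε → ∀ᶠ k in atTop,
      Sys R₀ ε m (α k) (α' k) (F k) (G k) (eF k) (eG k))
    (hα : Tendsto α atTop (𝓝 a)) (sF : ContDiffOn ℝ 10 F₀ (Ioi R₀)) (qF : Eqn R₀ m a F₀ e₀)
    (cF : Cv R₀ m j F F₀) (cG : Cv R₀ m j G G₀) (ce : Cv R₀ m 3 eF e₀) :
    Cv R₀ m (j + 1) F F₀ := by
  intro i hi r hr
  rcases hi.eq_or_lt with rfl | hi
  swap
  · exact cF i (by omega) r hr
  obtain ⟨C, -, hC⟩ := exists_lev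
  have hR : 1 ≤ R₀ := (hs 1 one_pos).exists.choose_spec.one_le
  have hR0 : 0 ≤ R₀ := by linarith
  have hM := MM_nonneg m
  have hL : ∀ ε : ℝ, 0 < ε → ∀ᶠ k in atTop, Adm R₀ (F k) ∧ Adm R₀ (eF k) ∧
      ∃ X, Lev R₀ (C * ε) (1 + MM m) m (α k) (F k) (G k) (eF k) X := fun ε hε =>
    (hs ε hε).mono fun k hk => ⟨hk.aF, hk.aeF,
      hC hR (by linarith) (by nlinarith) hk.aF hk.aG hk.aeF hk.hF⟩
  have hv : ∀ {u : ℕ → ℝ → ℂ} {v : ℝ → ℂ}, Cv R₀ m j u v →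
      Tendsto (fun k => Zv (1 + MM m) m (u k) j r) atTop (𝓝 (Zv (1 + MM m) m v j r)) := fun h =>
    (tendsto_finsetSum _ fun i hi => (h i (Finset.mem_range_succ_iff.1 hi) r hr).1.norm.const_mul
      _).add (tendsto_finsetSum _ fun i hi =>
        (h i (Finset.mem_range.1 hi).le r hr).2.norm.const_mul _)
  have hd : ∀ {u : ℕ → ℝ → ℂ} {v : ℝ → ℂ}, Cv R₀ m j u v →
      Tendsto (fun k => Zd (1 + MM m) m (u k) j r) atTop (𝓝 (Zd (1 + MM m) m v j r)) := fun h =>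
    tendsto_finsetSum _ fun i hi => ((h i (Finset.mem_range_succ_iff.1 hi) r hr).1.norm.add
      (h i (Finset.mem_range_succ_iff.1 hi) r hr).2.norm).const_mul _
  have q1 := qF.lv (N := 10) (j := j) hR0 sF (by omega)
  obtain ⟨c1, c2⟩ := cF j le_rfl r hr
  obtain ⟨c3, c4⟩ := ce j hj r hr
  have h1 : Tendsto (fun k => DD m (lv m (F k) j) r) atTop (𝓝 (DD m (lv m F₀ j) r)) := by
    refine Lim_I (((hv cF).add (hv cG)).const_mul (C / r ^ 2)) (fun ε hε => ?_)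
      ((q1 r hr).symm ▸ (((hα.add_const _).mul c1).add (c2.const_mul _)).add c3)
    filter_upwards [hL ε hε] with k ⟨_, _, X, hX⟩
    rw [hX.eqn j (by omega) r hr]
    convert hX.bd j (by omega) r hr using 1
    · congr 1
      ring
    · ring
  simp only [lv_succ]
  refine ⟨h1, Lim_I (((hd cF).add (hd cG)).const_mul C) (fun ε hε => ?_)
    ((q1.deriv hR0 (contDiffOn_lv (N := 10) (N' := 3) hR0 sF m (by omega)) hr).symm ▸
      ((((hα.add_const _).add_const _).mul c2).add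
        (((h1.sub (c2.const_mul _)).add (c1.const_mul _)).const_mul _)).add c4)⟩
  filter_upwards [hL ε hε] with k ⟨hF, he, X, hX⟩
  rw [(hX.eqn j (by omega)).deriv hR0
      (contDiffOn_lv (N := 12) (N' := 3) hR0 hF.smooth m (by omega)) hr,
    deriv_fun_add (hX.diff j hj r hr) (hasDerivAt_of_contDiffOn
      (contDiffOn_lv (N := 12) (N' := 1) hR0 he.smooth m (by omega)) le_rfl hr).differentiableAt]
  convert hX.bd' j hj r hr using 1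
  · congr 1
    ring
  · ring

/-- induction on the level; `exists_lev` with `κ² = 1 + M`; `X_j, X_j' → 0` because `Zv`, `Zd` converge;
`Lev.eqn`, `Eqn.deriv` for the approximations, `Eqn.lv`, `Eqn.deriv` for the limit -/
theorem cv_levels (hs : ∀ ε : ℝ, 0 < ε → ∀ᶠ k in atTop,
      Sys R₀ ε m (α k) (α' k) (F k) (G k) (eF k) (eG k))
    (hα : Tendsto α atTop (𝓝 a)) (hα' : Tendsto α' atTop (𝓝 a'))
    (sF : ContDiffOn ℝ 10 F₀ (Ioi R₀)) (sG : ContDiffOn ℝ 10 G₀ (Ioi R₀))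
    (qF : Eqn R₀ m a F₀ e₀) (qG : Eqn R₀ m a' G₀ e₀') (cF : Cv R₀ m 0 F F₀) (cG : Cv R₀ m 0 G G₀)
    (ce : Cv R₀ m 3 eF e₀) (ce' : Cv R₀ m 3 eG e₀') : Cv R₀ m 4 F F₀ ∧ Cv R₀ m 4 G G₀ := by
  have key : ∀ j, j ≤ 4 → Cv R₀ m j F F₀ ∧ Cv R₀ m j G G₀ := by
    intro j
    induction j with
    | zero => exact fun _ => ⟨cF, cG⟩
    | succ j ih =>
      intro hj
      obtain ⟨h1, h2⟩ := ih (by omega)
      exact ⟨Lim_step (by omega) hs hα sF qF h1 h2 ce,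
        Lim_step (by omega) (fun ε hε => (hs ε hε).mono fun k hk => hk.swap) hα' sG qG h2 h1 ce'⟩
  exact key 4 le_rfl

theorem Lim_jet (h : Cv R₀ m 4 u v) (h1 : R₀ < R₁) : ∃ s₀ : ℝ, ∀ᶠ k in atTop, ∀ s κ : ℝ, s₀ ≤ s →
    1 ≤ κ → ∀ j, j ≤ 4 → Jet κ m (u k) j R₁ s := by
  refine ⟨∑ j ∈ Finset.range 5, (‖lv m v j R₁‖ + ‖deriv (lv m v j) R₁‖) + 1, ?_⟩
  have h2 : ∀ᶠ k in atTop, ∀ j ∈ Finset.range 5, ‖lv m (u k) j R₁‖ + ‖deriv (lv m (u k) j) R₁‖ <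
      ‖lv m v j R₁‖ + ‖deriv (lv m v j) R₁‖ + 1 :=
    (eventually_all_finset _).2 fun j hj =>
      ((h j (Finset.mem_range_succ_iff.1 hj) R₁ h1).1.norm.add
        (h j (Finset.mem_range_succ_iff.1 hj) R₁ h1).2.norm).eventually_lt_const (lt_add_one _)
  filter_upwards [h2] with k hk s κ hs hκ j hj
  have hj' := Finset.mem_range_succ_iff.2 hj
  have h3 := hk j hj'
  have h4 := Finset.single_le_sum (f := fun j => ‖lv m v j R₁‖ + ‖deriv (lv m v j) R₁‖)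
    (fun _ _ => by positivity) hj'
  have h5 := norm_nonneg (lv m (u k) j R₁)
  have h6 := norm_nonneg (deriv (lv m (u k) j) R₁)
  exact ⟨le_trans (by linarith) (le_mul_of_one_le_left (by linarith) (one_le_pow₀ hκ)),
    le_trans (by linarith) (le_mul_of_one_le_left (by linarith) (one_le_pow₀ hκ))⟩

/-- `outer`; convergent sequences are bounded; `dens_mono`, `dens_le_one` -/
theorem ub_levels (hs : ∀ ε : ℝ, 0 < ε → ∀ᶠ k in atTop,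
      Sys R₀ ε m (α k) (α' k) (F k) (G k) (eF k) (eG k)) {κ₀ : ℝ}
    (hp : ∀ᶠ k in atTop, ∃ κ, κ ≤ κ₀ ∧ Par m (α k) κ ∧ Par m (α' k) κ) (h1 : R₀ < R₁) (h5 : R₁ ≤ 5)
    (cF : Cv R₀ m 4 F F₀) (cG : Cv R₀ m 4 G G₀) (ue : Ub R₁ m eF) (ue' : Ub R₁ m eG) :
    Ub R₁ m F ∧ Ub R₁ m G := by
  obtain ⟨ε₀, C, hε, -, hC, H⟩ := outer
  obtain ⟨s₁, hs₁⟩ := Lim_jet cF h1
  obtain ⟨s₂, hs₂⟩ := Lim_jet cG h1
  obtain ⟨D, hD⟩ := ue
  obtain ⟨D', hD'⟩ := ue'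
  suffices h : ∀ᶠ k in atTop, ∫ r in Ioi R₁, dens 1 m (F k) r ≤
      C * (κ₀ ^ 17 * max s₁ s₂ ^ 2 + (κ₀ ^ 16 * D + κ₀ ^ 16 * D')) ∧ ∫ r in Ioi R₁, dens 1 m (G k) r ≤
      C * (κ₀ ^ 17 * max s₁ s₂ ^ 2 + (κ₀ ^ 16 * D + κ₀ ^ 16 * D')) from
    ⟨⟨_, h.mono fun k hk => hk.1⟩, ⟨_, h.mono fun k hk => hk.2⟩⟩
  filter_upwards [hs ε₀ hε, hp, hs₁, hs₂, hD, hD'] with k hk ⟨κ, hκ, p1, p2⟩ j1 j2 d1 d2
  have hκ1 := p1.one_le
  have hR := hk.one_le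
  have h0 : ∀ r ∈ Ioi R₁, 0 ≤ r := fun r hr => by linarith [mem_Ioi.1 hr]
  have h2 := H hk le_rfl p1 p2 h1 h5 fun j hj =>
    ⟨j1 _ κ (le_max_left _ _) hκ1 j hj, j2 _ κ (le_max_right _ _) hκ1 j hj⟩
  have a0 : ∀ (κ : ℝ) (u : ℝ → ℂ), 0 ≤ ∫ r in Ioi R₁, dens κ m u r := fun κ u =>
    setIntegral_nonneg measurableSet_Ioi fun r hr => dens_nonneg κ m u (h0 r hr)
  have a1 : ∀ {u : ℝ → ℂ}, Adm R₀ u →
      ∫ r in Ioi R₁, dens 1 m u r ≤ ∫ r in Ioi R₁, dens κ m u r := fun hu =>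
    setIntegral_mono_on (hu.int_dens hR h1.le _ m) (hu.int_dens hR h1.le _ m) measurableSet_Ioi
      fun r hr => dens_mono zero_le_one hκ1 m _ (h0 r hr)
  have a2 : ∀ {u : ℝ → ℂ} {D : ℝ}, Adm R₀ u → ∫ r in Ioi R₁, dens 1 m u r ≤ D →
      ∫ r in Ioi R₁, dens κ m u r ≤ κ₀ ^ 16 * D := fun {u D} hu hD => by
    refine (setIntegral_mono_on (hu.int_dens hR h1.le _ m) ((hu.int_dens hR h1.le 1 m).const_mul _)
      measurableSet_Ioi fun r hr => dens_le_one hκ1 m _ (h0 r hr)).trans ?_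
    rw [integral_const_mul]
    exact mul_le_mul (pow_le_pow_left₀ (by linarith) hκ _) hD (a0 _ _) (by positivity)
  have h3 := h2.trans (mul_le_mul_of_nonneg_left (add_le_add (mul_le_mul_of_nonneg_right
    (pow_le_pow_left₀ (by linarith) hκ 17) (sq_nonneg _))
    (add_le_add (a2 hk.aeF d1) (a2 hk.aeG d2))) hC)
  exact ⟨by linarith [a1 hk.aF, a0 κ (G k)], by linarith [a1 hk.aG, a0 κ (F k)]⟩

end Crest.Agent.R086.Mb
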