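import Crest.Agent.R086.Mb.Sy
import Crest.Agent.R086.Mb.DAlg

/-! Row 86, part M-b: passing to the limit in the levels. -/

set_option autoImplicit false

open MeasureTheory Set Filter Topology
open scoped ComplexConjugate

namespace Crest.Agent.R086.Mb

/-- pointwise convergence of the levels `≤ J` and of their derivatives -/
def Cv (R₀ : ℝ) (m J : ℕ) (u : ℕ → ℝ → ℂ) (v : ℝ → ℂ) : Prop :=
  ∀ j : ℕ, j ≤ J → ∀ r : ℝ, R₀ < r → Tendsto (fun k => lv m (u k) j r) atTop (𝓝 (lv m v j r)) ∧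
    Tendsto (fun k => deriv (lv m (u k) j) r) atTop (𝓝 (deriv (lv m v j) r))

/-- uniform bound of the outer norm -/
def Ub (R₁ : ℝ) (m : ℕ) (u : ℕ → ℝ → ℂ) : Prop :=
  ∃ D : ℝ, ∀ᶠ k in atTop, ∫ r in Ioi R₁, dens 1 m (u k) r ≤ D

variable {R₀ R₁ : ℝ} {m : ℕ} {α α' : ℕ → ℂ} {F G eF eG u u' : ℕ → ℝ → ℂ} {a a' : ℂ}
  {F₀ G₀ e₀ e₀' v v' : ℝ → ℂ}

theorem cv_zero (R₀ : ℝ) (m J : ℕ) : Cv R₀ m J (fun _ _ => 0) (fun _ => 0) :=
  fun _ _ _ _ => ⟨tendsto_const_nhds, tendsto_const_nhds⟩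

theorem ub_zero (R₁ : ℝ) (m : ℕ) : Ub R₁ m (fun _ _ => 0) :=
  ⟨_, Eventually.of_forall fun _ => le_rfl⟩

theorem Cv.mono {J J' : ℕ} (h : Cv R₀ m J u v) (hJ : J' ≤ J) : Cv R₀ m J' u v :=
  fun j hj => h j (hj.trans hJ)

theorem Cv.congr {J : ℕ} (h : Cv R₀ m J u v) (hu : ∀ᶠ k in atTop, ∀ r, R₀ < r → u' k r = u k r)
    (hv : ∀ r, R₀ < r → v' r = v r) : Cv R₀ m J u' v' := by
  intro j hj r hr
  rw [lv_congr hv j hr, deriv_congr_Ioi (fun s hs => lv_congr (m := m) hv j hs) hr]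
  exact ⟨(h j hj r hr).1.congr' (hu.mono fun k hk => (lv_congr hk j hr).symm),
    (h j hj r hr).2.congr' (hu.mono fun k hk =>
      (deriv_congr_Ioi (fun s hs => lv_congr hk j hs) hr).symm)⟩

theorem Ub.congr (h : Ub R₁ m u) (hR : R₀ ≤ R₁)
    (hu : ∀ᶠ k in atTop, ∀ r, R₀ < r → u' k r = u k r) : Ub R₁ m u' := by
  obtain ⟨D, hD⟩ := h
  refine ⟨D, ?_⟩
  filter_upwards [hD, hu] with k h1 h2
  refine le_trans (le_of_eq (setIntegral_congr_fun measurableSet_Ioi fun r hr => ?_)) h1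
  have hr' : R₀ < r := hR.trans_lt hr
  simp only [dens, fun j => lv_congr (m := m) h2 j hr',
    fun j => deriv_congr_Ioi (fun s hs => lv_congr (m := m) h2 j hs) hr']

theorem Cv.const_mul {J : ℕ} (h : Cv R₀ m J u v) {c : ℕ → ℂ} {d : ℂ} (hc : Tendsto c atTop (𝓝 d)) :
    Cv R₀ m J (fun k r => c k * u k r) (fun r => d * v r) := by
  intro j hj r hr
  simp only [lv_const_mul, deriv_const_mul_field]
  exact ⟨hc.mul (h j hj r hr).1, hc.mul (h j hj r hr).2⟩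

theorem Lim0_dens_mul (κ : ℝ) (m : ℕ) (a : ℂ) (w : ℝ → ℂ) (r : ℝ) :
    dens κ m (fun r => a * w r) r = ‖a‖ ^ 2 * dens κ m w r := by
  simp only [dens, lv_const_mul, deriv_const_mul_field, norm_mul, mul_pow, Finset.sum_range_succ,
    Finset.sum_range_zero]
  ring

theorem Ub.const_mul (h : Ub R₁ m u) (hR : 0 ≤ R₁) {c : ℕ → ℂ} {d : ℂ} (hc : Tendsto c atTop (𝓝 d)) :
    Ub R₁ m (fun k r => c k * u k r) := by
  obtain ⟨D, hD⟩ := h
  refine ⟨(‖d‖ + 1) ^ 2 * D, ?_⟩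
  filter_upwards [hD, hc.norm.eventually (gt_mem_nhds (lt_add_one ‖d‖))] with k h1 h2
  simp only [Lim0_dens_mul, integral_const_mul]
  have h3 : 0 ≤ ∫ r in Ioi R₁, dens 1 m (u k) r :=
    setIntegral_nonneg measurableSet_Ioi fun r hr => dens_nonneg _ _ _ (hR.trans (le_of_lt hr))
  gcongr

theorem Lim0_add {w w' : ℝ → ℂ} (hR : 0 ≤ R₀) (h : ContDiffOn ℝ 10 w (Ioi R₀))
    (h' : ContDiffOn ℝ 10 w' (Ioi R₀)) {j : ℕ} (hj : j ≤ 4) {r : ℝ} (hr : R₀ < r) :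
    lv m (fun r => w r + w' r) j r = lv m w j r + lv m w' j r ∧
      deriv (lv m (fun r => w r + w' r) j) r = deriv (lv m w j) r + deriv (lv m w' j) r := by
  have e : ∀ s, R₀ < s → lv m (fun r => w r + w' r) j s = lv m w j s + lv m w' j s :=
    fun s hs => lv_add (N := 10) hR h h' (by omega) hs
  refine ⟨e r hr, ?_⟩
  rw [deriv_congr_Ioi e hr]
  exact ((hasDerivAt_of_contDiffOn (contDiffOn_lv (N := 10) (N' := 1) hR h m (by omega)) le_rfl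
    hr).add (hasDerivAt_of_contDiffOn (contDiffOn_lv (N := 10) (N' := 1) hR h' m (by omega))
      le_rfl hr)).deriv

theorem Lim0_smooth {w : ℝ → ℂ} (h : Adm R₀ w) : ContDiffOn ℝ 10 w (Ioi R₀) :=
  h.smooth.of_le (by norm_num)

theorem Cv.add (hR : 0 ≤ R₀) (h : Cv R₀ m 4 u v) (h' : Cv R₀ m 4 u' v')
    (hu : ∀ᶠ k in atTop, Adm R₀ (u k) ∧ Adm R₀ (u' k)) (hv : ContDiffOn ℝ 10 v (Ioi R₀))
    (hv' : ContDiffOn ℝ 10 v' (Ioi R₀)) :
    Cv R₀ m 4 (fun k r => u k r + u' k r) (fun r => v r + v' r) := by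
  intro j hj r hr
  rw [(Lim0_add hR hv hv' hj hr).1, (Lim0_add hR hv hv' hj hr).2]
  exact ⟨((h j hj r hr).1.add (h' j hj r hr).1).congr' (hu.mono fun k hk =>
      (Lim0_add hR (Lim0_smooth hk.1) (Lim0_smooth hk.2) hj hr).1.symm),
    ((h j hj r hr).2.add (h' j hj r hr).2).congr' (hu.mono fun k hk =>
      (Lim0_add hR (Lim0_smooth hk.1) (Lim0_smooth hk.2) hj hr).2.symm)⟩

theorem Ub.add (hR : 1 ≤ R₀) (h1 : R₀ ≤ R₁) (h : Ub R₁ m u) (h' : Ub R₁ m u')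
    (hu : ∀ᶠ k in atTop, Adm R₀ (u k) ∧ Adm R₀ (u' k)) : Ub R₁ m (fun k r => u k r + u' k r) := by
  obtain ⟨D, hD⟩ := h
  obtain ⟨D', hD'⟩ := h'
  refine ⟨2 * D + 2 * D', ?_⟩
  filter_upwards [hD, hD', hu] with k a1 a2 a3
  have i1 := (a3.1.int_dens hR h1 1 m).const_mul 2
  have i2 := (a3.2.int_dens hR h1 1 m).const_mul 2
  refine (setIntegral_mono_on ((a3.1.add a3.2).int_dens hR h1 1 m) (i1.add i2) measurableSet_Ioi
    fun r hr => ?_).trans ?_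
  · have hr' : R₀ < r := h1.trans_lt hr
    have hr0 : 0 < r := by linarith
    have hn : ∀ (p : ℝ) (x y : ℂ), 0 ≤ p → p * ‖x + y‖ ^ 2 ≤ 2 * (p * ‖x‖ ^ 2) + 2 * (p * ‖y‖ ^ 2) :=
      fun p x y hp => by
        have b1 : ‖x + y‖ ^ 2 ≤ (‖x‖ + ‖y‖) ^ 2 := by gcongr; exact norm_add_le x y
        nlinarith [mul_le_mul_of_nonneg_left b1 hp, mul_nonneg hp (sq_nonneg (‖x‖ - ‖y‖))]
    have e := fun j hj => Lim0_add (m := m) (j := j) (by linarith : 0 ≤ R₀) (Lim0_smooth a3.1)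
      (Lim0_smooth a3.2) hj hr'
    simp only [Pi.add_apply, dens, one_pow, one_mul, mul_add, Finset.mul_sum]
    rw [add_add_add_comm, ← Finset.sum_add_distrib, (e 4 le_rfl).1]
    refine add_le_add (Finset.sum_le_sum fun i hi => ?_) (hn _ _ _ (by positivity))
    have hi' : i ≤ 4 := (Finset.mem_range.1 hi).le
    rw [(e i hi').1, (e i hi').2, add_add_add_comm]
    exact add_le_add (hn _ _ _ (by positivity)) (hn _ _ _ (by positivity))
  · rw [integral_add' i1 i2, integral_const_mul, integral_const_mul]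
    linarith

/-- Fatou (`lintegral_liminf_le`, or `MeasureTheory.integrable_of_tendsto`-type lemma) -/
theorem fatou (hR : 1 ≤ R₀) (h1 : R₀ ≤ R₁) (hu : ∀ᶠ k in atTop, Adm R₀ (u k)) (hc : Cv R₀ m 4 u v)
    (hb : Ub R₁ m u) (hv : ContDiffOn ℝ 10 v (Ioi R₀)) :
    IntegrableOn (fun r : ℝ => r ^ 11 * ‖(DD m)^[4] v r‖ ^ 2) (Ioi R₁) := by
  obtain ⟨D, hD⟩ := hb
  obtain ⟨N, hN⟩ := eventually_atTop.1 (hD.and hu)
  have hm : ∀ w : ℝ → ℂ, ContDiffOn ℝ 10 w (Ioi R₀) →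
      AEStronglyMeasurable (fun r : ℝ => r ^ 11 * ‖lv m w 4 r‖ ^ 2) (volume.restrict (Ioi R₁)) :=
    fun w hw => ContinuousOn.aestronglyMeasurable ((continuousOn_id.pow 11).mul
      (((contDiffOn_lv (N := 10) (N' := 0) (by linarith) hw m (by omega)).continuousOn.mono
        (Ioi_subset_Ioi h1)).norm.pow 2)) measurableSet_Ioi
  refine ⟨hm v hv, ?_⟩
  have ht : ∀ᵐ r ∂(volume.restrict (Ioi R₁)), ‖r ^ 11 * ‖lv m v 4 r‖ ^ 2‖ₑ =
      liminf (fun k => ‖r ^ 11 * ‖lv m (u (k + N)) 4 r‖ ^ 2‖ₑ) atTop :=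
    (ae_restrict_mem measurableSet_Ioi).mono fun r hr =>
      (((((hc 4 le_rfl r (h1.trans_lt hr)).1.comp (tendsto_add_atTop_nat N)).norm.pow 2).const_mul
        (r ^ 11)).enorm.liminf_eq).symm
  refine ((lintegral_congr_ae ht).trans_le ((lintegral_liminf_le' fun k =>
    (hm _ (Lim0_smooth (hN _ (Nat.le_add_left _ _)).2)).enorm).trans
      (liminf_le_of_frequently_le' (Frequently.of_forall fun k => ?_)))).trans_lt
        (ENNReal.ofReal_lt_top (r := D))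
  obtain ⟨a1, a2⟩ := hN (k + N) (Nat.le_add_left _ _)
  have hpos : ∀ r ∈ Ioi R₁, 0 < r := fun r hr => by
    have : R₁ < r := hr
    linarith
  refine le_trans ?_ (ENNReal.ofReal_le_ofReal a1)
  rw [ofReal_integral_eq_lintegral_ofReal (a2.int_dens hR h1 1 m)
    ((ae_restrict_mem measurableSet_Ioi).mono fun r hr => dens_nonneg _ _ _ (hpos r hr).le)]
  refine lintegral_mono_ae ((ae_restrict_mem measurableSet_Ioi).mono fun r hr => ?_)
  have hr0 := hpos r hr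
  rw [Real.enorm_eq_ofReal (by positivity)]
  refine ENNReal.ofReal_le_ofReal (le_add_of_nonneg_left ?_)
  positivity

end Crest.Agent.R086.Mb
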