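import Crest.Agent.R086.Mb.Lim
import Crest.Agent.R086.Mb.Eig

/-! Row 86, part M-b: limits of solutions along a subsequence of the family. -/

set_option autoImplicit false

open MeasureTheory Set Filter Topology
open scoped ComplexConjugate

namespace Crest.Agent.R086.Mb

/-- the subsequence of profiles -/
structure Sub (b R : ℕ → ℝ) (q : ℕ → ℝ → ℂ) (ν : ℕ → ℕ) (b' R' : ℝ) : Prop where
  fam : Fam b R q
  modes : ∀ᶠ n in atTop, Modes n (b n) (q n)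
  hν : Tendsto ν atTop atTop
  hb : Tendsto (fun k => b (ν k)) atTop (𝓝 b')
  hR : Tendsto (fun k => R (ν k)) atTop (𝓝 R')

variable {b R : ℕ → ℝ} {q : ℕ → ℝ → ℂ} {ν : ℕ → ℕ} {b' R' : ℝ}

theorem Sub.box (h : Sub b R q ν b' R') : InBox b' R' := by
  have hb := h.hν.eventually h.fam.box
  exact ⟨isClosed_Icc.mem_of_tendsto h.hb (hb.mono fun k hk => hk.1),
    isClosed_Icc.mem_of_tendsto h.hR (hb.mono fun k hk => hk.2)⟩

theorem Sub.tendsto_aa (h : Sub b R q ν b' R') : Tendsto (fun k => aa (ν k)) atTop (𝓝 0) := by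
  have h1 : Tendsto (fun k => 2 * ((ν k : ℕ) : ℝ)) atTop atTop :=
    (tendsto_natCast_atTop_atTop.comp h.hν).const_mul_atTop (by norm_num)
  simp only [aa, one_div]
  exact h1.inv_tendsto_atTop

/-- `Eig.sys`, `fam_sy` with `η = 1/4`, `Modes.adm`, `Eig.spec`, `Spec.par`, then `cv_levels`, `ub_levels` -/
theorem Sub.step (h : Sub b R q ν b' R') {m : ℕ} {lam c₀ c₁ c₂ : ℕ → ℂ} {f g : ℕ → ℝ → ℂ} {l : ℂ}
    (hE : ∀ᶠ k in atTop, Eig (ν k) (b (ν k)) (q (ν k)) m (lam k) (c₀ k) (c₁ k) (c₂ k) (f k) (g k))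
    (hl : Tendsto lam atTop (𝓝 l)) {F₀ G₀ e₀ e₀' : ℝ → ℂ}
    (sF : ContDiffOn ℝ 10 F₀ (Ioi (R' + 1 / 2))) (sG : ContDiffOn ℝ 10 G₀ (Ioi (R' + 1 / 2)))
    (qF : Eqn (R' + 1 / 2) m (l - Complex.I * b') F₀ e₀)
    (qG : Eqn (R' + 1 / 2) m (conj l - Complex.I * b') G₀ e₀')
    (cF : Cv (R' + 1 / 2) m 0 f F₀) (cG : Cv (R' + 1 / 2) m 0 (fun k r => conj (g k r)) G₀)
    (ce : Cv (R' + 1 / 2) m 4
      (fun k => phc (aa (ν k)) (b (ν k)) (Qr (q (ν k))) (c₀ k) (c₁ k) (c₂ k)) e₀)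
    (ce' : Cv (R' + 1 / 2) m 4
      (fun k => phc (aa (ν k)) (b (ν k)) (Qr (q (ν k))) (conj (c₀ k)) (conj (c₁ k)) (conj (c₂ k))) e₀')
    (ue : Ub (R' + 1) m (fun k => phc (aa (ν k)) (b (ν k)) (Qr (q (ν k))) (c₀ k) (c₁ k) (c₂ k)))
    (ue' : Ub (R' + 1) m
      (fun k => phc (aa (ν k)) (b (ν k)) (Qr (q (ν k))) (conj (c₀ k)) (conj (c₁ k)) (conj (c₂ k)))) :
    Cv (R' + 1 / 2) m 4 f F₀ ∧ Ub (R' + 1) m f ∧
      Cv (R' + 1 / 2) m 4 (fun k r => conj (g k r)) G₀ ∧ Ub (R' + 1) m (fun k r => conj (g k r)) := by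
  obtain ⟨-, hR1, hR2⟩ := h.box
  have hRk : ∀ᶠ k in atTop, R (ν k) + 1 / 4 ≤ R' + 1 / 2 := by
    filter_upwards [h.hR.eventually (gt_mem_nhds (show R' < R' + 1 / 4 by linarith))] with k hk
    linarith
  have hs : ∀ ε : ℝ, 0 < ε → ∀ᶠ k in atTop,
      Sys (R' + 1 / 2) ε m (lam k + (aa (ν k) : ℝ) - Complex.I * b (ν k))
        (conj (lam k) + (aa (ν k) : ℝ) - Complex.I * b (ν k)) (f k) (fun r => conj (g k r))
        (phc (aa (ν k)) (b (ν k)) (Qr (q (ν k))) (c₀ k) (c₁ k) (c₂ k))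
        (phc (aa (ν k)) (b (ν k)) (Qr (q (ν k))) (conj (c₀ k)) (conj (c₁ k)) (conj (c₂ k))) := by
    intro ε hε
    filter_upwards [hE, hRk, h.hν.eventually h.modes,
      h.hν.eventually (fam_sy h.fam (show (0 : ℝ) < 1 / 4 by norm_num) hε)] with k h1 h2 h3 h4
    exact h1.sys (by linarith) (h4 _ h2).1 (h4 _ h2).2 (h3.adm (by linarith) _ _ _)
      (h3.adm (by linarith) _ _ _)
  have ha : Tendsto (fun k => ((aa (ν k) : ℝ) : ℂ)) atTop (𝓝 0) := by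
    exact (Complex.continuous_ofReal.tendsto' 0 0 (by simp)).comp h.tendsto_aa
  have hb : Tendsto (fun k => Complex.I * ((b (ν k) : ℝ) : ℂ)) atTop (𝓝 (Complex.I * b')) :=
    ((Complex.continuous_ofReal.tendsto b').comp h.hb).const_mul _
  have hα : Tendsto (fun k => lam k + (aa (ν k) : ℝ) - Complex.I * b (ν k)) atTop
      (𝓝 (l - Complex.I * b')) := by
    simpa using (hl.add ha).sub hb
  have hα' : Tendsto (fun k => conj (lam k) + (aa (ν k) : ℝ) - Complex.I * b (ν k)) atTop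
      (𝓝 (conj l - Complex.I * b')) := by
    have hc : Tendsto (fun k => conj (lam k)) atTop (𝓝 (conj l)) :=
      (Complex.continuous_conj.tendsto l).comp hl
    simpa using (hc.add ha).sub hb
  obtain ⟨c1, c2⟩ := cv_levels hs hα hα' sF sG qF qG cF cG (ce.mono (by norm_num))
    (ce'.mono (by norm_num))
  have him : ∀ᶠ k in atTop, |(lam k).im| < |l.im| + 1 :=
    (((Complex.continuous_im.tendsto l).comp hl).abs).eventually
      (gt_mem_nhds (show |l.im| < |l.im| + 1 by linarith))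
  have hp : ∀ᶠ k in atTop, ∃ κ, κ ≤ Real.sqrt (1 + (|l.im| + 1) + MM m) ∧
      Par m (lam k + (aa (ν k) : ℝ) - Complex.I * b (ν k)) κ ∧
      Par m (conj (lam k) + (aa (ν k) : ℝ) - Complex.I * b (ν k)) κ := by
    filter_upwards [hE, him, h.hν.eventually h.fam.box, h.hν.eventually (eventually_ge_atTop 5)]
      with k h1 h2 h3 h4
    have h5 := h1.spec h4 ⟨by linarith [h3.1.1], by linarith [h3.1.2]⟩
    refine ⟨_, Real.sqrt_le_sqrt ?_, h5.par, h5.par'⟩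
    unfold bet
    linarith
  obtain ⟨u1, u2⟩ := ub_levels hs hp (show R' + 1 / 2 < R' + 1 by linarith) (by linarith) c1 c2 ue ue'
  exact ⟨c1, u1, c2, u2⟩

end Crest.Agent.R086.Mb
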