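import Crest.Agent.R086.Mb.Lvl0

/-! Row 86, part M-b: the integral inequalities of one level. -/

set_option autoImplicit false

open MeasureTheory Set Filter Topology
open scoped ComplexConjugate

namespace Crest.Agent.R086.Mb

theorem Lvl_pow (p : ℕ) {r : ℝ} (hr : r ≠ 0) :
    HasDerivAt (fun r : ℝ => r ^ p) (p * r ^ p / r) r := by
  refine (hasDerivAt_pow p r).congr_deriv ?_
  cases p with
  | zero => simp
  | succ p =>
    simp only [Nat.add_sub_cancel, pow_succ]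
    field_simp

theorem Lvl_real {x y z q M κ A B n p1 p2 p3 p4 p5 p6 p7 : ℝ} (hκ : 1 ≤ κ)
    (hle : κ ^ 2 ≤ 2 + |B| + M) (hA : 0 ≤ A) (hn0 : 0 ≤ n)
    (hn : n ≤ 3) (h1 : |p1| ≤ x * y) (h2 : |p2| ≤ x * z) (h3 : |p3| ≤ x * z) (h4 : |p4| ≤ x * q)
    (h5 : |p5| ≤ x * y) (h6 : |p6| ≤ x * z) (h7 : |p7| ≤ x * q)
    (e1 : p1 / 2 = p3 - p4 - (A + n) * x ^ 2) (e2 : p6 = B * x ^ 2 + p5 / 2 + p7) :
    κ ^ 2 * x ^ 2 + y ^ 2 ≤ 2 * (y ^ 2 + M * x ^ 2 + p2 + (4 * n - 16) * p1 -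
      24 * ((4 * n - 6) * x ^ 2 + 2 * p1)) + 20000 / κ ^ 2 * (z ^ 2 + q ^ 2) := by
  have hκ0 : 0 < κ := by linarith
  obtain ⟨a1, b1⟩ := abs_le.1 h1
  obtain ⟨a2, b2⟩ := abs_le.1 h2
  obtain ⟨a3, b3⟩ := abs_le.1 h3
  obtain ⟨a4, b4⟩ := abs_le.1 h4
  obtain ⟨a5, b5⟩ := abs_le.1 h5
  obtain ⟨a6, b6⟩ := abs_le.1 h6
  obtain ⟨a7, b7⟩ := abs_le.1 h7
  have hB : |B| * x ^ 2 ≤ x * z + x * q + x * y / 2 := by
    rcases abs_cases B with h | h <;> rw [h.1] <;> linarith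
  have h16 : -(16 * (x * y)) ≤ (4 * n - 16) * p1 := by
    have c1 : 0 ≤ (16 - 4 * n) * (x * y - p1) := mul_nonneg (by linarith) (by linarith)
    have c2 : 0 ≤ n * (x * y) := mul_nonneg hn0 (by linarith)
    linarith
  have hk : κ ^ 2 * x ^ 2 ≤ (2 + |B| + M) * x ^ 2 := by gcongr
  have hAx : 0 ≤ A * x ^ 2 := by positivity
  obtain ⟨v, hv⟩ : ∃ v, z = κ * v := ⟨z / κ, by field_simp⟩
  obtain ⟨t, ht⟩ : ∃ t, q = κ * t := ⟨q / κ, by field_simp⟩
  have hy : 20000 / κ ^ 2 * (z ^ 2 + q ^ 2) = 20000 * (v ^ 2 + t ^ 2) := by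
    rw [hv, ht]; field_simp
  have c1 : 196 * (x * z + x * q) ≤ κ ^ 2 * x ^ 2 + 20000 * (v ^ 2 + t ^ 2) := by
    rw [hv, ht]
    nlinarith [sq_nonneg (κ * x - 98 * (v + t)), sq_nonneg (v - t), sq_nonneg v, sq_nonneg t]
  have c2 : 33 * (x * y) ≤ y ^ 2 + 284 * x ^ 2 := by nlinarith [sq_nonneg (2 * y - 33 * x), sq_nonneg x]
  rw [hy]
  linarith

theorem Lvl_re (u v : ℂ) : |u.re * v.re + u.im * v.im| ≤ ‖u‖ * ‖v‖ := by
  have a1 := Complex.abs_re_le_norm (conj u * v)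
  rwa [norm_mul, Complex.norm_conj, Complex.mul_re, Complex.conj_re, Complex.conj_im, neg_mul,
    sub_neg_eq_add] at a1

theorem Lvl_im (u v : ℂ) : |u.re * v.im - u.im * v.re| ≤ ‖u‖ * ‖v‖ := by
  have a1 := Complex.abs_im_le_norm (conj u * v)
  rwa [norm_mul, Complex.norm_conj, Complex.mul_im, Complex.conj_re, Complex.conj_im, neg_mul,
    ← sub_eq_add_neg] at a1

theorem Lvl_sq (u : ℂ) : u.re ^ 2 + u.im ^ 2 = ‖u‖ ^ 2 := by
  rw [Complex.sq_norm, Complex.normSq_apply]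
  ring

theorem Lvl_pt {m : ℕ} {α u v D Y : ℂ} {κ r n : ℝ} (hP : Par m α κ) (hr : 1 ≤ r) (hn0 : 0 ≤ n)
    (hn : n ≤ 3) (e : Complex.I * D = (α + n) * u + (r : ℂ) / 2 * v + Y) :
    κ ^ 2 * ‖u‖ ^ 2 + (r * ‖v‖) ^ 2 ≤ 2 * ((r * ‖v‖) ^ 2 + MM m * ‖u‖ ^ 2 +
      r ^ 2 * (u.re * D.re + u.im * D.im) + (4 * n - 16) * (r * (u.re * v.re + u.im * v.im)) -
      24 * ((4 * n - 6) * ‖u‖ ^ 2 + 2 * (r * (u.re * v.re + u.im * v.im)))) +
      20000 / κ ^ 2 * ((r ^ 2 * ‖D‖) ^ 2 + ‖Y‖ ^ 2) := by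
  have hr0 : 0 ≤ r := by linarith
  have hr2 : 1 ≤ r ^ 2 := one_le_pow₀ hr
  have hD : ‖u‖ * ‖D‖ ≤ ‖u‖ * (r ^ 2 * ‖D‖) := by
    gcongr
    exact le_mul_of_one_le_left (norm_nonneg _) hr2
  have e' : Complex.I * D = (α + n) * u + ((r / 2 : ℝ) : ℂ) * v + Y := by
    rw [e]; push_cast; ring
  have er := congrArg Complex.re e'
  have ei := congrArg Complex.im e'
  simp only [Complex.add_re, Complex.add_im, Complex.mul_re,
    Complex.mul_im, Complex.I_re, Complex.I_im, Complex.ofReal_re, Complex.ofReal_im] at er ei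
  refine Lvl_real (A := α.re) (p3 := -(u.re * D.im - u.im * D.re))
    (p4 := u.re * Y.re + u.im * Y.im) (p5 := r * (u.re * v.im - u.im * v.re))
    (p6 := u.re * D.re + u.im * D.im) (p7 := u.re * Y.im - u.im * Y.re)
    hP.one_le hP.le hP.re0 hn0 hn ?_ ?_ ?_ (Lvl_re _ _) ?_ ((Lvl_re _ _).trans hD) (Lvl_im _ _) ?_ ?_
  · rw [abs_mul, abs_of_nonneg hr0, mul_left_comm]
    gcongr
    exact Lvl_re _ _
  · rw [abs_mul, abs_of_nonneg (by positivity), mul_left_comm]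
    gcongr
    exact Lvl_re _ _
  · rw [abs_neg]
    exact (Lvl_im _ _).trans hD
  · rw [abs_mul, abs_of_nonneg hr0, mul_left_comm]
    gcongr
    exact Lvl_im _ _
  · rw [← Lvl_sq]
    linear_combination (-u.re) * er - u.im * ei
  · rw [← Lvl_sq]
    linear_combination u.re * ei - u.im * er

/-- Levels `i ≤ 3`.  `b = r^{4i-5} Re(ū u') - 24 r^{4i-6} |u|²`.  With `w = r^{4i-7}`, `x = |u|`, `y = r|u'|`,
`z = r²|𝒟u|`, `q = |Y|`:  `(r^{4i-5} Re ū u')' = w (y² + M x² + r² Re(ū 𝒟u) + (4i-16) r Re(ū u'))`,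
`(r^{4i-6}|u|²/4)' = w (-(Re α + 3/2) x² + Re(ū (i𝒟u - Y)))` (equation), so
`b'/w ≥ y² + (M + 144) x² - 16 x y - 97 x (z + q)`; the imaginary part of the equation gives
`|Im α| x² ≤ x (z + q) + x y/2`, hence `(y² + κ² x²)/2 ≤ b'/w + 10⁴ (z² + q²)/κ²`.  `tail_int`, `int_sq`
(`Y = O(r^{-2i})` by the equation). -/
theorem lvl_low : ∃ C : ℝ, 0 ≤ C ∧ ∀ {R₀ R₁ κ K : ℝ} {m i : ℕ} {α : ℂ} {u Y : ℝ → ℂ}, 1 ≤ R₀ →
    R₀ < R₁ → R₁ ≤ 5 → i ≤ 3 → Par m α κ → Sy R₀ 2 (2 * i) K u → Eqn R₀ m (α + i) u Y →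
      κ ^ 2 * (∫ r in Ioi R₁, r ^ (4 * i) / r ^ 7 * ‖u r‖ ^ 2) +
        ∫ r in Ioi R₁, r ^ (4 * i) / r ^ 5 * ‖deriv u r‖ ^ 2 ≤
      C * (‖u R₁‖ ^ 2 + ‖u R₁‖ * ‖deriv u R₁‖) +
        C / κ ^ 2 * ((∫ r in Ioi R₁, r ^ (4 * (i + 1)) / r ^ 7 * ‖DD m u r‖ ^ 2) +
          ∫ r in Ioi R₁, r ^ (4 * i) / r ^ 7 * ‖Y r‖ ^ 2) := by
  refine ⟨48 * 5 ^ 12, by positivity, fun {R₀ R₁ κ K m i α u Y} h0 h1 h5 hi hP hu hE => ?_⟩
  have h0' : 0 ≤ R₀ := zero_le_one.trans h0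
  have hu' : Sy R₀ 1 (2 * i + 1) K (deriv u) := Sy.deriv (N := 1) hu
  obtain ⟨K₁, hD⟩ := Sy.DD (N := 0) hu h0' m
  obtain ⟨K₂, hY⟩ : ∃ K₂, Sy R₀ 0 (2 * i) K₂ Y := by
    have a1 := (hD.mono_o h0 (show 2 * i ≤ 2 * i + 2 by omega)).const_mul Complex.I
    have a2 := (hu.mono_N (Nat.zero_le 2)).const_mul (-(α + i))
    have a3 := ((Sy.mul_r (o := 2 * i) hu' h0').mono_N (Nat.zero_le 1)).const_mul (-(1 / 2))
    exact ⟨_, ((a1.add a2).add a3).congr fun r hr => by linear_combination -hE r hr⟩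
  have i1 := int_sq (p := 4 * i) (q := 7) hu.1.continuousOn (fun r hr => hu.bd hr) h0 h1.le
    (by omega)
  have i2 := int_sq (p := 4 * i) (q := 5) hu'.1.continuousOn (fun r hr => hu'.bd hr) h0 h1.le
    (by omega)
  have i3 := int_sq (p := 4 * (i + 1)) (q := 7) hD.1.continuousOn (fun r hr => hD.bd hr) h0 h1.le
    (by omega)
  have i4 := int_sq (p := 4 * i) (q := 7) hY.1.continuousOn (fun r hr => hY.bd hr) h0 h1.le
    (by omega)
  let b : ℝ → ℝ := fun r => 2 * (r ^ (4 * i) / r ^ 5) *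
      ((u r).re * (deriv u r).re + (u r).im * (deriv u r).im) -
    48 * (r ^ (4 * i) / r ^ 6) * ((u r).re ^ 2 + (u r).im ^ 2)
  have hbd : ∀ r, 0 ≤ r → |b r| ≤ 2 * (r ^ (4 * i) / r ^ 5) * (‖u r‖ * ‖deriv u r‖) +
      48 * (r ^ (4 * i) / r ^ 6) * ‖u r‖ ^ 2 := by
    intro r hr
    simp only [b, Lvl_sq]
    refine (abs_sub _ _).trans (add_le_add ?_ (le_of_eq (abs_of_nonneg (by positivity))))
    rw [abs_mul, abs_of_nonneg (by positivity)]
    gcongr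
    exact Lvl_re _ _
  have hb : ∀ r, R₁ ≤ r → HasDerivAt b (r ^ (4 * i) / r ^ 7 * (2 * ((r * ‖deriv u r‖) ^ 2 +
      MM m * ‖u r‖ ^ 2 + r ^ 2 * ((u r).re * (DD m u r).re + (u r).im * (DD m u r).im) +
      (4 * i - 16) * (r * ((u r).re * (deriv u r).re + (u r).im * (deriv u r).im)) -
      24 * ((4 * i - 6) * ‖u r‖ ^ 2 +
        2 * (r * ((u r).re * (deriv u r).re + (u r).im * (deriv u r).im)))))) r := fun r hr => by
    have hr' : R₀ < r := h1.trans_le hr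
    have hr0 : r ≠ 0 := (h0'.trans_lt hr').ne'
    have d1 := hasDerivAt_of_contDiffOn hu.1 one_le_two hr'
    have d2 := hasDerivAt_deriv_of_contDiffOn hu.1 le_rfl hr'
    have e : deriv (deriv u) r = DD m u r - ((11 / r : ℝ) : ℂ) * deriv u r +
        ((MM m / r ^ 2 : ℝ) : ℂ) * u r := by
      rw [deriv2_eq m]
      push_cast
      ring
    have p1 : HasDerivAt (fun r => (u r).re) (deriv u r).re r :=
      Complex.reCLM.hasFDerivAt.comp_hasDerivAt r d1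
    have p2 : HasDerivAt (fun r => (u r).im) (deriv u r).im r :=
      Complex.imCLM.hasFDerivAt.comp_hasDerivAt r d1
    have p3 : HasDerivAt (fun r => (deriv u r).re) (deriv (deriv u) r).re r :=
      Complex.reCLM.hasFDerivAt.comp_hasDerivAt r d2
    have p4 : HasDerivAt (fun r => (deriv u r).im) (deriv (deriv u) r).im r :=
      Complex.imCLM.hasFDerivAt.comp_hasDerivAt r d2
    have q := ((((Lvl_pow (4 * i) hr0).fun_div (Lvl_pow 5 hr0) (pow_ne_zero _ hr0)).const_mul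
      2).fun_mul ((p1.fun_mul p3).fun_add (p2.fun_mul p4))).fun_sub
      ((((Lvl_pow (4 * i) hr0).fun_div (Lvl_pow 6 hr0) (pow_ne_zero _ hr0)).const_mul 48).fun_mul
        ((p1.fun_pow 2).fun_add (p2.fun_pow 2)))
    refine q.congr_deriv ?_
    rw [e, mul_pow, ← Lvl_sq, ← Lvl_sq]
    simp only [Complex.add_re, Complex.add_im, Complex.sub_re, Complex.sub_im, Complex.mul_re,
      Complex.mul_im, Complex.ofReal_re, Complex.ofReal_im]
    generalize r ^ (4 * i) = W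
    push_cast
    field_simp
    ring
  have hlim : Tendsto b atTop (𝓝 0) := by
    have hK := hu.nonneg h0'
    refine squeeze_zero_norm' ?_ (tendsto_const_nhds.div_atTop (a := 50 * K ^ 2) tendsto_id)
    filter_upwards [eventually_gt_atTop R₀] with r hr
    have hr1 : 1 ≤ r := h0.trans hr.le
    have hr0 : 0 < r := by linarith
    have a1 := hu.bd hr
    have a2 := hu'.bd hr
    refine (hbd r hr0.le).trans ?_
    calc _ ≤ 2 * (r ^ (4 * i) / r ^ 5) * (K / r ^ (2 * i) * (K / r ^ (2 * i + 1))) +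
          48 * (r ^ (4 * i) / r ^ 6) * (K / r ^ (2 * i)) ^ 2 := by gcongr
      _ = 50 * (K ^ 2 / r ^ 6) := by field_simp; ring
      _ ≤ 50 * (K ^ 2 / r ^ 1) := by gcongr; norm_num
      _ = _ := by simp only [id]; ring
  have hκ0 : 0 < κ := zero_lt_one.trans_le hP.one_le
  have key := tail_int hb hlim ((i1.const_mul (κ ^ 2)).add i2)
    ((i3.add i4).const_mul (20000 / κ ^ 2)) fun r hr => by
      have hr' : R₀ < r := h1.trans hr
      have hr1 : 1 ≤ r := h0.trans hr'.le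
      have hr0 : 0 < r := by linarith
      have a1 := Lvl_pt (n := i) hP hr1 (Nat.cast_nonneg i) (by exact_mod_cast hi)
        (by simpa using hE r hr')
      have a2 := mul_le_mul_of_nonneg_left a1 (show 0 ≤ r ^ (4 * i) / r ^ 7 by positivity)
      simp only [Pi.add_apply]
      rw [mul_add (r ^ (4 * i) / r ^ 7) (2 * _)] at a2
      refine (le_of_eq ?_).trans (a2.trans (add_le_add_right (le_of_eq ?_) _))
      · field_simp
      · rw [mul_add 4 i 1, pow_add]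
        ring
  simp only [Pi.add_apply] at key
  rw [integral_add (i1.const_mul (κ ^ 2)) i2, integral_const_mul, integral_const_mul,
    integral_add i3 i4] at key
  refine key.trans (add_le_add ?_ ?_)
  · have hr1 : 1 ≤ R₁ := h0.trans h1.le
    have hr0 : 0 ≤ R₁ := h0'.trans h1.le
    refine (neg_le_abs _).trans ((hbd R₁ hr0).trans ?_)
    have a0 : R₁ ^ (4 * i) ≤ 5 ^ 12 :=
      (pow_le_pow_right₀ hr1 (by omega)).trans (pow_le_pow_left₀ hr0 h5 12)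
    have a1 : R₁ ^ (4 * i) / R₁ ^ 5 ≤ 5 ^ 12 :=
      (div_le_self (by positivity) (one_le_pow₀ hr1)).trans a0
    have a2 : R₁ ^ (4 * i) / R₁ ^ 6 ≤ 5 ^ 12 :=
      (div_le_self (by positivity) (one_le_pow₀ hr1)).trans a0
    have a3 : 0 ≤ ‖u R₁‖ * ‖deriv u R₁‖ := by positivity
    nlinarith [mul_le_mul_of_nonneg_right a1 a3, mul_le_mul_of_nonneg_right a2 (sq_nonneg ‖u R₁‖)]
  · have hr0 : 0 ≤ R₁ := h0'.trans h1.le
    gcongr
    · refine add_nonneg (setIntegral_nonneg measurableSet_Ioi fun r hr => ?_)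
        (setIntegral_nonneg measurableSet_Ioi fun r hr => ?_) <;>
      · have : 0 ≤ r := hr0.trans (le_of_lt hr)
        positivity
    · norm_num

end Crest.Agent.R086.Mb
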