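import Crest.Agent.R086.Mb.Sy
import Crest.Agent.R086.Mb.DAlg

/-! Row 86, part M-b: the integral inequalities of one level. -/

set_option autoImplicit false

open MeasureTheory Set Filter Topology
open scoped ComplexConjugate

namespace Crest.Agent.R086.Mb

/-- `intervalIntegral.integral_le_sub_of_hasDeriv_right_of_le` on `[R₁, X]`, `X → ∞` -/
theorem tail_int {R₁ : ℝ} {b b' φ ψ : ℝ → ℝ} (hb : ∀ r, R₁ ≤ r → HasDerivAt b (b' r) r)
    (hlim : Tendsto b atTop (𝓝 0)) (hφ : IntegrableOn φ (Ioi R₁)) (hψ : IntegrableOn ψ (Ioi R₁))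
    (h : ∀ r, R₁ < r → φ r ≤ b' r + ψ r) :
    ∫ r in Ioi R₁, φ r ≤ -b R₁ + ∫ r in Ioi R₁, ψ r := by
  have h1 := intervalIntegral_tendsto_integral_Ioi R₁ (hφ.sub hψ) tendsto_id
  have h2 : ∫ r in Ioi R₁, (φ - ψ) r ≤ 0 - b R₁ := by
    refine le_of_tendsto_of_tendsto h1 (hlim.sub_const _) ?_
    filter_upwards [eventually_ge_atTop R₁] with X hX
    refine intervalIntegral.integral_le_sub_of_hasDeriv_right_of_le hX
      (fun r hr => (hb r hr.1).continuousAt.continuousWithinAt)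
      (fun r hr => (hb r hr.1.le).hasDerivWithinAt) ?_ fun r hr => ?_
    · rw [integrableOn_Icc_iff_integrableOn_Ioc]
      exact (hφ.sub hψ).mono_set Ioc_subset_Ioi_self
    · have := h r hr.1
      simp only [Pi.sub_apply]
      linarith
  simp only [Pi.sub_apply] at h2
  rw [integral_sub hφ hψ] at h2
  linarith

/-- Level `4` (flux).  `b = -r¹¹ Im(ū u') - r¹² |u|²/4`, `b' = r¹¹ ((Re α + 1)|u|² + Re(ū Y))`. -/
theorem lvl_top : ∃ C : ℝ, 0 ≤ C ∧ ∀ {R₀ R₁ K : ℝ} {m : ℕ} {α : ℂ} {u Y : ℝ → ℂ}, 1 ≤ R₀ →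
    R₀ < R₁ → R₁ ≤ 5 → 0 ≤ α.re → Sy R₀ 2 8 K u → Eqn R₀ m (α + (4 : ℕ)) u Y →
      ∫ r in Ioi R₁, r ^ 11 * ‖u r‖ ^ 2 ≤
      C * (‖u R₁‖ ^ 2 + ‖u R₁‖ * ‖deriv u R₁‖) + ∫ r in Ioi R₁, r ^ 11 * ‖Y r‖ ^ 2 := by
  refine ⟨5 ^ 12, by positivity, fun {R₀ R₁ K m α u Y} h0 h1 h5 hα hu hE => ?_⟩
  have h0' : 0 ≤ R₀ := zero_le_one.trans h0
  have hu' : Sy R₀ 1 9 K (deriv u) := Sy.deriv (N := 1) hu
  obtain ⟨K₁, hD⟩ := Sy.DD (N := 0) hu h0' m
  obtain ⟨K₂, hY⟩ : ∃ K₂, Sy R₀ 0 8 K₂ Y := by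
    have a1 := (hD.mono_o h0 (show 8 ≤ 8 + 2 by norm_num)).const_mul Complex.I
    have a2 := (hu.mono_N (Nat.zero_le 2)).const_mul (-(α + (4 : ℕ)))
    have a3 := ((Sy.mul_r (o := 8) hu' h0').mono_N (Nat.zero_le 1)).const_mul (-(1 / 2))
    have a4 := (a1.mono_K h0' (le_add_of_nonneg_right (add_nonneg (a2.nonneg h0')
      (a3.nonneg h0')))).add (a2.mono_K h0' le_rfl)
    exact ⟨_, (a4.add a3).congr fun r hr => by linear_combination -hE r hr⟩
  have i1 : IntegrableOn (fun r : ℝ => r ^ 11 * ‖u r‖ ^ 2) (Ioi R₁) := by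
    simpa using int_sq (p := 11) (q := 0) hu.1.continuousOn (fun r hr => hu.bd hr) h0 h1.le
      (by norm_num)
  have i2 : IntegrableOn (fun r : ℝ => r ^ 11 * ‖Y r‖ ^ 2) (Ioi R₁) := by
    simpa using int_sq (p := 11) (q := 0) hY.1.continuousOn (fun r hr => hY.bd hr) h0 h1.le
      (by norm_num)
  let b : ℝ → ℝ := fun r => -2 * r ^ 11 * ((u r).re * (deriv u r).im - (u r).im * (deriv u r).re) -
    r ^ 12 * ((u r).re ^ 2 + (u r).im ^ 2) / 2
  have hbd : ∀ r, 0 ≤ r → |b r| ≤ 2 * r ^ 11 * (‖u r‖ * ‖deriv u r‖) + r ^ 12 * ‖u r‖ ^ 2 / 2 := by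
    intro r hr
    have a1 := Complex.abs_im_le_norm (conj (u r) * deriv u r)
    rw [norm_mul, Complex.norm_conj, Complex.mul_im, Complex.conj_re, Complex.conj_im, neg_mul,
      ← sub_eq_add_neg] at a1
    have a2 : (u r).re ^ 2 + (u r).im ^ 2 = ‖u r‖ ^ 2 := by
      rw [Complex.sq_norm, Complex.normSq_apply]
      ring
    simp only [b, a2]
    refine (abs_sub _ _).trans (add_le_add ?_ (le_of_eq (abs_of_nonneg (by positivity))))
    rw [abs_mul, neg_mul, abs_neg, abs_of_nonneg (by positivity)]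
    gcongr
  have hb : ∀ r, R₁ ≤ r → HasDerivAt b (2 * r ^ 11 * ((α.re + 1) * ((u r).re ^ 2 + (u r).im ^ 2) +
      ((u r).re * (Y r).re + (u r).im * (Y r).im))) r := fun r hr => by
    have hr' : R₀ < r := h1.trans_le hr
    have hr0 : r ≠ 0 := (h0'.trans_lt hr').ne'
    have d1 := hasDerivAt_of_contDiffOn hu.1 one_le_two hr'
    have d2 := hasDerivAt_deriv_of_contDiffOn hu.1 le_rfl hr'
    have e : deriv (deriv u) r = -Complex.I * ((α + (4 : ℝ)) * u r + ((r / 2 : ℝ) : ℂ) * deriv u r +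
        Y r) - ((11 / r : ℝ) : ℂ) * deriv u r + ((MM m / r ^ 2 : ℝ) : ℂ) * u r := by
      have := hE r hr'
      rw [deriv2_eq m]
      push_cast at this ⊢
      linear_combination (-Complex.I) * this + DD m u r * Complex.I_mul_I
    have p1 : HasDerivAt (fun r => (u r).re) (deriv u r).re r :=
      Complex.reCLM.hasFDerivAt.comp_hasDerivAt r d1
    have p2 : HasDerivAt (fun r => (u r).im) (deriv u r).im r :=
      Complex.imCLM.hasFDerivAt.comp_hasDerivAt r d1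
    have p3 : HasDerivAt (fun r => (deriv u r).re) (deriv (deriv u) r).re r :=
      Complex.reCLM.hasFDerivAt.comp_hasDerivAt r d2
    have p4 : HasDerivAt (fun r => (deriv u r).im) (deriv (deriv u) r).im r :=
      Complex.imCLM.hasFDerivAt.comp_hasDerivAt r d2
    have q := (((hasDerivAt_pow 11 r).const_mul (-2)).fun_mul
      ((p1.fun_mul p4).fun_sub (p2.fun_mul p3))).fun_sub
      (((hasDerivAt_pow 12 r).fun_mul ((p1.fun_pow 2).fun_add (p2.fun_pow 2))).div_const 2)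
    refine q.congr_deriv ?_
    rw [e]
    simp only [Complex.add_re, Complex.add_im, Complex.sub_re, Complex.sub_im, Complex.mul_re,
      Complex.mul_im, Complex.neg_re, Complex.neg_im, Complex.I_re, Complex.I_im, Complex.ofReal_re,
      Complex.ofReal_im]
    push_cast
    field_simp
    ring
  have hlim : Tendsto b atTop (𝓝 0) := by
    have hK := hu.nonneg h0'
    refine squeeze_zero_norm' ?_ (tendsto_const_nhds.div_atTop (a := 3 * K ^ 2) tendsto_id)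
    filter_upwards [eventually_gt_atTop R₀] with r hr
    have hr1 : 1 ≤ r := h0.trans hr.le
    have hr0 : 0 < r := by linarith
    have a1 := hu.bd hr
    have a2 := hu'.bd hr
    refine (hbd r hr0.le).trans ?_
    calc _ ≤ 2 * r ^ 11 * (K / r ^ 8 * (K / r ^ 9)) + r ^ 12 * (K / r ^ 8) ^ 2 / 2 := by gcongr
      _ = 2 * (K ^ 2 / r ^ 6) + K ^ 2 / r ^ 4 / 2 := by field_simp
      _ ≤ 2 * (K ^ 2 / r ^ 1) + K ^ 2 / r ^ 1 / 1 := by gcongr <;> norm_num
      _ = _ := by simp only [id]; ring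
  refine (tail_int hb hlim i1 i2 fun r hr => ?_).trans (add_le_add_left ?_ _)
  · have hr0 : 0 < r := (h0'.trans_lt h1).trans hr
    have a1 : 0 ≤ r ^ 11 * (2 * α.re * ((u r).re ^ 2 + (u r).im ^ 2) + ((u r).re + (Y r).re) ^ 2 +
        ((u r).im + (Y r).im) ^ 2) := by positivity
    simp only [Complex.sq_norm, Complex.normSq_apply]
    linarith
  · have hr0 : 0 ≤ R₁ := h0'.trans h1.le
    refine (neg_le_abs _).trans ((hbd R₁ hr0).trans ?_)
    have a1 : R₁ ^ 11 ≤ 5 ^ 11 := by gcongr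
    have a2 : R₁ ^ 12 ≤ 5 ^ 12 := by gcongr
    have a3 : 0 ≤ ‖u R₁‖ * ‖deriv u R₁‖ := by positivity
    nlinarith [mul_le_mul_of_nonneg_right a1 a3, mul_le_mul_of_nonneg_right a2 (sq_nonneg ‖u R₁‖),
      sq_nonneg ‖u R₁‖]

end Crest.Agent.R086.Mb
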