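import Crest.Agent.R086.Mb.RL
import Crest.Agent.R086.Mb.Spec

/-! Row 86, part M-b: case A, the pointwise inequality. -/

set_option autoImplicit false

open MeasureTheory Set Filter Topology
open scoped ComplexConjugate

namespace Crest.Agent.R086.Mb

theorem PtA_gap {h d κ τ T Ra r M Φ ν : ℝ} (hh : 0 < h) (hd : d = h / 1200) (hκ1 : 1 ≤ κ)
    (hκh : 750 ≤ κ * h) (hτ0 : 0 ≤ τ) (hτ1 : κ ^ 2 / 30 ≤ τ) (hT : τ ≤ T) (hRa : 1 ≤ Ra)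
    (hr : Ra + h ≤ r) (hM : M ≤ τ * Ra ^ 2) (hΦ0 : 0 ≤ Φ) (hΦ1 : Φ ≤ 7 * κ)
    (hΦ2 : Φ ^ 2 = r ^ 4 / 64 + T * r ^ 2 / 4) (hν0 : 0 ≤ ν) (hν1 : ν ≤ 3 * κ)
    (hν2 : ν ^ 2 = (M + 25) / 4) : d * κ ≤ Φ - ν := by
  have a1 : Ra ^ 2 + 2 * h ≤ r ^ 2 := by nlinarith
  have a2 : τ * (Ra ^ 2 + 2 * h) ≤ T * r ^ 2 := mul_le_mul hT a1 (by positivity) (hτ0.trans hT)
  have a3 : κ ^ 2 / 30 * h ≤ τ * h := by gcongr
  have a4 : 750 ≤ κ ^ 2 * h := by nlinarith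
  have a5 : 0 ≤ r ^ 4 := by positivity
  have a6 : κ ^ 2 * h / 120 ≤ Φ ^ 2 - ν ^ 2 := by rw [hΦ2, hν2]; linarith
  by_contra hlt
  have a7 : Φ - ν < d * κ := not_le.1 hlt
  have a8 : 0 < d * κ := by rw [hd]; positivity
  have a9 : (Φ - ν) * (Φ + ν) ≤ d * κ * (Φ + ν) := mul_le_mul_of_nonneg_right a7.le (by positivity)
  have a10 : d * κ * (Φ + ν) ≤ d * κ * (10 * κ) := by gcongr; linarith
  have a11 : d * κ * (10 * κ) = κ ^ 2 * h / 120 := by rw [hd]; ring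
  have a12 : 0 < Φ + ν := by
    rcases (add_nonneg hΦ0 hν0).eq_or_lt with h0 | h0
    · have : Φ ^ 2 - ν ^ 2 = (Φ - ν) * (Φ + ν) := by ring
      rw [this, ← h0] at a6; linarith
    · exact h0
  have a13 : (Φ - ν) * (Φ + ν) < d * κ * (Φ + ν) := mul_lt_mul_of_pos_right a7 a12
  have a14 : Φ ^ 2 - ν ^ 2 = (Φ - ν) * (Φ + ν) := by ring
  linarith

theorem PtA_core {d C₀ C₁ κ k f f' g g' s I τ r : ℝ} (hd : 0 < d) (hC₀ : 0 ≤ C₀) (hC₁ : 0 ≤ C₁)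
    (hk : 1 ≤ k) (hκ : κ = k ^ 2) (hf : 0 ≤ f) (hf' : 0 ≤ f') (hg : 0 ≤ g) (hg' : 0 ≤ g') (hs0 : 0 ≤ s)
    (hs : s ^ 2 = κ ^ 2 * f ^ 2 + f' ^ 2 + (κ ^ 2 * g ^ 2 + g' ^ 2)) (hτ1 : κ ^ 2 / 30 ≤ τ)
    (hτ2 : τ ≤ κ ^ 2) (hr1 : 1 ≤ r) (hr5 : r ≤ 5) (h1 : d * κ * g ^ 2 - C₀ * g * s / k ≤ r / 2 * I)
    (h2 : r / 2 * g' ≤ 10 * κ * g + C₀ * s / k) (h3 : τ * I ≤ (C₁ + 2) * s ^ 2 + τ * (f * f'))
    (hB : 2 * (801 * (30 / d) * (5 / 2 * (C₁ + 2) + C₀) + 8 * C₀ ^ 2) ≤ k) :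
    s ^ 2 ≤ 2 * (1 + 801 * (30 / d) * (5 / 4)) * (κ ^ 2 * f ^ 2 + f' ^ 2) := by
  have hk0 : 0 < k := by linarith
  have hkκ : k ≤ κ := by rw [hκ]; nlinarith
  have hκ0 : 0 < κ := by linarith
  have hτ0 : 0 ≤ τ := le_trans (by positivity) hτ1
  obtain ⟨E, hE⟩ : ∃ E, E = κ ^ 2 * f ^ 2 + f' ^ 2 := ⟨_, rfl⟩
  obtain ⟨u, hu⟩ : ∃ u, u = s ^ 2 / k := ⟨_, rfl⟩
  have hE0 : 0 ≤ E := by rw [hE]; positivity
  have hu0 : 0 ≤ u := by rw [hu]; positivity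
  have huk : s ^ 2 = u * k := by rw [hu]; field_simp
  rw [← hE] at hs ⊢
  have a1 : κ * g ≤ s := by
    refine (pow_le_pow_iff_left₀ (by positivity) hs0 two_ne_zero).1 ?_
    rw [hs, mul_pow]; have := sq_nonneg g'; linarith
  have a2 : τ * (f * f') ≤ κ * (E / 2) := by
    have b1 := two_mul_le_add_sq (κ * f) f'
    calc τ * (f * f') ≤ κ ^ 2 * (f * f') := by gcongr
      _ = κ * ((2 * (κ * f) * f') / 2) := by ring
      _ ≤ κ * (((κ * f) ^ 2 + f' ^ 2) / 2) := by gcongr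
      _ = κ * (E / 2) := by rw [hE]; ring
  have a3 : s ^ 2 ≤ κ * u := by rw [huk, mul_comm]; gcongr
  have a4 : τ * (r / 2 * I) ≤ 5 / 2 * ((C₁ + 2) * (κ * u) + κ * (E / 2)) := by
    have b1 : τ * I ≤ (C₁ + 2) * (κ * u) + κ * (E / 2) :=
      h3.trans (add_le_add (by gcongr) a2)
    calc τ * (r / 2 * I) = r / 2 * (τ * I) := by ring
      _ ≤ r / 2 * ((C₁ + 2) * (κ * u) + κ * (E / 2)) := by gcongr
      _ ≤ _ := by gcongr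
  have a5 : τ * (C₀ * g * s / k) ≤ κ * (C₀ * u) := by
    calc τ * (C₀ * g * s / k) ≤ κ ^ 2 * (C₀ * g * s / k) := by gcongr
      _ = κ * (C₀ * (κ * g * s / k)) := by ring
      _ ≤ κ * (C₀ * (s * s / k)) := by gcongr
      _ = κ * (C₀ * u) := by rw [hu]; ring
  have a6 : κ ^ 2 / 30 * (d * κ * g ^ 2) ≤ τ * (d * κ * g ^ 2) := by gcongr
  have a7 := mul_le_mul_of_nonneg_left h1 hτ0
  have a8 : κ * (d / 30 * (κ ^ 2 * g ^ 2)) ≤ κ * (5 / 4 * E + (5 / 2 * (C₁ + 2) + C₀) * u) := by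
    have x1 : κ * (d / 30 * (κ ^ 2 * g ^ 2)) = κ ^ 2 / 30 * (d * κ * g ^ 2) := by ring
    have x2 : κ * (5 / 4 * E + (5 / 2 * (C₁ + 2) + C₀) * u) =
      5 / 2 * ((C₁ + 2) * (κ * u) + κ * (E / 2)) + κ * (C₀ * u) := by ring
    rw [mul_sub] at a7
    rw [x1, x2]; linarith
  have a9 : κ ^ 2 * g ^ 2 ≤ 30 / d * (5 / 4 * E + (5 / 2 * (C₁ + 2) + C₀) * u) := by
    have b1 := le_of_mul_le_mul_left a8 hκ0
    calc κ ^ 2 * g ^ 2 = 30 / d * (d / 30 * (κ ^ 2 * g ^ 2)) := by field_simp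
      _ ≤ _ := by gcongr
  have a10 : g' ^ 2 ≤ 800 * (κ ^ 2 * g ^ 2) + 8 * C₀ ^ 2 * u := by
    have b1 : 1 / 2 * g' ≤ r / 2 * g' := by gcongr
    have b2 : g' ≤ 20 * (κ * g) + 2 * (C₀ * s / k) := by linarith
    have b3 := pow_le_pow_left₀ hg' b2 2
    have b4 : (20 * (κ * g) + 2 * (C₀ * s / k)) ^ 2 =
      800 * (κ ^ 2 * g ^ 2) + 8 * (C₀ * s / k) ^ 2 - (20 * (κ * g) - 2 * (C₀ * s / k)) ^ 2 := by ring
    have b5 := sq_nonneg (20 * (κ * g) - 2 * (C₀ * s / k))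
    have b6 : (C₀ * s / k) ^ 2 ≤ C₀ ^ 2 * u := by
      calc (C₀ * s / k) ^ 2 = C₀ ^ 2 * (u / k) := by rw [hu]; ring
        _ ≤ C₀ ^ 2 * u := by gcongr; exact div_le_self hu0 hk
    linarith
  have a11 := mul_le_mul_of_nonneg_left hB hu0
  rw [← huk] at a11
  have x1 : u * (2 * (801 * (30 / d) * (5 / 2 * (C₁ + 2) + C₀) + 8 * C₀ ^ 2)) =
    2 * (801 * (30 / d * ((5 / 2 * (C₁ + 2) + C₀) * u))) + 2 * (8 * C₀ ^ 2 * u) := by ring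
  have x2 : 2 * (1 + 801 * (30 / d) * (5 / 4)) * E = 2 * E + 2 * (801 * (30 / d * (5 / 4 * E))) := by
    ring
  rw [mul_add] at a9
  rw [x1] at a11
  rw [x2]
  linarith

/-- `τ = Im λ ≥ κ²/30`, `T = -Im α' ≥ τ`, `Φ² - ν² ≥ τ h/2 - 25/4` (`Ph_sq`, `nu_sq`), `Φ + ν ≤ 10κ`, so
`Φ - ν ≥ c h κ`.  `rl0`: `(r/2) Im(Ḡ G') ≥ (Φ - ν)|G|² - C e/κ^{3/2}` (`|G| ≤ √e/κ`) and
`|G'|² ≤ C κ²|G|² + C e/κ`.  The hypothesis gives `τ Im(Ḡ G') ≤ (C₁ + 7) e + τ|F||F'|`.  Hence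
`κ²|G|² ≤ C (e/√κ + en F)`, `e ≤ C en F + C e/√κ`. -/
theorem ptA {h C₁ : ℝ} (hh : 0 < h) (hC : 0 ≤ C₁) : ∃ ε₀ κ₀ C : ℝ, 0 < ε₀ ∧ 0 ≤ C ∧
    ∀ {R₀ Ra ε κ r : ℝ} {m : ℕ} {lam α α' : ℂ} {F G : ℝ → ℂ},
    Sys R₀ ε m α α' F G (fun _ => 0) (fun _ => 0) → ε ≤ ε₀ → Spec m lam α α' κ → κ₀ ≤ κ →
    R₀ ≤ Ra → Ra + h ≤ r → r ≤ 5 → MM m ≤ lam.im * Ra ^ 2 →
    -(lam * (F r * conj (deriv F r) + conj (G r) * deriv G r)).re ≤ C₁ * (en κ F r + en κ G r) →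
      en κ F r + en κ G r ≤ C * en κ F r := by
  obtain ⟨ε₀, C₀, hε₀, hC₀, hrl⟩ := rl0 (c₀ := 1 / 30) (by norm_num)
  obtain ⟨d, hd⟩ : ∃ d : ℝ, d = h / 1200 := ⟨_, rfl⟩
  have hd0 : 0 < d := by rw [hd]; positivity
  obtain ⟨B, hB⟩ : ∃ B : ℝ, B = 801 * (30 / d) * (5 / 2 * (C₁ + 2) + C₀) + 8 * C₀ ^ 2 := ⟨_, rfl⟩
  have hB0 : 0 ≤ B := by rw [hB]; positivity
  refine ⟨ε₀, max (max 3 (750 / h)) ((2 * B) ^ 2), 2 * (1 + 801 * (30 / d) * (5 / 4)), hε₀,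
    by positivity, ?_⟩
  intro R₀ Ra ε κ r m lam α α' F G hS hε hsp hκ hR hr hr5 hM hyp
  have hκ3 : 3 ≤ κ := ((le_max_left _ _).trans (le_max_left _ _)).trans hκ
  have hκh : 750 ≤ κ * h := (div_le_iff₀ hh).1 (((le_max_right _ _).trans (le_max_left _ _)).trans hκ)
  have hκB : 2 * B ≤ Real.sqrt κ := Real.le_sqrt_of_sq_le ((le_max_right _ _).trans hκ)
  have hκ1 : 1 ≤ κ := by linarith
  have hRa : 1 ≤ Ra := hS.one_le.trans hR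
  have hM0 := MM_nonneg m
  have hτ0 : 0 ≤ lam.im := by
    by_contra hneg
    have := mul_neg_of_neg_of_pos (not_le.1 hneg) (by positivity : 0 < Ra ^ 2)
    linarith
  have hsq : κ ^ 2 = 1 + lam.im + MM m := by rw [hsp.sq, bet, abs_of_nonneg hτ0]
  have hRa5 : Ra ^ 2 ≤ 25 := by nlinarith
  have hM' : MM m ≤ 25 * lam.im := by nlinarith
  have hτ1 : κ ^ 2 / 30 ≤ lam.im := by nlinarith
  have hτ2 : lam.im ≤ κ ^ 2 := by linarith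
  obtain ⟨-, -, hT1, hT2⟩ := hsp.im
  have hr1 : 1 ≤ r := by linarith
  have hw := hrl (r := r) hS hε hsp.par hsp.par' (by linarith) (by linarith) hr5
  have hΦ0 : 0 ≤ Ph (-α'.im) r := Ph_nonneg (by linarith)
  have hΦ1 : Ph (-α'.im) r ≤ 7 * κ := Ph_le hκ1 (by nlinarith) (by linarith) hr5
  have hΦ2 := Ph_sq (T := -α'.im) (r := r) (by linarith)
  have hν0 : 0 ≤ nu m := by unfold nu; positivity
  have hν1 : nu m ≤ 3 * κ := nu_le hκ1 hsp.par.M_le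
  have hgap : d * κ ≤ Ph (-α'.im) r - nu m :=
    PtA_gap hh hd hκ1 hκh hτ0 hτ1 (by linarith) hRa hr hM hΦ0 hΦ1 hΦ2 hν0 hν1 (nu_sq m)
  set Φ := Ph (-α'.im) r with hΦ
  set s := Real.sqrt (en κ F r + en κ G r) with hs
  have he0 : 0 ≤ en κ F r + en κ G r := by unfold en; positivity
  have hs2 : s ^ 2 = en κ F r + en κ G r := Real.sq_sqrt he0
  have hs0 : 0 ≤ s := Real.sqrt_nonneg _
  have hk1 : 1 ≤ Real.sqrt κ := Real.one_le_sqrt.2 hκ1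
  set w : ℂ := (r : ℂ) / 2 * deriv G r - Complex.I * (Φ : ℂ) * G r with hwdef
  have hg0 := norm_nonneg (G r)
  have h1 : d * κ * ‖G r‖ ^ 2 - C₀ * ‖G r‖ * s / Real.sqrt κ ≤ r / 2 * (conj (G r) * deriv G r).im := by
    have e : r / 2 * (conj (G r) * deriv G r).im = (conj (G r) * w).im + Φ * ‖G r‖ ^ 2 := by
      rw [hwdef, Complex.sq_norm, Complex.normSq_apply]
      simp
      ring
    have a1 : |(conj (G r) * w).im| ≤ ‖G r‖ * (nu m * ‖G r‖ + C₀ * s / Real.sqrt κ) := by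
      refine (Complex.abs_im_le_norm _).trans ?_
      rw [norm_mul, Complex.norm_conj]
      exact mul_le_mul_of_nonneg_left hw hg0
    have a2 := (abs_le.1 a1).1
    have a3 := mul_le_mul_of_nonneg_right hgap (sq_nonneg ‖G r‖)
    have a4 : ‖G r‖ * (nu m * ‖G r‖ + C₀ * s / Real.sqrt κ) =
      nu m * ‖G r‖ ^ 2 + C₀ * ‖G r‖ * s / Real.sqrt κ := by ring
    rw [e]; linarith
  have h2 : r / 2 * ‖deriv G r‖ ≤ 10 * κ * ‖G r‖ + C₀ * s / Real.sqrt κ := by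
    have e : (r : ℂ) / 2 * deriv G r = w + Complex.I * (Φ : ℂ) * G r := by rw [hwdef]; ring
    have a1 : ‖(r : ℂ) / 2 * deriv G r‖ = r / 2 * ‖deriv G r‖ := by
      rw [norm_mul, norm_div, Complex.norm_real, Real.norm_of_nonneg (by linarith), Complex.norm_two]
    have a2 : ‖Complex.I * (Φ : ℂ) * G r‖ = Φ * ‖G r‖ := by
      rw [norm_mul, norm_mul, Complex.norm_I, one_mul, Complex.norm_real, Real.norm_of_nonneg hΦ0]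
    have a3 := norm_add_le w (Complex.I * (Φ : ℂ) * G r)
    rw [← e, a1, a2] at a3
    have a4 := mul_le_mul_of_nonneg_right hΦ1 hg0
    have a5 := mul_le_mul_of_nonneg_right hν1 hg0
    linarith
  have h3 : lam.im * (conj (G r) * deriv G r).im ≤ (C₁ + 2) * s ^ 2 + lam.im * (‖F r‖ * ‖deriv F r‖) := by
    have nF : ‖F r * conj (deriv F r)‖ = ‖F r‖ * ‖deriv F r‖ := by rw [norm_mul, Complex.norm_conj]
    have nG : ‖conj (G r) * deriv G r‖ = ‖G r‖ * ‖deriv G r‖ := by rw [norm_mul, Complex.norm_conj]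
    have a1 := (abs_le.1 ((Complex.abs_im_le_norm _).trans nF.le)).1
    have a2 := (abs_le.1 ((Complex.abs_re_le_norm _).trans nF.le)).2
    have a3 := (abs_le.1 ((Complex.abs_re_le_norm _).trans nG.le)).2
    have a4 : ‖F r‖ * ‖deriv F r‖ + ‖G r‖ * ‖deriv G r‖ ≤ s ^ 2 / 2 := by
      rw [hs2]; unfold en
      have b1 : ‖F r‖ ^ 2 ≤ κ ^ 2 * ‖F r‖ ^ 2 := le_mul_of_one_le_left (sq_nonneg _) (one_le_pow₀ hκ1)
      have b2 : ‖G r‖ ^ 2 ≤ κ ^ 2 * ‖G r‖ ^ 2 := le_mul_of_one_le_left (sq_nonneg _) (one_le_pow₀ hκ1)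
      have b3 := two_mul_le_add_sq ‖F r‖ ‖deriv F r‖
      have b4 := two_mul_le_add_sq ‖G r‖ ‖deriv G r‖
      linarith
    have a5 : lam.re * ((F r * conj (deriv F r)).re + (conj (G r) * deriv G r).re) ≤ 2 * s ^ 2 := by
      have b1 := mul_le_mul_of_nonneg_left ((add_le_add a2 a3).trans a4) hsp.re0
      have b2 := mul_le_mul_of_nonneg_right hsp.re1 (by positivity : 0 ≤ s ^ 2 / 2)
      have := sq_nonneg s
      linarith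
    have a6 := mul_le_mul_of_nonneg_left a1 hτ0
    rw [Complex.mul_re, Complex.add_re, Complex.add_im, ← hs2] at hyp
    linarith
  rw [← hs2]
  exact PtA_core hd0 hC₀ hC hk1 (Real.sq_sqrt (by linarith)).symm (norm_nonneg _) (norm_nonneg _) hg0
    (norm_nonneg _) hs0 hs2 hτ1 hτ2 hr1 hr5 h1 h2 h3 (hB ▸ hκB)

end Crest.Agent.R086.Mb
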