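import Crest.Agent.R086.Mb.Rad
import Crest.Agent.R086.Mb.Out

/-! Row 86, part M-b: the radiation condition at level zero. -/

set_option autoImplicit false

open MeasureTheory Set Filter Topology
open scoped ComplexConjugate

namespace Crest.Agent.R086.Mb

theorem Ph_nonneg {T r : ℝ} (hr : 0 ≤ r) : 0 ≤ Ph T r := by unfold Ph; positivity

theorem Ph_sq {T r : ℝ} (hT : 0 ≤ T) : Ph T r ^ 2 = r ^ 4 / 64 + T * r ^ 2 / 4 := by
  rw [Ph, mul_pow, Real.sq_sqrt (by positivity)]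
  ring

theorem Ph_le {T r κ : ℝ} (hκ : 1 ≤ κ) (hT : T ≤ 5 * κ ^ 2) (hr : 0 ≤ r) (hr' : r ≤ 5) :
    Ph T r ≤ 7 * κ := by
  have h1 : r ^ 2 ≤ 25 := by nlinarith
  have h2 : Real.sqrt (r ^ 2 / 16 + T) ≤ 14 / 5 * κ :=
    Real.sqrt_le_iff.2 ⟨by positivity, by nlinarith⟩
  have h3 := mul_le_mul (by linarith : r / 2 ≤ 5 / 2) h2 (Real.sqrt_nonneg _) (by norm_num)
  rw [Ph]
  linarith

theorem nu_le {m : ℕ} {κ : ℝ} (hκ : 1 ≤ κ) (hM : MM m ≤ κ ^ 2) : nu m ≤ 3 * κ := by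
  refine (abs_le_of_sq_le_sq' ?_ (by positivity)).2
  rw [nu_sq]
  nlinarith

/-- `rad4` for `u = G₄`, `Y = X 4` (`exists_lev`, `Lev.sq_top`, `outer0`: `∫ r¹³|X₄|² ≤ C κ¹⁵ e`), then
`ladder` with `s = √e/κ` and `‖α'‖⁴ ≥ c₀⁴ κ⁸`. -/
theorem rl0 {c₀ : ℝ} (hc : 0 < c₀) : ∃ ε₀ C : ℝ, 0 < ε₀ ∧ 0 ≤ C ∧ ∀ {R₀ ε κ r : ℝ} {m : ℕ}
    {α α' : ℂ} {F G : ℝ → ℂ}, Sys R₀ ε m α α' F G (fun _ => 0) (fun _ => 0) → ε ≤ ε₀ → Par m α κ →
    Par m α' κ → c₀ * κ ^ 2 ≤ -α'.im → R₀ < r → r ≤ 5 →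
      ‖(r : ℂ) / 2 * deriv G r - Complex.I * (Ph (-α'.im) r : ℂ) * G r‖ ≤
        nu m * ‖G r‖ + C * Real.sqrt (en κ F r + en κ G r) / Real.sqrt κ := by
  obtain ⟨Ce, hCe, hlev⟩ := exists_lev
  obtain ⟨ε₀, Co, hε₀, hε₁, hCo, hout⟩ := outer0
  obtain ⟨CL, hCL, hlad⟩ := ladder
  refine ⟨ε₀, 12 + (25 * CL + 4 * Real.sqrt (18 * Ce ^ 2 * Co)) / c₀ ^ 4, hε₀, by positivity, ?_⟩
  intro R₀ ε κ r m α α' F G hS hε hP hP' hT hr hr5
  have hR := hS.one_le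
  have hκ := hP.one_le
  have hκ0 : 0 < κ := by linarith
  have hr0 : 0 ≤ r := by linarith
  have hε0 : 0 ≤ ε := hS.hG.nonneg (by linarith)
  obtain ⟨X, hX⟩ := hlev hR hκ hP.M_le hS.aG hS.aF hS.aeG hS.hG
  obtain ⟨K, hK⟩ := hS.aG.lv (by linarith) m (j := 4) (by norm_num)
  have he := hX.eqn 4 le_rfl
  simp only [lv_zero_fun, add_zero] at he
  have iG := hS.aG.int_dens hR hr.le κ m
  have iF := hS.aF.int_dens hR hr.le κ m
  have hb : ∀ t ∈ Ioi r, t ^ 13 * ‖X 4 t‖ ^ 2 ≤ 18 * (Ce * ε) ^ 2 * (dens κ m G t + dens κ m F t) :=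
    fun t ht => hX.sq_top hR hκ (hr.trans ht)
  have iD : IntegrableOn (fun t => 18 * (Ce * ε) ^ 2 * (dens κ m G t + dens κ m F t)) (Ioi r) :=
    (iG.add iF).const_mul _
  have iX : IntegrableOn (fun t : ℝ => t ^ 13 * ‖X 4 t‖ ^ 2) (Ioi r) := by
    refine iD.mono' (ContinuousOn.aestronglyMeasurable ((continuousOn_pow 13).mul
      (((hX.cont 4 le_rfl).mono (Ioi_subset_Ioi hr.le)).norm.pow 2)) measurableSet_Ioi) ?_
    refine (ae_restrict_iff' measurableSet_Ioi).2 (Eventually.of_forall fun t ht => ?_)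
    have : 0 ≤ t := hr0.trans (le_of_lt ht)
    rw [Real.norm_of_nonneg (by positivity)]
    exact hb t ht
  have hT0 : 0 < c₀ * κ ^ 2 := by positivity
  have h4 := rad4 hR hr (hK.mono_N (by norm_num)) he (by simpa using hP'.re0)
    (by have := hP'.re1; simp only [Complex.add_re, Complex.natCast_re]; push_cast; linarith)
    (by simp only [Complex.add_im, Complex.natCast_im]; linarith) iX
  simp only [Complex.add_im, Complex.natCast_im, add_zero] at h4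
  obtain ⟨e, hee⟩ : ∃ e, e = en κ F r + en κ G r := ⟨_, rfl⟩
  have he0 : 0 ≤ e := by rw [hee, en, en]; positivity
  obtain ⟨j1, j2⟩ := jet_en (r := r) hκ m F G
  have ho := (hout hS hε hP hP' hr hr5).1
  rw [← hee] at j1 j2 ho ⊢
  have hs0 : 0 ≤ Real.sqrt e / κ := by positivity
  obtain ⟨-, l1, l2⟩ := hlad hS (hε.trans hε₁) hP hP' hr hr5 j1 j2
    fun j _ => ⟨jet_zero_fun hκ0.le hs0 m j, jet_zero_fun hκ0.le hs0 m j⟩
  obtain ⟨w, hw⟩ : ∃ w, w = Real.sqrt e / Real.sqrt κ := ⟨_, rfl⟩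
  have hw0 : 0 ≤ w := by rw [hw]; positivity
  have hsw : Real.sqrt e / κ ≤ w := by
    rw [hw]
    refine div_le_div_of_nonneg_left (Real.sqrt_nonneg _) (Real.sqrt_pos.2 hκ0) ?_
    exact Real.sqrt_le_iff.2 ⟨hκ0.le, by nlinarith⟩
  have hG : ‖G r‖ ≤ w := by
    have := j2.1
    simp only [lv, Function.iterate_zero, id, mul_zero, pow_zero, one_mul] at this
    exact this.trans hsw
  have hI : Real.sqrt (∫ t in Ioi r, t ^ 13 * ‖X 4 t‖ ^ 2) ≤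
      Real.sqrt (18 * Ce ^ 2 * Co) * (κ ^ 8 * w) := by
    refine Real.sqrt_le_iff.2 ⟨by positivity, ?_⟩
    refine (setIntegral_mono_on iX iD measurableSet_Ioi hb).trans ?_
    rw [integral_const_mul, integral_add iG iF, add_comm, mul_pow, mul_pow, mul_pow,
      Real.sq_sqrt (by positivity), hw, div_pow, Real.sq_sqrt he0, Real.sq_sqrt hκ0.le]
    have a1 : ε ^ 2 ≤ 1 := pow_le_one₀ hε0 (hε.trans hε₁)
    have a2 : 18 * (Ce ^ 2 * ε ^ 2) ≤ 18 * Ce ^ 2 := by nlinarith [sq_nonneg Ce]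
    have a3 : 0 ≤ (∫ t in Ioi r, dens κ m F t) + ∫ t in Ioi r, dens κ m G t :=
      add_nonneg (setIntegral_nonneg measurableSet_Ioi fun t ht =>
        dens_nonneg κ m F (hr0.trans (le_of_lt ht)))
        (setIntegral_nonneg measurableSet_Ioi fun t ht => dens_nonneg κ m G (hr0.trans (le_of_lt ht)))
    refine (mul_le_mul a2 ho a3 (by positivity)).trans (le_of_eq ?_)
    field_simp
  have him : -α'.im ≤ ‖α'‖ := (neg_le_abs _).trans (Complex.abs_im_le_norm _)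
  have hPh := Ph_le hκ (him.trans hP'.norm_le) hr0 hr5
  have hPh0 : 0 ≤ Ph (-α'.im) r := Ph_nonneg hr0
  have hν := nu_le hκ hP.M_le
  have hν0 : 0 ≤ nu m := by rw [nu]; positivity
  have ha : c₀ ^ 4 * κ ^ 8 ≤ ‖α' ^ 4‖ := by
    rw [norm_pow]
    exact (le_of_eq (by ring)).trans (pow_le_pow_left₀ hT0.le (hT.trans him) 4)
  have ha0 : 0 < ‖α' ^ 4‖ := lt_of_lt_of_le (by positivity) ha
  have m1 : ‖lv m G 4 r - α' ^ 4 * G r‖ ≤ CL * (κ ^ 7 * w) := l1.trans (by gcongr)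
  have m2 : ‖deriv (lv m G 4) r - α' ^ 4 * deriv G r‖ ≤ CL * (κ ^ 8 * w) := l2.trans (by gcongr)
  have m3 : ‖lv m G 4 r‖ ≤ ‖α' ^ 4‖ * ‖G r‖ + CL * (κ ^ 7 * w) := by
    have := norm_add_le (α' ^ 4 * G r) (lv m G 4 r - α' ^ 4 * G r)
    rw [add_sub_cancel, norm_mul] at this
    linarith
  have m4 : ‖α' ^ 4‖ * ‖(r : ℂ) / 2 * deriv G r - Complex.I * (Ph (-α'.im) r : ℂ) * G r‖ ≤
      ‖(r : ℂ) / 2 * deriv (lv m G 4) r - Complex.I * (Ph (-α'.im) r : ℂ) * lv m G 4 r‖ +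
        5 / 2 * (CL * (κ ^ 8 * w)) + 7 * κ * (CL * (κ ^ 7 * w)) := by
    have e1 : α' ^ 4 * ((r : ℂ) / 2 * deriv G r - Complex.I * (Ph (-α'.im) r : ℂ) * G r) =
        ((r : ℂ) / 2 * deriv (lv m G 4) r - Complex.I * (Ph (-α'.im) r : ℂ) * lv m G 4 r) -
          ((r / 2 : ℝ) : ℂ) * (deriv (lv m G 4) r - α' ^ 4 * deriv G r) +
          Complex.I * (Ph (-α'.im) r : ℂ) * (lv m G 4 r - α' ^ 4 * G r) := by
      push_cast; ring
    rw [← norm_mul, e1]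
    refine (norm_add_le _ _).trans (add_le_add ((norm_sub_le _ _).trans (add_le_add le_rfl ?_)) ?_)
    · rw [norm_mul, Complex.norm_real, Real.norm_of_nonneg (by positivity)]
      exact mul_le_mul (by linarith) m2 (norm_nonneg _) (by norm_num)
    · rw [norm_mul, norm_mul, Complex.norm_I, one_mul, Complex.norm_real, Real.norm_of_nonneg hPh0]
      exact mul_le_mul hPh m1 (norm_nonneg _) (by positivity)
  have m5 : (nu m + 8 + r ^ 2 / 8) * ‖lv m G 4 r‖ ≤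
      (nu m + 12) * (‖α' ^ 4‖ * ‖G r‖ + CL * (κ ^ 7 * w)) :=
    mul_le_mul (by nlinarith) m3 (norm_nonneg _) (by positivity)
  have m6 : (nu m + 12) * (CL * (κ ^ 7 * w)) ≤ 15 * κ * (CL * (κ ^ 7 * w)) :=
    mul_le_mul_of_nonneg_right (by linarith) (by positivity)
  have m7 := mul_le_mul_of_nonneg_left hG ha0.le
  obtain ⟨B, hB⟩ : ∃ B, B = (25 * CL + 4 * Real.sqrt (18 * Ce ^ 2 * Co)) / c₀ ^ 4 := ⟨_, rfl⟩
  have hB0 : 0 ≤ B := by rw [hB]; positivity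
  have m8 : (25 * CL + 4 * Real.sqrt (18 * Ce ^ 2 * Co)) * (κ ^ 8 * w) ≤ ‖α' ^ 4‖ * (B * w) := by
    refine le_trans (le_of_eq ?_) (mul_le_mul_of_nonneg_right ha (mul_nonneg hB0 hw0))
    rw [hB]; field_simp
  have m9 : 0 ≤ CL * (κ ^ 8 * w) := by positivity
  rw [mul_div_assoc, ← hw, ← hB]
  refine le_of_mul_le_mul_left ?_ ha0
  linarith

end Crest.Agent.R086.Mb
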