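import Crest.Agent.R086.Mb.Lvl0

/-! Row 86, part M-b: the radiation lemma at level four. -/

set_option autoImplicit false

open MeasureTheory Set Filter Topology
open scoped ComplexConjugate

namespace Crest.Agent.R086.Mb

theorem rad_normSq {f : ℝ → ℂ} {f' : ℂ} {x : ℝ} (h : HasDerivAt f f' x) :
    HasDerivAt (fun y => ‖f y‖ ^ 2) (2 * (conj (f x) * f').re) x := by
  have := h.norm_sq
  rwa [Complex.inner, mul_comm f'] at this

/-- `S = √(r²/16 + T)` -/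
noncomputable def radS (T r : ℝ) : ℝ := Real.sqrt (r ^ 2 / 16 + T)
/-- `s = r/(4S)` -/
noncomputable def rads (T r : ℝ) : ℝ := r / (4 * radS T r)
/-- `c = (1 + s²)/4 + g s` -/
noncomputable def radc (T g r : ℝ) : ℝ := (1 + rads T r ^ 2) / 4 + g * rads T r

theorem radS_sq {T r : ℝ} (hT : 0 ≤ T) : radS T r ^ 2 = r ^ 2 / 16 + T :=
  Real.sq_sqrt (by positivity)

theorem radS_pos {T r : ℝ} (hT : 0 ≤ T) (hr : 0 < r) : 0 < radS T r :=
  Real.sqrt_pos.2 (by positivity)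

theorem rads_mem {T r : ℝ} (hT : 0 ≤ T) (hr : 0 < r) : 0 < rads T r ∧ rads T r ≤ 1 := by
  have h := radS_pos hT hr
  refine ⟨by unfold rads; positivity, ?_⟩
  unfold rads
  rw [div_le_one (by positivity)]
  have : r / 4 ≤ radS T r := Real.le_sqrt_of_sq_le (by nlinarith)
  linarith

theorem radS_deriv {T r : ℝ} (hT : 0 ≤ T) (hr : 0 < r) :
    HasDerivAt (radS T) (rads T r / 4) r := by
  have h := radS_pos hT hr
  have h1 : HasDerivAt (fun x : ℝ => x ^ 2 / 16 + T) (2 * r / 16) r := by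
    simpa using ((hasDerivAt_pow 2 r).div_const 16).add_const T
  have h2 := h1.sqrt (by positivity)
  refine HasDerivAt.congr_deriv h2 ?_
  change 2 * r / 16 / (2 * radS T r) = r / (4 * radS T r) / 4
  field_simp
  ring

theorem rads_deriv {T r : ℝ} (hT : 0 ≤ T) (hr : 0 < r) :
    HasDerivAt (rads T) (rads T r * (1 - rads T r ^ 2) / r) r := by
  have h := radS_pos hT hr
  have h2 := (hasDerivAt_id' r).div ((radS_deriv hT hr).const_mul 4) (by positivity)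
  refine HasDerivAt.congr_deriv h2 ?_
  unfold rads
  field_simp

theorem radc_deriv {T r : ℝ} (g : ℝ) (hT : 0 ≤ T) (hr : 0 < r) :
    HasDerivAt (radc T g) ((rads T r / 2 + g) * (rads T r * (1 - rads T r ^ 2) / r)) r := by
  have h := rads_deriv hT hr
  have h2 := (((h.pow 2).const_add 1).div_const 4).add (h.const_mul g)
  refine HasDerivAt.congr_deriv h2 ?_
  simp; ring

theorem radPh_deriv {T r : ℝ} (hT : 0 ≤ T) (hr : 0 < r) :
    HasDerivAt (Ph T) (Ph T r * (1 + rads T r ^ 2) / r) r := by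
  have h := radS_pos hT hr
  have h2 := ((hasDerivAt_id' r).div_const 2).mul (radS_deriv hT hr)
  refine HasDerivAt.congr_deriv h2 ?_
  change _ = r / 2 * radS T r * (1 + rads T r ^ 2) / r
  unfold rads
  field_simp

/-- the lower bound for `Ψ'` -/
theorem rad_alg {r c ν dev w₁ w₂ : ℝ} {u d Y u' d' : ℂ} (hr : 0 < r) (hc : 1 / 4 ≤ c) (hν : 0 ≤ ν)
    (hdev : |dev| ≤ 1.96 * c * ν)
    (hu : (r : ℂ) / 2 * u' = d - ((5 / 2 + c : ℝ) + Complex.I * w₂) * u)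
    (hd : (r : ℂ) / 2 * d' = ((ν ^ 2 + dev : ℝ) : ℂ) * u - ((5 / 2 - c : ℝ) + Complex.I * w₁) * d -
      Complex.I * ((r ^ 2 / 4 : ℝ) : ℂ) * Y) :
    0 ≤ 10 * r ^ 9 * (‖d‖ ^ 2 - ν ^ 2 * ‖u‖ ^ 2) +
      r ^ 10 * (2 * (conj d * d').re - ν ^ 2 * (2 * (conj u * u').re)) + 12.5 * (r ^ 13 * ‖Y‖ ^ 2) := by
  have e1 : r / 2 * (conj u * u').re = (conj d * u).re - (5 / 2 + c) * ‖u‖ ^ 2 := by
    have : r / 2 * (conj u * u').re = (conj u * ((r : ℂ) / 2 * u')).re := by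
      simp only [Complex.mul_re, Complex.mul_im, Complex.conj_re, Complex.conj_im, Complex.div_ofNat_re,
        Complex.div_ofNat_im, Complex.ofReal_re, Complex.ofReal_im]
      ring
    rw [this, hu, Complex.sq_norm, Complex.normSq_apply]
    simp only [Complex.mul_re, Complex.mul_im, Complex.conj_re, Complex.conj_im, Complex.sub_re,
      Complex.sub_im, Complex.add_re, Complex.add_im, Complex.ofReal_re, Complex.ofReal_im,
      Complex.I_re, Complex.I_im]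
    ring
  have e2 : r / 2 * (conj d * d').re = (ν ^ 2 + dev) * (conj d * u).re - (5 / 2 - c) * ‖d‖ ^ 2 +
      r ^ 2 / 4 * (conj d * Y).im := by
    have : r / 2 * (conj d * d').re = (conj d * ((r : ℂ) / 2 * d')).re := by
      simp only [Complex.mul_re, Complex.mul_im, Complex.conj_re, Complex.conj_im, Complex.div_ofNat_re,
        Complex.div_ofNat_im, Complex.ofReal_re, Complex.ofReal_im]
      ring
    rw [this, hd, Complex.sq_norm, Complex.normSq_apply]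
    simp only [Complex.mul_re, Complex.mul_im, Complex.conj_re, Complex.conj_im, Complex.sub_re,
      Complex.sub_im, Complex.add_re, Complex.add_im, Complex.ofReal_re, Complex.ofReal_im,
      Complex.I_re, Complex.I_im]
    ring
  have b1 : |(conj d * u).re| ≤ ‖d‖ * ‖u‖ := by
    simpa using Complex.abs_re_le_norm (conj d * u)
  have b2 : |(conj d * Y).im| ≤ ‖d‖ * ‖Y‖ := by
    simpa using Complex.abs_im_le_norm (conj d * Y)
  have b3 : -(1.96 * c * ν * (‖d‖ * ‖u‖)) ≤ dev * (conj d * u).re := by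
    refine neg_le_of_abs_le ?_
    rw [abs_mul]
    exact mul_le_mul hdev b1 (abs_nonneg _) (by positivity)
  have b4 : -(r ^ 2 / 4 * (‖d‖ * ‖Y‖)) ≤ r ^ 2 / 4 * (conj d * Y).im := by
    have := mul_le_mul_of_nonneg_left (neg_le_of_abs_le b2) (by positivity : 0 ≤ r ^ 2 / 4)
    linarith
  have key : 0 ≤ c * ‖d‖ ^ 2 + c * ν ^ 2 * ‖u‖ ^ 2 + dev * (conj d * u).re +
      r ^ 2 / 4 * (conj d * Y).im + 12.5 / 4 * (r ^ 4 * ‖Y‖ ^ 2) := by
    have c0 : 0 ≤ c := by linarith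
    have k1 := mul_nonneg c0 (sq_nonneg (‖d‖ - ν * ‖u‖))
    have k2 := mul_nonneg c0 (sq_nonneg (ν * ‖u‖))
    have k3 := mul_nonneg (sub_nonneg.2 hc) (sq_nonneg ‖d‖)
    have k4 := sq_nonneg (‖d‖ - 25 * (r ^ 2 * ‖Y‖))
    nlinarith
  have e3 : 10 * r ^ 9 * (‖d‖ ^ 2 - ν ^ 2 * ‖u‖ ^ 2) +
      r ^ 10 * (2 * (conj d * d').re - ν ^ 2 * (2 * (conj u * u').re)) + 12.5 * (r ^ 13 * ‖Y‖ ^ 2) =
      4 * r ^ 9 * (c * ‖d‖ ^ 2 + c * ν ^ 2 * ‖u‖ ^ 2 + dev * (conj d * u).re +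
      r ^ 2 / 4 * (conj d * Y).im + 12.5 / 4 * (r ^ 4 * ‖Y‖ ^ 2)) := by
    linear_combination (4 * r ^ 9) * e2 - (4 * r ^ 9 * ν ^ 2) * e1
  rw [e3]
  positivity

theorem radc_mem {T g r : ℝ} (hT : 0 ≤ T) (hr : 0 < r) (hg : 1 ≤ g) (hg' : g ≤ 4.4) :
    1 / 4 ≤ radc T g r ∧ radc T g r ≤ 4.9 := by
  obtain ⟨h0, h1⟩ := rads_mem hT hr
  unfold radc
  constructor <;> nlinarith

theorem rad_dev {T g r ν : ℝ} (hT : 0 ≤ T) (hr : 0 < r) (hg : 1 ≤ g) (hg' : g ≤ 4.4) (hν : 5 / 2 ≤ ν) :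
    |(rads T r / 2 + g) * (rads T r * (1 - rads T r ^ 2)) / 2 - radc T g r ^ 2| ≤
      1.96 * radc T g r * ν := by
  obtain ⟨h0, h1⟩ := rads_mem hT hr
  obtain ⟨h2, h3⟩ := radc_mem hT hr hg hg'
  have h4 : 0 ≤ 1 - rads T r ^ 2 := by nlinarith
  have h5 : 0 ≤ (rads T r / 2 + g) * (rads T r * (1 - rads T r ^ 2)) / 2 := by positivity
  have h6 : (rads T r / 2 + g) * (rads T r * (1 - rads T r ^ 2)) / 2 ≤ radc T g r := by
    have a1 : 0 ≤ (rads T r / 2 + g) * rads T r := by positivity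
    have a2 := mul_nonneg a1 (sq_nonneg (rads T r))
    have a3 : 0 ≤ g * rads T r := by positivity
    unfold radc
    nlinarith
  have h7 : 4.9 * radc T g r ≤ 1.96 * radc T g r * ν := by nlinarith
  rw [abs_le]
  constructor <;> nlinarith

theorem rad_Ph_le {T r : ℝ} (hT : 0 ≤ T) (hr : 1 ≤ r) : Ph T r ≤ (1 + T) * r ^ 2 := by
  have h1 : Real.sqrt (r ^ 2 / 16 + T) ≤ (1 + T) * r := by
    refine Real.sqrt_le_iff.2 ⟨by positivity, ?_⟩
    have : 1 ≤ r ^ 2 := by nlinarith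
    nlinarith [mul_nonneg hT hT, mul_nonneg hT (sub_nonneg.2 this),
      mul_nonneg (mul_nonneg hT hT) (sq_nonneg r)]
  unfold Ph
  have := Real.sqrt_nonneg (r ^ 2 / 16 + T)
  nlinarith

/-- `T = -Im α ≥ 0`, `γ = 3 - Re α ∈ [-4.4, -1]`, `θ = (r/2)∂_r`, `ρ = r²/4`, `S = √(r²/16 + T)`, `Φ = r S/2`,
`s = r/(4S) ∈ (0, 1]`, `c = (1 + s²)/4 + |γ| s ∈ [1/4, 4.9]`, `C = -c + iΦ`, `β = 5/2 + iρ/2`,
`d = θu + (β - C) u`.  The equation reads `(θ + β)² u = (ν² - Φ² + iγρ) u - iρY`; `θs = s(1 - s²)/2`,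
`θΦ = Φ (1 + s²)/2`, so `(θ + β) u = C u + d`, `(θ + β) d = (ν² + dev) u - C d - iρY` with the real number
`dev = θc - c²`, `0 ≤ θc ≤ c/2`, `|dev| ≤ 4.9 c ≤ 1.96 c ν`.  `Ψ = r¹⁰ (|d|² - ν²|u|²)` tends to `0` and
`θΨ = r¹⁰ (2c|d|² + 2cν²|u|² + 2 dev Re(u d̄) + 2 Re(-iρY d̄)) ≥ -100 r¹⁰ ρ²|Y|²`, i.e. `Ψ' ≥ -12.5 r¹³|Y|²`;
`tail_int` with `φ = 0`. -/
theorem rad4 {R₀ R₁ K : ℝ} {m : ℕ} {α : ℂ} {u Y : ℝ → ℂ} (h1 : 1 ≤ R₀) (hR : R₀ < R₁)
    (hu : Sy R₀ 2 8 K u) (he : Eqn R₀ m α u Y) (hre : 4 ≤ α.re) (hre' : α.re ≤ 7.4) (him : α.im ≤ 0)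
    (hY : IntegrableOn (fun r : ℝ => r ^ 13 * ‖Y r‖ ^ 2) (Ioi R₁)) :
    ‖(R₁ : ℂ) / 2 * deriv u R₁ - Complex.I * (Ph (-α.im) R₁ : ℂ) * u R₁‖ ≤
      (nu m + 8 + R₁ ^ 2 / 8) * ‖u R₁‖ + 4 * Real.sqrt (∫ r in Ioi R₁, r ^ 13 * ‖Y r‖ ^ 2) := by
  set T := -α.im with hTd
  set g := α.re - 3 with hgd
  have hT : 0 ≤ T := by linarith
  have hg : 1 ≤ g := by linarith
  have hg' : g ≤ 4.4 := by linarith
  have hν : 5 / 2 ≤ nu m := by unfold nu; linarith [Nat.cast_nonneg (α := ℝ) m]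
  have hα : α = ((g + 3 : ℝ) : ℂ) - Complex.I * T := by
    apply Complex.ext <;> simp [hgd, hTd]
  set B : ℝ → ℂ := fun r => ((5 / 2 + radc T g r : ℝ) : ℂ) + Complex.I * ((r ^ 2 / 8 - Ph T r : ℝ) : ℂ)
    with hB
  set d : ℝ → ℂ := fun r => (r : ℂ) / 2 * deriv u r + B r * u r with hd
  have hK := hu.nonneg (by linarith)
  have hBn : ∀ r, 1 ≤ r → ‖B r‖ ≤ (9 + T) * r ^ 2 := by
    intro r hr
    obtain ⟨c1, c2⟩ := radc_mem hT (by linarith : 0 < r) hg hg'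
    have p0 : 0 ≤ Ph T r := by unfold Ph; positivity
    have p1 := rad_Ph_le hT hr
    have r2 : 1 ≤ r ^ 2 := by nlinarith
    refine (norm_add_le _ _).trans ?_
    rw [norm_mul, Complex.norm_I, one_mul, Complex.norm_real, Complex.norm_real, Real.norm_eq_abs,
      Real.norm_eq_abs, abs_of_nonneg (by linarith)]
    have : |r ^ 2 / 8 - Ph T r| ≤ r ^ 2 / 8 + Ph T r := abs_le.2 ⟨by linarith, by linarith⟩
    nlinarith
  -- the derivative of `d`
  have hdd : ∀ r, R₀ < r → ∃ d' : ℂ, HasDerivAt d d' r ∧ (r : ℂ) / 2 * d' =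
      ((nu m ^ 2 + ((rads T r / 2 + g) * (rads T r * (1 - rads T r ^ 2)) / 2 - radc T g r ^ 2) : ℝ) : ℂ)
        * u r - ((5 / 2 - radc T g r : ℝ) + Complex.I * ((r ^ 2 / 8 + Ph T r : ℝ) : ℂ)) * d r -
      Complex.I * ((r ^ 2 / 4 : ℝ) : ℂ) * Y r := by
    intro r hr
    have hr0 : 0 < r := by linarith
    have hrc : (r : ℂ) ≠ 0 := by exact_mod_cast hr0.ne'
    have u1 := hasDerivAt_of_contDiffOn hu.1 (by norm_num) hr
    have u2 := hasDerivAt_deriv_of_contDiffOn hu.1 le_rfl hr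
    have hid : HasDerivAt (fun x : ℝ => (x : ℂ) / 2) (1 / 2) r := by
      simpa using (hasDerivAt_id r).ofReal_comp.div_const 2
    have b1 := ((radc_deriv g hT hr0).const_add (5 / 2)).ofReal_comp
    have b2 : HasDerivAt (fun x : ℝ => x ^ 2 / 8 - Ph T x)
        (r / 4 - Ph T r * (1 + rads T r ^ 2) / r) r := by
      have := ((hasDerivAt_pow 2 r).div_const 8).sub (radPh_deriv hT hr0)
      refine HasDerivAt.congr_deriv this ?_
      simp; ring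
    have b3 := b1.add (b2.ofReal_comp.const_mul Complex.I)
    refine ⟨_, (hid.mul u2).add (b3.mul u1), ?_⟩
    have e := he r hr
    have eD : DD m u r = -Complex.I * (α * u r + (r : ℂ) / 2 * deriv u r + Y r) := by
      rw [← e]; linear_combination (DD m u r) * Complex.I_sq
    have eM : (MM m : ℂ) = 4 * (nu m : ℂ) ^ 2 - 25 := by
      have := nu_sq m
      have h2 : MM m = 4 * nu m ^ 2 - 25 := by linarith
      rw [h2]; push_cast; ring
    have eP : ((Ph T r : ℝ) : ℂ) ^ 2 = (r : ℂ) ^ 4 / 64 + T * (r : ℂ) ^ 2 / 4 := by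
      have : Ph T r ^ 2 = r ^ 4 / 64 + T * r ^ 2 / 4 := by
        change (r / 2 * radS T r) ^ 2 = _
        rw [mul_pow, radS_sq hT]; ring
      exact_mod_cast congrArg (fun x : ℝ => (x : ℂ)) this
    have eS : ((Ph T r : ℝ) : ℂ) * (rads T r : ℂ) = (r : ℂ) ^ 2 / 8 := by
      have hS := radS_pos hT hr0
      have : Ph T r * rads T r = r ^ 2 / 8 := by
        change r / 2 * radS T r * (r / (4 * radS T r)) = _
        field_simp; ring
      exact_mod_cast congrArg (fun x : ℝ => (x : ℂ)) this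
    have eC : ((radc T g r : ℝ) : ℂ) = (1 + (rads T r : ℂ) ^ 2) / 4 + g * (rads T r : ℂ) := by
      unfold radc; push_cast; ring
    simp only [hd, hB, Pi.add_apply]
    rw [deriv2_eq m u r, eD, eM, hα]
    push_cast
    rw [eC]
    have hri : (r : ℂ) * (r : ℂ)⁻¹ = 1 := mul_inv_cancel₀ hrc
    simp only [div_eq_mul_inv, ← inv_pow]
    linear_combination (2 * g * Complex.I * u r) * eS - (Complex.I ^ 2 * u r) * eP +
      (-11 / 4 * r * deriv u r + (4 * (nu m : ℂ) ^ 2 - 25) / 4 * u r * ((r : ℂ) * (r : ℂ)⁻¹ + 1) +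
        1 / 2 * (((rads T r : ℂ) / 2 + g) * ((rads T r : ℂ) * (1 - (rads T r : ℂ) ^ 2))) * u r -
        Complex.I / 2 * (Ph T r : ℂ) * (1 + (rads T r : ℂ) ^ 2) * u r) * hri
  choose! d' hd1 hd2 using hdd
  set Ψ : ℝ → ℝ := fun r => r ^ 10 * (‖d r‖ ^ 2 - nu m ^ 2 * ‖u r‖ ^ 2) with hΨ
  have hΨ' : ∀ r, R₁ ≤ r → HasDerivAt Ψ (10 * r ^ 9 * (‖d r‖ ^ 2 - nu m ^ 2 * ‖u r‖ ^ 2) +
      r ^ 10 * (2 * (conj (d r) * d' r).re - nu m ^ 2 * (2 * (conj (u r) * deriv u r).re))) r := by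
    intro r hr
    have hr' : R₀ < r := hR.trans_le hr
    have := (hasDerivAt_pow 10 r).mul ((rad_normSq (hd1 r hr')).sub
      ((rad_normSq (hasDerivAt_of_contDiffOn hu.1 (by norm_num) hr')).const_mul (nu m ^ 2)))
    refine HasDerivAt.congr_deriv this ?_
    simp
  have hlim : Tendsto Ψ atTop (𝓝 0) := by
    have h0 : Tendsto (fun r : ℝ => (K ^ 2 * (10 + T) ^ 2 + nu m ^ 2 * K ^ 2) / r ^ 2) atTop (𝓝 0) :=
      tendsto_const_nhds.div_atTop (tendsto_pow_atTop two_ne_zero)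
    refine squeeze_zero_norm' ?_ h0
    filter_upwards [eventually_gt_atTop R₀] with r hr
    have hr1 : 1 ≤ r := by linarith
    have hr0 : 0 < r := by linarith
    have a0 : ‖u r‖ ≤ K / r ^ 8 := hu.bd hr
    have a1 : ‖deriv u r‖ ≤ K / r ^ 9 := (Sy.deriv (N := 1) hu).bd hr
    have a2 : ‖d r‖ ≤ K * (10 + T) / r ^ 6 := by
      refine (norm_add_le _ _).trans ?_
      rw [norm_mul, norm_mul, norm_div, Complex.norm_real, Real.norm_eq_abs, abs_of_pos hr0]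
      have q1 : r / ‖(2 : ℂ)‖ * ‖deriv u r‖ ≤ K / r ^ 6 := by
        rw [Complex.norm_two]
        calc r / 2 * ‖deriv u r‖ ≤ r ^ 3 * (K / r ^ 9) := by
              refine mul_le_mul ?_ a1 (norm_nonneg _) (by positivity)
              nlinarith [mul_nonneg hr0.le (sq_nonneg (r - 1)), sq_nonneg r]
          _ = K / r ^ 6 := by field_simp
      have q2 : ‖B r‖ * ‖u r‖ ≤ K * (9 + T) / r ^ 6 := by
        calc ‖B r‖ * ‖u r‖ ≤ (9 + T) * r ^ 2 * (K / r ^ 8) :=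
              mul_le_mul (hBn r hr1) a0 (norm_nonneg _) (by positivity)
          _ = K * (9 + T) / r ^ 6 := by field_simp
      calc _ ≤ K / r ^ 6 + K * (9 + T) / r ^ 6 := add_le_add q1 q2
        _ = _ := by ring
    have a3 : ‖u r‖ ≤ K / r ^ 6 :=
      a0.trans (div_le_div_of_nonneg_left hK (by positivity) (pow_le_pow_right₀ hr1 (by norm_num)))
    have a4 := pow_le_pow_left₀ (norm_nonneg _) a2 2
    have a5 := mul_le_mul_of_nonneg_left (pow_le_pow_left₀ (norm_nonneg _) a3 2) (sq_nonneg (nu m))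
    have a6 : |‖d r‖ ^ 2 - nu m ^ 2 * ‖u r‖ ^ 2| ≤
        (K * (10 + T) / r ^ 6) ^ 2 + nu m ^ 2 * (K / r ^ 6) ^ 2 := by
      have := sq_nonneg ‖d r‖
      have : 0 ≤ nu m ^ 2 * ‖u r‖ ^ 2 := by positivity
      exact abs_le.2 ⟨by linarith, by linarith⟩
    rw [Real.norm_eq_abs, hΨ]
    simp only
    rw [abs_mul, abs_of_pos (by positivity : 0 < r ^ 10)]
    calc _ ≤ r ^ 10 * ((K * (10 + T) / r ^ 6) ^ 2 + nu m ^ 2 * (K / r ^ 6) ^ 2) := by gcongr
      _ = _ := by field_simp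
  have hmain := tail_int (φ := fun _ => 0) (ψ := fun r => 12.5 * (r ^ 13 * ‖Y r‖ ^ 2)) hΨ' hlim
    integrableOn_zero (hY.const_mul _) fun r hr => by
      have hr' : R₀ < r := hR.trans hr
      have hr0 : 0 < r := by linarith
      refine rad_alg (w₂ := r ^ 2 / 8 - Ph T r) hr0 (radc_mem hT hr0 hg hg').1 (by linarith)
        (rad_dev hT hr0 hg hg' hν) ?_ (hd2 r hr')
      simp only [hd, hB]; ring
  rw [integral_zero, integral_const_mul] at hmain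
  set J := ∫ r in Ioi R₁, r ^ 13 * ‖Y r‖ ^ 2 with hJ
  have hR1 : 1 ≤ R₁ := by linarith
  have hJ0 : 0 ≤ J := setIntegral_nonneg measurableSet_Ioi fun r hr => by
    have : 0 < r := by linarith [mem_Ioi.1 hr]
    positivity
  have hsq : ‖d R₁‖ ^ 2 - nu m ^ 2 * ‖u R₁‖ ^ 2 ≤ 12.5 * J := by
    by_contra hc
    push Not at hc
    have := le_mul_of_one_le_left (by linarith : 0 ≤ ‖d R₁‖ ^ 2 - nu m ^ 2 * ‖u R₁‖ ^ 2)
      (one_le_pow₀ hR1 (n := 10))
    simp only [hΨ] at hmain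
    linarith
  have hdle : ‖d R₁‖ ≤ nu m * ‖u R₁‖ + 4 * Real.sqrt J := by
    refine (pow_le_pow_iff_left₀ (norm_nonneg _) (by positivity) two_ne_zero).1 ?_
    have := Real.sq_sqrt hJ0
    have : 0 ≤ nu m * ‖u R₁‖ * Real.sqrt J := by positivity
    nlinarith
  have e : (R₁ : ℂ) / 2 * deriv u R₁ - Complex.I * (Ph T R₁ : ℂ) * u R₁ =
      d R₁ - (((5 / 2 + radc T g R₁ : ℝ) : ℂ) + Complex.I * ((R₁ ^ 2 / 8 : ℝ) : ℂ)) * u R₁ := by
    simp only [hd, hB]; push_cast; ring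
  rw [e]
  refine (norm_sub_le _ _).trans ?_
  have f1 : ‖((5 / 2 + radc T g R₁ : ℝ) : ℂ) + Complex.I * ((R₁ ^ 2 / 8 : ℝ) : ℂ)‖ ≤ 8 + R₁ ^ 2 / 8 := by
    obtain ⟨c1, c2⟩ := radc_mem hT (by linarith : 0 < R₁) hg hg'
    refine (norm_add_le _ _).trans ?_
    rw [norm_mul, Complex.norm_I, one_mul, Complex.norm_real, Complex.norm_real, Real.norm_eq_abs,
      Real.norm_eq_abs, abs_of_nonneg (by linarith), abs_of_nonneg (by positivity)]
    linarith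
  rw [norm_mul]
  have := mul_le_mul_of_nonneg_right f1 (norm_nonneg (u R₁))
  linarith

end Crest.Agent.R086.Mb
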