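import Crest.Agent.R086.Mb.Sy0
import Crest.Agent.R086.Mb.DAlg0

/-! Row 86, part M-b: calculus of symbols on a half line. -/

set_option autoImplicit false

open MeasureTheory Set Filter Topology
open scoped ComplexConjugate

namespace Crest.Agent.R086.Mb

variable {R₀ K K' : ℝ} {N N' o o' : ℕ} {c c' : ℝ → ℂ}

theorem Sy.DD (h : Sy R₀ (N + 2) o K c) (hR : 0 ≤ R₀) (m : ℕ) :
    ∃ K' : ℝ, Sy R₀ N (o + 2) K' (DD m c) := by
  have d2 := h.deriv.deriv
  have d1 := ((h.deriv.mono_N (Nat.le_succ N)).div_r hR).const_mul 11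
  have d0 := (((h.mono_N (Nat.le_add_right N 2)).div_r hR).div_r hR).const_mul
    (-((m : ℂ) * (m + 10)))
  refine ⟨_, ((d2.add d1).add d0).congr fun r _ => ?_⟩
  simp only [R086.DD]
  ring

theorem Adm.lv {u : ℝ → ℂ} (h : Adm R₀ u) (hR : 0 ≤ R₀) (m : ℕ) {j : ℕ} (hj : j ≤ 6) :
    ∃ K : ℝ, Sy R₀ (12 - 2 * j) (2 * j) K (lv m u j) := by
  induction j with
  | zero => exact h
  | succ j ih =>
    obtain ⟨K, hK⟩ := ih (by omega)
    rw [show 12 - 2 * j = 12 - 2 * (j + 1) + 2 by omega] at hK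
    have e : Mb.lv m u (j + 1) = R086.DD m (Mb.lv m u j) := Function.iterate_succ_apply' _ _ _
    rw [e]
    exact hK.DD hR m

theorem adm_of_radAdm {f : ℝ → ℂ} (h : RadAdm f) (hR : 0 ≤ R₀) : Adm R₀ f := by
  obtain ⟨C, hC⟩ := h.decay
  have hC0 : 0 ≤ C := by
    have := (norm_nonneg _).trans (hC 0 (by norm_num) 0 le_rfl)
    simpa using this
  refine ⟨C, (h.smooth.of_le (by norm_num)).contDiffOn, fun k hk r hr => ?_⟩
  have hr0 : 0 < r := hR.trans_lt hr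
  refine (hC k (by omega) r hr0.le).trans ?_
  rw [Real.rpow_neg (by positivity), Real.rpow_natCast, zero_add, div_eq_mul_inv]
  gcongr
  linarith

theorem adm_zero (R₀ : ℝ) : Adm R₀ (fun _ => 0) := ⟨0, sy_zero _ _ _⟩

theorem Adm.add {u v : ℝ → ℂ} (h : Adm R₀ u) (h' : Adm R₀ v) : Adm R₀ (fun r => u r + v r) := by
  obtain ⟨K, h⟩ := h
  obtain ⟨K', h'⟩ := h'
  exact ⟨_, h.add h'⟩

theorem Adm.const_mul {u : ℝ → ℂ} (h : Adm R₀ u) (a : ℂ) : Adm R₀ (fun r => a * u r) := by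
  obtain ⟨K, h⟩ := h
  exact ⟨_, h.const_mul a⟩

theorem Adm.conj {u : ℝ → ℂ} (h : Adm R₀ u) : Adm R₀ (fun r => conj (u r)) := by
  obtain ⟨K, h⟩ := h
  exact ⟨_, h.conj⟩

theorem Adm.smooth {u : ℝ → ℂ} (h : Adm R₀ u) : ContDiffOn ℝ 12 u (Ioi R₀) := by
  obtain ⟨K, h⟩ := h
  exact h.1

/-- dominated by `K² / r²` (`integrableOn_Ioi_rpow_of_lt`) -/
theorem int_sq {u : ℝ → ℂ} (hc : ContinuousOn u (Ioi R₀)) (hb : ∀ r, R₀ < r → ‖u r‖ ≤ K / r ^ o)
    (hR : 1 ≤ R₀) {R₁ : ℝ} (h1 : R₀ ≤ R₁) {p q : ℕ} (hp : p + 2 ≤ q + 2 * o) :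
    IntegrableOn (fun r : ℝ => r ^ p / r ^ q * ‖u r‖ ^ 2) (Ioi R₁) := by
  have hI := (integrableOn_Ioi_rpow_of_lt (a := -2) (by norm_num) (c := R₁) (by linarith)).const_mul
    (K ^ 2)
  refine Integrable.mono' hI (ContinuousOn.aestronglyMeasurable ?_ measurableSet_Ioi) ?_
  · refine ContinuousOn.mul (ContinuousOn.div (by fun_prop) (by fun_prop) fun r hr => ?_)
      ((hc.mono (Ioi_subset_Ioi h1)).norm.pow 2)
    have : (0 : ℝ) < r := by linarith [mem_Ioi.1 hr]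
    positivity
  · filter_upwards [ae_restrict_mem measurableSet_Ioi] with r hr
    have hr1 : 1 ≤ r := by linarith [mem_Ioi.1 hr]
    have hr0 : 0 < r := by linarith
    have h2 := hb r (by linarith [mem_Ioi.1 hr])
    rw [Real.norm_of_nonneg (by positivity), Real.rpow_neg hr0.le, Real.rpow_two]
    calc r ^ p / r ^ q * ‖u r‖ ^ 2 ≤ r ^ p / r ^ q * (K / r ^ o) ^ 2 := by gcongr
      _ = K ^ 2 * (r ^ (p + 2) / r ^ (q + 2 * o)) * (r ^ 2)⁻¹ := by
        field_simp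
        ring
      _ ≤ K ^ 2 * 1 * (r ^ 2)⁻¹ := by
        gcongr
        exact (div_le_one (by positivity)).2 (pow_le_pow_right₀ hr1 hp)
      _ = _ := by ring

theorem Adm.int_dens {u : ℝ → ℂ} (h : Adm R₀ u) (hR : 1 ≤ R₀) {R₁ : ℝ} (h1 : R₀ ≤ R₁) (κ : ℝ)
    (m : ℕ) : IntegrableOn (dens κ m u) (Ioi R₁) := by
  have h0 : 0 ≤ R₀ := by linarith
  refine Integrable.add (integrable_finsetSum _ fun i hi => ?_) ?_
  · have hi4 : i < 4 := Finset.mem_range.1 hi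
    obtain ⟨K, hK⟩ := h.lv h0 m (j := i) (by omega)
    have hK' := hK
    rw [show 12 - 2 * i = 11 - 2 * i + 1 by omega] at hK'
    have hd := hK'.deriv
    exact ((int_sq hK.1.continuousOn (fun r hr => hK.bd hr) hR h1 (by omega)).const_mul _).add
      ((int_sq hd.1.continuousOn (fun r hr => hd.bd hr) hR h1 (by omega)).const_mul _)
  · obtain ⟨K, hK⟩ := h.lv h0 m (j := 4) (by omega)
    simpa [IntegrableOn] using int_sq hK.1.continuousOn (fun r hr => hK.bd hr) hR h1 (p := 11) (q := 0)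
      (by omega)

theorem dens_nonneg (κ : ℝ) (m : ℕ) (u : ℝ → ℂ) {r : ℝ} (hr : 0 ≤ r) : 0 ≤ dens κ m u r := by
  refine add_nonneg (Finset.sum_nonneg fun i hi => add_nonneg (mul_nonneg ?_ (by positivity))
    (mul_nonneg ?_ (by positivity))) (by positivity)
  · exact Even.pow_nonneg ⟨8 - 2 * i, by omega⟩ _
  · exact Even.pow_nonneg ⟨7 - 2 * i, by omega⟩ _

theorem dens_mono {κ κ' : ℝ} (h0 : 0 ≤ κ) (h : κ ≤ κ') (m : ℕ) (u : ℝ → ℂ) {r : ℝ} (hr : 0 ≤ r) :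
    dens κ m u r ≤ dens κ' m u r := by
  unfold dens
  gcongr

theorem dens_le_one {κ : ℝ} (h : 1 ≤ κ) (m : ℕ) (u : ℝ → ℂ) {r : ℝ} (hr : 0 ≤ r) :
    dens κ m u r ≤ κ ^ 16 * dens 1 m u r := by
  unfold dens
  rw [mul_add, Finset.mul_sum]
  refine add_le_add (Finset.sum_le_sum fun i _ => ?_)
    (le_mul_of_one_le_left (by positivity) (one_le_pow₀ h))
  rw [one_pow, one_pow, one_mul, one_mul, mul_add]
  exact add_le_add
    (mul_le_mul_of_nonneg_right (pow_le_pow_right₀ h (by omega)) (by positivity))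
    (mul_le_mul_of_nonneg_right (pow_le_pow_right₀ h (by omega)) (by positivity))

end Crest.Agent.R086.Mb
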