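import Crest.Agent.R086.Mb.Defs

/-! Row 86, part M-b: calculus of symbols on a half line. -/

set_option autoImplicit false

open MeasureTheory Set Filter Topology
open scoped ComplexConjugate

namespace Crest.Agent.R086.Mb

variable {R₀ K K' : ℝ} {N N' o o' : ℕ} {c c' : ℝ → ℂ}

theorem Sy0_at (h : Sy R₀ N o K c) {k : ℕ} (hk : k ≤ N) {r : ℝ} (hr : R₀ < r) :
    ContDiffAt ℝ k c r :=
  (h.1.contDiffAt (Ioi_mem_nhds hr)).of_le (by exact_mod_cast hk)

theorem Sy0_conj (c : ℝ → ℂ) (k : ℕ) :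
    iteratedDeriv k (fun r => conj (c r)) = fun r => conj (iteratedDeriv k c r) := by
  induction k with
  | zero => simp
  | succ k ih =>
    rw [iteratedDeriv_succ, iteratedDeriv_succ, ih]
    funext r
    exact deriv.star

theorem Sy0_inv (k : ℕ) : ∀ r : ℝ, 0 < r → iteratedDeriv k (fun r : ℝ => ((r : ℂ))⁻¹) r =
    (-1) ^ k * (k.factorial : ℂ) * ((r : ℂ) ^ (k + 1))⁻¹ := by
  induction k with
  | zero => simp
  | succ k ih =>
    intro r hr
    have h0 : (r : ℂ) ≠ 0 := by exact_mod_cast hr.ne'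
    have h1 : iteratedDeriv k (fun r : ℝ => ((r : ℂ))⁻¹) =ᶠ[𝓝 r]
        fun r : ℝ => (-1) ^ k * (k.factorial : ℂ) * ((r : ℂ) ^ (k + 1))⁻¹ :=
      (eventually_gt_nhds hr).mono ih
    have h2 := ((((hasDerivAt_pow (k + 1) (r : ℂ)).inv (pow_ne_zero _ h0)).const_mul
      ((-1) ^ k * (k.factorial : ℂ))).comp_ofReal).deriv
    rw [iteratedDeriv_succ, h1.deriv_eq]
    refine h2.trans ?_
    rw [Nat.factorial_succ]
    push_cast
    field_simp
    ring

theorem Sy0_ofReal : deriv (fun r : ℝ => (r : ℂ)) = fun _ => 1 :=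
  funext fun _ => Complex.ofRealCLM.hasDerivAt.deriv

theorem Sy0_mul_r {k : ℕ} {r : ℝ} (hc : ContDiffAt ℝ (k + 1 : ℕ) c r) :
    iteratedDeriv (k + 1) (fun r : ℝ => (r : ℂ) * c r) r =
      r * iteratedDeriv (k + 1) c r + (k + 1) * iteratedDeriv k c r := by
  rw [iteratedDeriv_fun_mul (f := fun r : ℝ => (r : ℂ)) Complex.ofRealCLM.contDiff.contDiffAt hc,
    Finset.sum_range_succ', Finset.sum_range_succ', Finset.sum_eq_zero]
  · simp [Sy0_ofReal, add_comm]
  · intro i _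
    have : iteratedDeriv (i + 1 + 1) (fun r : ℝ => (r : ℂ)) r = 0 := by
      rw [iteratedDeriv_succ', Sy0_ofReal, iteratedDeriv_const]
      simp
    exact mul_eq_zero_of_left (mul_eq_zero_of_right _ this) _

theorem Sy.mono_N (h : Sy R₀ N o K c) (hN : N' ≤ N) : Sy R₀ N' o K c := by
  exact ⟨h.1.of_le (by exact_mod_cast hN), fun k hk => h.2 k (hk.trans hN)⟩

theorem Sy.bd (h : Sy R₀ N o K c) {r : ℝ} (hr : R₀ < r) : ‖c r‖ ≤ K / r ^ o := by
  simpa using h.2 0 (Nat.zero_le _) r hr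

theorem Sy.nonneg (h : Sy R₀ N o K c) (hR : 0 ≤ R₀) : 0 ≤ K := by
  have h1 := (norm_nonneg _).trans (h.bd (lt_add_one R₀))
  have h2 : 0 < (R₀ + 1) ^ o := by positivity
  by_contra hK
  exact absurd h1 (not_le.2 (div_neg_of_neg_of_pos (not_le.1 hK) h2))

theorem Sy.mono_K (h : Sy R₀ N o K c) (hR : 0 ≤ R₀) (hK : K ≤ K') : Sy R₀ N o K' c := by
  refine ⟨h.1, fun k hk r hr => (h.2 k hk r hr).trans ?_⟩
  have : 0 < r := hR.trans_lt hr
  gcongr

theorem Sy.mono_o (h : Sy R₀ N o K c) (hR : 1 ≤ R₀) (ho : o' ≤ o) : Sy R₀ N o' K c := by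
  have hK := h.nonneg (zero_le_one.trans hR)
  refine ⟨h.1, fun k hk r hr => (h.2 k hk r hr).trans ?_⟩
  have h1 : 1 ≤ r := hR.trans hr.le
  exact div_le_div_of_nonneg_left hK (by positivity) (pow_le_pow_right₀ h1 (by omega))

theorem Sy.mono_R (h : Sy R₀ N o K c) {R₁ : ℝ} (hR : R₀ ≤ R₁) : Sy R₁ N o K c := by
  exact ⟨h.1.mono (Ioi_subset_Ioi hR), fun k hk r hr => h.2 k hk r (hR.trans_lt hr)⟩

theorem Sy.congr (h : Sy R₀ N o K c) (he : ∀ r, R₀ < r → c' r = c r) : Sy R₀ N o K c' := by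
  refine ⟨h.1.congr he, fun k hk r hr => ?_⟩
  have h1 : c' =ᶠ[𝓝 r] c := (eventually_gt_nhds hr).mono he
  rw [h1.iteratedDeriv_eq]
  exact h.2 k hk r hr

theorem Sy.deriv (h : Sy R₀ (N + 1) o K c) : Sy R₀ N (o + 1) K (deriv c) := by
  refine ⟨h.1.deriv_of_isOpen isOpen_Ioi (by exact_mod_cast le_rfl), fun k hk r hr => ?_⟩
  rw [← iteratedDeriv_succ', show o + 1 + k = o + (k + 1) by omega]
  exact h.2 (k + 1) (by omega) r hr

theorem sy_zero (R₀ : ℝ) (N o : ℕ) : Sy R₀ N o 0 (fun _ => 0) := by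
  exact ⟨contDiffOn_const, fun k _ r _ => by simp⟩

theorem Sy.add (h : Sy R₀ N o K c) (h' : Sy R₀ N o K' c') :
    Sy R₀ N o (K + K') (fun r => c r + c' r) := by
  refine ⟨h.1.add h'.1, fun k hk r hr => ?_⟩
  rw [iteratedDeriv_fun_add (Sy0_at h hk hr) (Sy0_at h' hk hr), add_div]
  exact (norm_add_le _ _).trans (add_le_add (h.2 k hk r hr) (h'.2 k hk r hr))

theorem Sy.const_mul (h : Sy R₀ N o K c) (a : ℂ) : Sy R₀ N o (‖a‖ * K) (fun r => a * c r) := by
  refine ⟨contDiffOn_const.mul h.1, fun k hk r hr => ?_⟩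
  rw [iteratedDeriv_const_mul a (Sy0_at h hk hr), norm_mul, mul_div_assoc]
  exact mul_le_mul_of_nonneg_left (h.2 k hk r hr) (norm_nonneg _)

/-- `deriv.star`, induction on the order -/
theorem Sy.conj (h : Sy R₀ N o K c) : Sy R₀ N o K (fun r => conj (c r)) := by
  refine ⟨Complex.conjCLE.contDiff.comp_contDiffOn h.1, fun k hk r hr => ?_⟩
  rw [Sy0_conj, Complex.norm_conj]
  exact h.2 k hk r hr

/-- Leibniz (`norm_iteratedFDerivWithin_mul_le` or `iteratedDeriv_mul`-type formula on the open set) -/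
theorem Sy.mul (h : Sy R₀ N o K c) (h' : Sy R₀ N o' K' c') (hR : 0 ≤ R₀) :
    Sy R₀ N (o + o') (2 ^ N * (K * K')) (fun r => c r * c' r) := by
  have hK := h.nonneg hR
  have hK' := h'.nonneg hR
  refine ⟨h.1.mul h'.1, fun k hk r hr => ?_⟩
  have hr0 : 0 < r := hR.trans_lt hr
  rw [iteratedDeriv_fun_mul (Sy0_at h hk hr) (Sy0_at h' hk hr)]
  refine (norm_sum_le _ _).trans ?_
  have h1 : ∀ i ∈ Finset.range (k + 1),
      ‖(k.choose i : ℂ) * iteratedDeriv i c r * iteratedDeriv (k - i) c' r‖ ≤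
        k.choose i * (K * K' / r ^ (o + o' + k)) := by
    intro i hi
    have hi' : i ≤ k := Nat.lt_succ_iff.1 (Finset.mem_range.1 hi)
    rw [mul_assoc, norm_mul, norm_mul, Complex.norm_natCast]
    refine mul_le_mul_of_nonneg_left ?_ (Nat.cast_nonneg _)
    refine (mul_le_mul (h.2 i (by omega) r hr) (h'.2 (k - i) (by omega) r hr) (norm_nonneg _)
      (by positivity)).trans (le_of_eq ?_)
    rw [div_mul_div_comm, ← pow_add]
    congr 2
    omega
  refine (Finset.sum_le_sum h1).trans ?_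
  rw [← Finset.sum_mul, ← Nat.cast_sum, Nat.sum_range_choose, mul_div_assoc (2 ^ N : ℝ)]
  refine mul_le_mul_of_nonneg_right ?_ (by positivity)
  push_cast
  exact pow_le_pow_right₀ one_le_two hk

theorem sy_inv (hR : 0 ≤ R₀) (N : ℕ) : Sy R₀ N 1 (N.factorial : ℝ) (fun r => ((r : ℂ))⁻¹) := by
  refine ⟨Complex.ofRealCLM.contDiff.contDiffOn.inv fun r hr => ?_, fun k hk r hr => ?_⟩
  · exact Complex.ofReal_ne_zero.2 (hR.trans_lt hr).ne'
  · have hr0 : 0 < r := hR.trans_lt hr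
    rw [Sy0_inv k r hr0, norm_mul, norm_mul, norm_pow, norm_neg, norm_one, one_pow, one_mul,
      Complex.norm_natCast, norm_inv, norm_pow, Complex.norm_real, Real.norm_of_nonneg hr0.le,
      add_comm 1 k, ← div_eq_mul_inv]
    gcongr

theorem Sy.div_r (h : Sy R₀ N o K c) (hR : 0 ≤ R₀) :
    Sy R₀ N (o + 1) (2 ^ N * N.factorial * K) (fun r => c r / r) := by
  have h1 := h.mul (sy_inv hR N) hR
  rw [show (2 : ℝ) ^ N * N.factorial * K = 2 ^ N * (K * N.factorial) by ring]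
  exact h1.congr fun r _ => div_eq_mul_inv _ _

/-- `(r c)^{(k)} = r c^{(k)} + k c^{(k-1)}` -/
theorem Sy.mul_r (h : Sy R₀ N (o + 1) K c) (hR : 0 ≤ R₀) :
    Sy R₀ N o ((N + 1) * K) (fun r => (r : ℂ) * c r) := by
  have hK := h.nonneg hR
  refine ⟨Complex.ofRealCLM.contDiff.contDiffOn.mul h.1, fun k hk r hr => ?_⟩
  have hr0 : 0 < r := hR.trans_lt hr
  have h1 : ‖(r : ℂ) * iteratedDeriv k c r‖ ≤ K / r ^ (o + k) := by
    rw [norm_mul, Complex.norm_real, Real.norm_of_nonneg hr0.le]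
    refine (mul_le_mul_of_nonneg_left (h.2 k hk r hr) hr0.le).trans (le_of_eq ?_)
    field_simp
    ring
  have h2 : 0 ≤ K / r ^ (o + k) := by positivity
  rw [mul_div_assoc]
  cases k with
  | zero =>
    refine le_trans (by simpa using h1) (le_mul_of_one_le_left h2 ?_)
    linarith [Nat.cast_nonneg (α := ℝ) N]
  | succ k =>
    have h3 := h.2 k (by omega) r hr
    rw [show o + 1 + k = o + (k + 1) by omega] at h3
    have h4 : ‖((k : ℂ) + 1) * iteratedDeriv k c r‖ ≤ N * (K / r ^ (o + (k + 1))) := by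
      rw [norm_mul, ← Nat.cast_succ, Complex.norm_natCast]
      exact mul_le_mul (by exact_mod_cast hk) h3 (norm_nonneg _) (Nat.cast_nonneg _)
    rw [Sy0_mul_r (Sy0_at h hk hr)]
    refine (norm_add_le _ _).trans ?_
    linarith

end Crest.Agent.R086.Mb
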