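import Crest.Agent.R086.Mb.Tm0

/-! Row 86, part M-b: commuting `𝒟^j` with a symbol. -/

set_option autoImplicit false

open MeasureTheory Set Filter Topology
open scoped ComplexConjugate

namespace Crest.Agent.R086.Mb

variable {R₀ κ K : ℝ} {m N j : ℕ} {u X : ℝ → ℂ}

theorem Tm_fix {o o' : ℕ} {K' : ℝ} {c : ℝ → ℂ} (h : Sy R₀ N o K c) (hR : 0 ≤ R₀) (ho : o = o')
    (hK : K ≤ K') : Sy R₀ N o' K' c := ho ▸ h.mono_K hR hK

theorem Tm_div : ∃ D : ℝ, 0 ≤ D ∧ ∀ {R₀ K : ℝ} {N o : ℕ} {c : ℝ → ℂ}, 1 ≤ R₀ → N ≤ 12 →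
    Sy R₀ N o K c → Sy R₀ N (o + 1) (D * K) (fun r => c r / r) := by
  refine ⟨2 ^ 12 * (Nat.factorial 12 : ℕ), by positivity, fun hR hN h => ?_⟩
  refine (h.div_r (by linarith)).mono_K (by linarith)
    (mul_le_mul_of_nonneg_right ?_ (h.nonneg (by linarith)))
  exact mul_le_mul (pow_le_pow_right₀ (by norm_num) hN) (Nat.cast_le.2 (Nat.factorial_le hN))
    (by positivity) (by positivity)

/-- `𝒟(c u_i) = c u_{i+1} + 2c' u_i' + (c'' + 11c'/r) u_i` and
`𝒟(d u_i') = d u_{i+1}' + 2d' u_{i+1} + (11d/r² - 11d'/r + d'') u_i' + 2M (d'/r² - d/r³) u_i`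
(`DD_mul`, `DD_deriv`, `deriv2_eq`); constants from `Sy.div_r`, `2^N N! ≤ 2^10 10!`. -/
theorem Tm.step : ∃ C : ℝ, 0 ≤ C ∧ ∀ {R₀ κ K : ℝ} {m N j : ℕ} {u X : ℝ → ℂ}, 1 ≤ R₀ → 1 ≤ κ →
    MM m ≤ κ ^ 2 → ContDiffOn ℝ 12 u (Ioi R₀) → N + 2 + 2 * j ≤ 12 → Tm R₀ κ m u (N + 2) j K X →
    Tm R₀ κ m u N (j + 1) (C * K) (DD m X) := by
  obtain ⟨D, hD, hdiv⟩ := Tm_div
  refine ⟨4 + 11 * D + 13 * D ^ 2 + 2 * D ^ 3, by positivity, ?_⟩
  intro R₀ κ K m N j u X hR hκ hM hu hN h
  have hR0 : 0 ≤ R₀ := by linarith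
  have hM0 := MM_nonneg m
  have hp : ∀ {a b : ℕ}, a ≤ b → κ ^ a ≤ κ ^ b := fun hab => pow_le_pow_right₀ hκ hab
  induction h with
  | c K i c hi h =>
    have hK : 0 ≤ K := (Tm.c (m := m) (u := u) K i c hi h).nonneg hR hκ
    have h1 := h.deriv
    have h2 := h1.deriv
    have h1' := h1.mono_N (Nat.le_succ N)
    have h3 := hdiv hR (by omega) h1'
    have t1 := Tm.c (m := m) (u := u) (j := j + 1) K (i + 1) c (by omega)
      (Tm_fix (h.mono_N (Nat.le_add_right N 2)) hR0 (by omega)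
        (mul_le_mul_of_nonneg_left (hp (by omega)) hK))
    have t2 := Tm.d (m := m) (u := u) (j := j + 1) (2 * K) i _ (by omega)
      (Tm_fix (h1'.const_mul 2) hR0 (by omega) (by
        rw [Complex.norm_ofNat, mul_assoc]
        exact mul_le_mul_of_nonneg_left (mul_le_mul_of_nonneg_left (hp (by omega)) hK) (by norm_num)))
    have t3 := Tm.c (m := m) (u := u) (j := j + 1) ((1 + 11 * D) * K) i _ (by omega)
      (Tm_fix (h2.add (h3.const_mul 11)) hR0 (by omega) (by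
        rw [Complex.norm_ofNat, mul_assoc, ← mul_assoc 11, ← one_add_mul]
        gcongr
        omega))
    refine ((t1.add t2).add t3).congr (by
      nlinarith [mul_nonneg (pow_nonneg hD 2) hK, mul_nonneg (pow_nonneg hD 3) hK]) fun r hr => ?_
    rw [DD_mul (h.1.of_le (by exact_mod_cast Nat.le_add_left 2 N))
      (contDiffOn_lv (N := 12) (N' := 2) hR0 hu m (by omega)) hr, lv_succ]
  | d K i d hi h =>
    have hK : 0 ≤ K := (Tm.d (m := m) (u := u) K i d hi h).nonneg hR hκ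
    have h0 := h.mono_N (Nat.le_add_right N 2)
    have h1 := h.deriv
    have h2 := h1.deriv
    have h1' := h1.mono_N (Nat.le_succ N)
    have h3 := hdiv hR (by omega) h1'
    have h4 := hdiv hR (by omega) h3
    have h5 := hdiv hR (by omega) (hdiv hR (by omega) h0)
    have h6 := hdiv hR (by omega) h5
    have t1 := Tm.d (m := m) (u := u) (j := j + 1) K (i + 1) d (by omega)
      (Tm_fix h0 hR0 (by omega) (mul_le_mul_of_nonneg_left (hp (by omega)) hK))
    have t2 := Tm.c (m := m) (u := u) (j := j + 1) (2 * K) (i + 1) _ (by omega)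
      (Tm_fix (h1'.const_mul 2) hR0 (by omega) (by
        rw [Complex.norm_ofNat, mul_assoc]
        exact mul_le_mul_of_nonneg_left (mul_le_mul_of_nonneg_left (hp (by omega)) hK) (by norm_num)))
    have t3 := Tm.d (m := m) (u := u) (j := j + 1) ((11 * D ^ 2 + 11 * D + 1) * K) i _ (by omega)
      (Tm_fix (((h5.const_mul 11).add (h3.const_mul (-11))).add h2) hR0 (by omega) (by
        rw [norm_neg, Complex.norm_ofNat]
        refine le_trans (le_of_eq (by ring)) (mul_le_mul_of_nonneg_left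
          (hp (a := 2 * (j - 1 - i)) (by omega)) (by positivity))))
    have t4 := Tm.c (m := m) (u := u) (j := j + 1) ((2 * D ^ 2 + 2 * D ^ 3) * K) i _ (by omega)
      (Tm_fix ((h4.add (h6.const_mul (-1))).const_mul (2 * (MM m : ℂ))) hR0 (by omega) (by
        rw [norm_neg, norm_one, norm_mul, Complex.norm_ofNat, Complex.norm_real,
          Real.norm_of_nonneg hM0]
        refine le_trans ?_ (mul_le_mul_of_nonneg_left
          (hp (a := 2 * (j - 1 - i) + 2) (by omega)) (by positivity))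
        rw [pow_add κ]
        refine le_trans (le_of_eq (by ring)) (mul_le_mul_of_nonneg_left
          (mul_le_mul_of_nonneg_left hM (by positivity)) (by positivity))))
    refine (((t1.add t2).add t3).add t4).congr (le_of_eq (by ring)) fun r hr => ?_
    have hs := contDiffOn_lv (N := 12) (N' := 3) hR0 hu m (j := i) (by omega)
    rw [DD_mul (h.1.of_le (by exact_mod_cast Nat.le_add_left 2 N)) (contDiffOn_deriv (N := 2) hs) hr,
      DD_deriv hR0 hs hr, deriv2_eq m (lv m u i), lv_succ]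
    ring
  | add h h' ih ih' =>
    refine (ih.add ih').congr (le_of_eq (by ring)) fun r hr => ?_
    exact DD_add ((h.smooth hR hu hN).of_le (by exact_mod_cast Nat.le_add_left 2 N))
      ((h'.smooth hR hu hN).of_le (by exact_mod_cast Nat.le_add_left 2 N)) hr
  | congr h hK he ih =>
    exact ih.congr (mul_le_mul_of_nonneg_left hK (by positivity)) fun r hr => DD_congr he hr

theorem lv_mul : ∃ C : ℝ, 0 ≤ C ∧ ∀ {R₀ ε κ : ℝ} {m : ℕ} {c u : ℝ → ℂ}, 1 ≤ R₀ → 1 ≤ κ →
    MM m ≤ κ ^ 2 → Sy R₀ 12 2 ε c → ContDiffOn ℝ 12 u (Ioi R₀) → ∀ j : ℕ, j ≤ 4 → ∀ r : ℝ, R₀ < r →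
      ‖lv m (fun r => c r * u r) j r‖ ≤ C * ε / r ^ 2 * Zv κ m u j r ∧
      ‖deriv (lv m (fun r => c r * u r) j) r‖ ≤ C * ε * Zd κ m u j r := by
  obtain ⟨C, hC, H⟩ := Tm.step
  refine ⟨14 * (C + 1) ^ 4, by positivity, ?_⟩
  intro R₀ ε κ m c u hR hκ hM hc hu j hj r hr
  have hε : 0 ≤ ε := hc.nonneg (by linarith)
  have h1 : ∀ j : ℕ, j ≤ 4 →
      Tm R₀ κ m u (12 - 2 * j) j ((C + 1) ^ j * ε) (lv m (fun r => c r * u r) j) := by
    intro j hj
    induction j with
    | zero => exact Tm.c _ 0 c le_rfl (by simpa using hc)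
    | succ j ih =>
      have h2 := ih (by omega)
      rw [show 12 - 2 * j = 12 - 2 * (j + 1) + 2 by omega] at h2
      rw [lv_succ]
      refine (H hR hκ hM hu (by omega) h2).congr ?_ fun _ _ => rfl
      rw [pow_succ', mul_assoc]
      exact mul_le_mul_of_nonneg_right (by linarith) (by positivity)
  have h2 : (C + 1) ^ j * ε ≤ (C + 1) ^ 4 * ε :=
    mul_le_mul_of_nonneg_right (pow_le_pow_right₀ (by linarith) hj) hε
  have h3 : 0 ≤ (C + 1) ^ 4 * ε := by positivity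
  refine ⟨((h1 j hj).congr (by linarith) fun _ _ => rfl).bd hR hκ hr, ?_⟩
  rw [mul_assoc 14]
  exact ((h1 j hj).congr h2 fun _ _ => rfl).bd' hR hκ hM hu (by omega) (by omega) hr

end Crest.Agent.R086.Mb
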