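import Crest.Agent.R086.Mb.Sy
import Crest.Agent.R086.Mb.DAlg

/-! Row 86, part M-b: commuting `𝒟^j` with a symbol. -/

set_option autoImplicit false

open MeasureTheory Set Filter Topology
open scoped ComplexConjugate

namespace Crest.Agent.R086.Mb

/-- sums of terms `c u_i` and `d u_i'` of the size of `𝒟^j (c u)`; `N` derivatives of the coefficients -/
inductive Tm (R₀ κ : ℝ) (m : ℕ) (u : ℝ → ℂ) (N j : ℕ) : ℝ → (ℝ → ℂ) → Prop
  | c (K : ℝ) (i : ℕ) (c : ℝ → ℂ) (hi : i ≤ j)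
      (h : Sy R₀ N (2 + 2 * (j - i)) (K * κ ^ (2 * (j - i))) c) :
      Tm R₀ κ m u N j K (fun r => c r * lv m u i r)
  | d (K : ℝ) (i : ℕ) (d : ℝ → ℂ) (hi : i < j)
      (h : Sy R₀ N (1 + 2 * (j - i)) (K * κ ^ (2 * (j - 1 - i))) d) :
      Tm R₀ κ m u N j K (fun r => d r * deriv (lv m u i) r)
  | add {K K' : ℝ} {X X' : ℝ → ℂ} (h : Tm R₀ κ m u N j K X) (h' : Tm R₀ κ m u N j K' X') :
      Tm R₀ κ m u N j (K + K') (fun r => X r + X' r)
  | congr {K K' : ℝ} {X X' : ℝ → ℂ} (h : Tm R₀ κ m u N j K X) (hK : K ≤ K')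
      (he : ∀ r, R₀ < r → X' r = X r) : Tm R₀ κ m u N j K' X'

variable {R₀ κ K : ℝ} {m N j : ℕ} {u X : ℝ → ℂ}

theorem Tm.nonneg (h : Tm R₀ κ m u N j K X) (hR : 1 ≤ R₀) (hκ : 1 ≤ κ) : 0 ≤ K := by
  induction h with
  | c K i c hi h => exact nonneg_of_mul_nonneg_left (h.nonneg (by linarith)) (by positivity)
  | d K i d hi h => exact nonneg_of_mul_nonneg_left (h.nonneg (by linarith)) (by positivity)
  | add _ _ ih ih' => exact add_nonneg ih ih'
  | congr _ hK _ ih => exact ih.trans hK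

theorem Tm.smooth (h : Tm R₀ κ m u N j K X) (hR : 1 ≤ R₀) (hu : ContDiffOn ℝ 12 u (Ioi R₀))
    (hN : N + 2 * j ≤ 12) : ContDiffOn ℝ N X (Ioi R₀) := by
  induction h with
  | c K i c hi h => exact h.1.mul (contDiffOn_lv (N := 12) (by linarith) hu m (by omega))
  | d K i d hi h =>
    exact h.1.mul (contDiffOn_deriv (contDiffOn_lv (N := 12) (by linarith) hu m (by omega)))
  | add _ _ ih ih' => exact ih.add ih'
  | congr _ _ he ih => exact ih.congr he

theorem Tm.bd (h : Tm R₀ κ m u N j K X) (hR : 1 ≤ R₀) (hκ : 1 ≤ κ) {r : ℝ} (hr : R₀ < r) :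
    ‖X r‖ ≤ K / r ^ 2 * Zv κ m u j r := by
  have h0 : 0 < r := by linarith
  have hA : ∀ i ∈ Finset.range (j + 1),
      0 ≤ κ ^ (2 * (j - i)) / r ^ (2 * (j - i)) * ‖lv m u i r‖ := fun i _ => by positivity
  have hB : ∀ i ∈ Finset.range j,
      0 ≤ κ ^ (2 * (j - 1 - i)) * r / r ^ (2 * (j - i)) * ‖deriv (lv m u i) r‖ :=
    fun i _ => by positivity
  have hA' := Finset.sum_nonneg hA
  have hB' := Finset.sum_nonneg hB
  induction h with
  | c K i c hi h =>
    have hK := (Tm.c K i c hi h : Tm R₀ κ m u N j K _).nonneg hR hκ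
    calc _ ≤ K * κ ^ (2 * (j - i)) / r ^ (2 + 2 * (j - i)) * ‖lv m u i r‖ := by
          rw [norm_mul]
          exact mul_le_mul_of_nonneg_right (h.bd hr) (norm_nonneg _)
      _ = K / r ^ 2 * (κ ^ (2 * (j - i)) / r ^ (2 * (j - i)) * ‖lv m u i r‖) := by
          rw [pow_add]
          field_simp
      _ ≤ _ := mul_le_mul_of_nonneg_left ((Finset.single_le_sum hA
          (Finset.mem_range.2 (Nat.lt_succ_of_le hi))).trans (le_add_of_nonneg_right hB'))
          (by positivity)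
  | d K i d hi h =>
    have hK := (Tm.d K i d hi h : Tm R₀ κ m u N j K _).nonneg hR hκ
    calc _ ≤ K * κ ^ (2 * (j - 1 - i)) / r ^ (1 + 2 * (j - i)) * ‖deriv (lv m u i) r‖ := by
          rw [norm_mul]
          exact mul_le_mul_of_nonneg_right (h.bd hr) (norm_nonneg _)
      _ = K / r ^ 2 *
            (κ ^ (2 * (j - 1 - i)) * r / r ^ (2 * (j - i)) * ‖deriv (lv m u i) r‖) := by
          rw [pow_add]
          field_simp
      _ ≤ _ := mul_le_mul_of_nonneg_left ((Finset.single_le_sum hB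
          (Finset.mem_range.2 hi)).trans (le_add_of_nonneg_left hA')) (by positivity)
  | add _ _ ih ih' =>
    rw [add_div, add_mul]
    exact (norm_add_le _ _).trans (add_le_add ih ih')
  | congr _ hK he ih =>
    rw [he r hr]
    exact ih.trans (mul_le_mul_of_nonneg_right (by gcongr) (add_nonneg hA' hB'))

/-- `(c u_i)' = c' u_i + c u_i'`, `(d u_i')' = d' u_i' + d (u_{i+1} - 11 u_i'/r + M u_i/r²)` -/
theorem Tm.bd' (h : Tm R₀ κ m u N j K X) (hR : 1 ≤ R₀) (hκ : 1 ≤ κ) (hM : MM m ≤ κ ^ 2)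
    (hu : ContDiffOn ℝ 12 u (Ioi R₀)) (hN : 1 ≤ N) (hN' : N + 2 * j ≤ 12) {r : ℝ} (hr : R₀ < r) :
    ‖deriv X r‖ ≤ 14 * K * Zd κ m u j r := by
  have h1 : 1 ≤ r := by linarith
  have hA : ∀ i ∈ Finset.range (j + 1),
      0 ≤ κ ^ (2 * (j - i)) * (‖lv m u i r‖ + ‖deriv (lv m u i) r‖) := fun i _ => by positivity
  have hZ : 0 ≤ Zd κ m u j r := Finset.sum_nonneg hA
  have hT : ∀ i ≤ j, κ ^ (2 * (j - i)) * (‖lv m u i r‖ + ‖deriv (lv m u i) r‖) ≤ Zd κ m u j r :=
    fun i hi => Finset.single_le_sum hA (Finset.mem_range.2 (Nat.lt_succ_of_le hi))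
  have hS : ∀ {o : ℕ} {L : ℝ} {c : ℝ → ℂ}, Sy R₀ N o L c → ‖c r‖ ≤ L ∧ ‖deriv c r‖ ≤ L := by
    intro o L c h
    have hL := h.nonneg (by linarith)
    refine ⟨(h.bd hr).trans (div_le_self hL (one_le_pow₀ h1)), ?_⟩
    rw [← iteratedDeriv_one]
    exact (h.2 1 hN r hr).trans (div_le_self hL (one_le_pow₀ h1))
  induction h with
  | c K i c hi h =>
    have hK := (Tm.c K i c hi h : Tm R₀ κ m u N j K _).nonneg hR hκ
    obtain ⟨b0, b1⟩ := hS h
    rw [((hasDerivAt_of_contDiffOn h.1 hN hr).fun_mul (hasDerivAt_of_contDiffOn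
      (contDiffOn_lv (N := 12) (N' := 1) (j := i) (by linarith) hu m (by omega)) le_rfl hr)).deriv]
    have a := mul_le_mul_of_nonneg_left (hT i hi) hK
    have a0 := mul_le_mul_of_nonneg_right b0 (norm_nonneg (deriv (lv m u i) r))
    have a1 := mul_le_mul_of_nonneg_right b1 (norm_nonneg (lv m u i r))
    refine (norm_add_le _ _).trans ?_
    rw [norm_mul, norm_mul]
    linarith [mul_nonneg hK hZ]
  | d K i d hi h =>
    have hK := (Tm.d K i d hi h : Tm R₀ κ m u N j K _).nonneg hR hκ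
    obtain ⟨b0, b1⟩ := hS h
    rw [((hasDerivAt_of_contDiffOn h.1 hN hr).fun_mul (hasDerivAt_deriv_of_contDiffOn
      (contDiffOn_lv (N := 12) (N' := 2) (j := i) (by linarith) hu m (by omega)) le_rfl hr)).deriv,
      deriv2_eq m, ← lv_succ]
    have a := mul_le_mul_of_nonneg_left (hT i hi.le) hK
    have a' := mul_le_mul_of_nonneg_left (hT (i + 1) hi) hK
    rw [show 2 * (j - i) = 2 * (j - 1 - i) + 2 by omega, pow_add, ← mul_assoc, ← mul_assoc] at a
    rw [show j - (i + 1) = j - 1 - i by omega, ← mul_assoc] at a'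
    have hL : 0 ≤ K * κ ^ (2 * (j - 1 - i)) := by positivity
    generalize K * κ ^ (2 * (j - 1 - i)) = L at *
    have hk : 1 ≤ κ ^ 2 := one_le_pow₀ hκ
    have e1 : ‖11 / (r : ℂ) * deriv (lv m u i) r‖ ≤ 11 * (κ ^ 2 * ‖deriv (lv m u i) r‖) := by
      rw [norm_mul, norm_div, Complex.norm_real, Real.norm_of_nonneg (by linarith), ← mul_assoc]
      refine mul_le_mul_of_nonneg_right ?_ (norm_nonneg _)
      refine (div_le_self (norm_nonneg _) h1).trans ?_
      rw [Complex.norm_ofNat]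
      linarith
    have e2 : ‖(MM m : ℂ) / (r : ℂ) ^ 2 * lv m u i r‖ ≤ κ ^ 2 * ‖lv m u i r‖ := by
      rw [norm_mul, norm_div, norm_pow, Complex.norm_real, Complex.norm_real,
        Real.norm_of_nonneg (MM_nonneg m), Real.norm_of_nonneg (by linarith)]
      exact mul_le_mul_of_nonneg_right
        ((div_le_self (MM_nonneg m) (one_le_pow₀ h1)).trans hM) (norm_nonneg _)
    have a0 := mul_le_mul b0 ((norm_add_le _ _).trans (add_le_add ((norm_sub_le
      (lv m u (i + 1) r) _).trans (add_le_add le_rfl e1)) e2)) (norm_nonneg _) hL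
    have a1 := mul_le_mul b1 (le_mul_of_one_le_left (norm_nonneg (deriv (lv m u i) r)) hk)
      (norm_nonneg _) hL
    have a2 : 0 ≤ L * κ ^ 2 * ‖lv m u i r‖ := by positivity
    have a3 : 0 ≤ L * ‖deriv (lv m u (i + 1)) r‖ := by positivity
    refine (norm_add_le _ _).trans ?_
    rw [norm_mul, norm_mul]
    linarith [mul_nonneg hK hZ]
  | add h h' ih ih' =>
    rw [((hasDerivAt_of_contDiffOn (h.smooth hR hu hN') hN hr).fun_add
      (hasDerivAt_of_contDiffOn (h'.smooth hR hu hN') hN hr)).deriv]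
    exact (norm_add_le _ _).trans (by linarith)
  | congr _ hK he ih =>
    rw [deriv_congr_Ioi he hr]
    exact ih.trans (mul_le_mul_of_nonneg_right (by linarith) hZ)

end Crest.Agent.R086.Mb
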